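import Vale.Agent.Lib.MathlibUsed

/-!
# The algorithm, on lists of natural numbers

A graph is a number `N` of vertices `0, …, N-1` with a list `E` of edges. Functions on the vertices
are lists of numbers.
-/

namespace Vale.Agent.P325.Alg

/-- entry of a list -/
def gt (F : List ℕ) (x : ℕ) : ℕ := F.getD x 0

/-- table of a function -/
def tab (N : ℕ) (f : ℕ → ℕ) : List ℕ := (List.range N).map f

/-- sum over the vertices -/
def sumR (N : ℕ) (f : ℕ → ℕ) : ℕ := ((List.range N).map f).sum

/-- base two logarithm -/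
def lg (x : ℕ) : ℕ := Nat.size x - 1

/-! ### Walks -/

/-- contribution of an edge to the matrix vector product at `x` -/
def mvE (F h : List ℕ) (x : ℕ) (e : ℕ × ℕ) : ℕ :=
  ((if x = e.1 then 1 else 0) + (if x = e.2 then 1 else 0)) *
    (gt F e.1 * gt h e.1 + gt F e.2 * gt h e.2)

/-- matrix times vector -/
def mvL (N : ℕ) (E : List (ℕ × ℕ)) (F h : List ℕ) : List ℕ :=
  tab N fun x => gt F x * (E.map (mvE F h x)).sum

/-- degrees -/
def degL (N : ℕ) (E : List (ℕ × ℕ)) (F : List ℕ) : List ℕ := mvL N E F (tab N fun _ => 1)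

/-- common multiple of the degrees -/
def QpL (D : List ℕ) : ℕ := (D.map fun d => max d 1).prod

/-- scale a vector by `Q / D` -/
def scaleL (N : ℕ) (D : List ℕ) (Q : ℕ) (y : List ℕ) : List ℕ :=
  tab N fun x => (Q / gt D x) * gt y x

/-- scaled walk -/
def stepL (N : ℕ) (E : List (ℕ × ℕ)) (F D : List ℕ) (Q : ℕ) (h : List ℕ) : List ℕ :=
  scaleL N D Q (mvL N E F h)

/-- scaled walk, `t` steps -/
def iterL (N : ℕ) (E : List (ℕ × ℕ)) (F D : List ℕ) (Q t : ℕ) (h : List ℕ) : List ℕ :=
  (stepL N E F D Q)^[t] h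

/-- square norm -/
def nrmL (N : ℕ) (D h : List ℕ) : ℕ := sumR N fun x => gt D x * gt h x ^ 2

/-- energy -/
def energyL (E : List (ℕ × ℕ)) (F h : List ℕ) : ℕ :=
  (E.map fun e => gt F e.1 * gt F e.2 *
    ((gt h e.1 - gt h e.2) + (gt h e.2 - gt h e.1)) ^ 2).sum

/-- volume of the support -/
def svolL (N : ℕ) (D h : List ℕ) : ℕ := sumR N fun x => if gt h x = 0 then 0 else gt D x

/-- truncation of the vector `X` (the walk from `v` after `t` steps) -/
def truncL (N : ℕ) (D : List ℕ) (Q v t : ℕ) (X : List ℕ) : List ℕ :=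
  tab N fun x => 4 * gt D v * Q ^ t * gt X x - nrmL N D X

/-- the bump `(v, t)` -/
def bumpL (N : ℕ) (E : List (ℕ × ℕ)) (F D : List ℕ) (Q v t : ℕ) : List ℕ :=
  truncL N D Q v t (iterL N E F D Q t (tab N fun x => if x = v then 1 else 0))

/-- is the bump `Y` cheap? -/
def cheapL (N : ℕ) (E : List (ℕ × ℕ)) (F D : List ℕ) (L r R w : ℕ) (Y : List ℕ) : Bool :=
  decide (lg (4 * r) ≤ lg (w / svolL N D Y)) &&
    decide (R * energyL E F Y ≤ min (lg (w / svolL N D Y)) (2 * L) * nrmL N D Y)

/-- the test for `(v, t)`; here `t < T` in all uses -/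
def goodL (N : ℕ) (E : List (ℕ × ℕ)) (F D : List ℕ) (Q n L r R T w v t : ℕ) : Bool :=
  (decide (0 < gt D v) && decide (w ≤ n ^ 2 * gt D v)) &&
    cheapL N E F D L r R w (bumpL N E F D Q v (min t T))

/-- all pairs `(v, t)` -/
def pairsL (N T : ℕ) : List (ℕ × ℕ) :=
  (List.range N).flatMap fun v => (List.range T).map fun t => (v, t)

/-- search for a cheap bump -/
def findL (N : ℕ) (E : List (ℕ × ℕ)) (F D : List ℕ) (Q n L r R T w : ℕ) : Option (ℕ × ℕ) :=
  (pairsL N T).find? fun p => goodL N E F D Q n L r R T w p.1 p.2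

/-- maximum -/
def maxL (Y : List ℕ) : ℕ := Y.foldl max 0

/-- the piece split off -/
def childLL (N : ℕ) (F Y : List ℕ) (m : ℕ) : List ℕ :=
  tab N fun x => gt F x * (2 * gt Y x * m) / (m ^ 2 + gt Y x ^ 2)

/-- the remaining piece -/
def childRL (N : ℕ) (F Y : List ℕ) (m : ℕ) : List ℕ :=
  tab N fun x => gt F x * (m ^ 2 - gt Y x ^ 2) / (m ^ 2 + gt Y x ^ 2)

/-! ### Labels from seeds -/

/-- constraints `(u, v, π)` -/
abbrev Cons := List (ℕ × ℕ × List ℕ)

/-- edges of the constraints -/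
def baseL (C : Cons) : List (ℕ × ℕ) := C.map fun c => (c.1, c.2.1)

/-- edges of the label extended graph; the vertex `(u, i)` has the number `i + k * u` -/
def liftL (k : ℕ) (C : Cons) : List (ℕ × ℕ) :=
  C.flatMap fun c => (List.range k).map fun i => (i + k * c.1, gt c.2.2 i + k * c.2.1)

/-- lift of a function -/
def hatL (k N : ℕ) (F : List ℕ) : List ℕ := tab (N * k) fun x => gt F (x / k)

/-- the `s`-th seed of the certificate `c`; here `s < S` in all uses -/
def seedL (M S c s : ℕ) : ℕ := c / M ^ min s S % M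

/-- the sum of the scaled seeds, `M` vertices -/
def psiL (M : ℕ) (D : List ℕ) (Q S c : ℕ) : List ℕ :=
  tab M fun y => ((List.range S).map fun s =>
    if y = seedL M S c s then Q / gt D y else 0).sum

/-- `Q ^ T • a + b`, entrywise -/
def addL (M A : ℕ) (a b : List ℕ) : List ℕ := tab M fun x => A * gt a x + gt b x

/-- one step of the filter, on pairs (positive part, negative part) -/
def filtStepL (M : ℕ) (E : List (ℕ × ℕ)) (F D : List ℕ) (Q T : ℕ) (p : List ℕ × List ℕ) :
    List ℕ × List ℕ :=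
  (addL M (Q ^ T) p.1 (iterL M E F D Q T p.2), addL M (Q ^ T) p.2 (iterL M E F D Q T p.1))

/-- `(Q^T - walk^T)^S' psi`, as a pair -/
def filtL (M : ℕ) (E : List (ℕ × ℕ)) (F D : List ℕ) (Q T S' : ℕ) (psi : List ℕ) :
    List ℕ × List ℕ :=
  (filtStepL M E F D Q T)^[S'] (psi, tab M fun _ => 0)

/-- the vector `Q^(T S') psi + negative part` -/
def scoreL (M Q T S' : ℕ) (psi : List ℕ) (p : List ℕ × List ℕ) : List ℕ × List ℕ :=
  (addL M (Q ^ (T * S')) psi p.2, p.1)

/-- is `i` a best label of `u`? -/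
def bestAtL (k : ℕ) (p : List ℕ × List ℕ) (u i : ℕ) : Bool :=
  (List.range k).all fun j => decide (gt p.1 (j + k * u) + gt p.2 (i + k * u) ≤
    gt p.1 (i + k * u) + gt p.2 (j + k * u))

/-- the labeling of maximal score -/
def labelL (k N : ℕ) (p : List ℕ × List ℕ) : List ℕ :=
  tab N fun u => ((List.range k).find? (bestAtL k p u)).getD 0

/-- violated weight of a labeling inside a piece -/
def costL (C : Cons) (F a : List ℕ) : ℕ :=
  (C.map fun c => if gt a c.2.1 = gt c.2.2 (gt a c.1) then 0 else gt F c.1 * gt F c.2.1).sum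

/-- labeling of the certificate `c`; `E, F, D, Q` belong to the label extended graph -/
def decodeL (k N : ℕ) (E : List (ℕ × ℕ)) (F D : List ℕ) (Q T S' S c : ℕ) : List ℕ :=
  labelL k N (scoreL (N * k) Q T S' (psiL (N * k) D Q S c)
    (filtL (N * k) E F D Q T S' (psiL (N * k) D Q S c)))

/-- cost of the certificate `c` -/
def certL (k N : ℕ) (C : Cons) (F : List ℕ) (E : List (ℕ × ℕ)) (Fh D : List ℕ)
    (Q T S' S c : ℕ) : ℕ :=
  costL C F (decodeL k N E Fh D Q T S' S c)

/-- best cost over the certificates `< B` (and `0`) -/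
def bestL (k N : ℕ) (C : Cons) (F : List ℕ) (E : List (ℕ × ℕ)) (Fh D : List ℕ)
    (Q T S' S B : ℕ) : ℕ :=
  ((List.range B).map fun c => certL k N C F E Fh D Q T S' S c).foldl min
    (certL k N C F E Fh D Q T S' S 0)

/-- best cost in a leaf -/
def leafL (k N : ℕ) (C : Cons) (F : List ℕ) (T S' S B : ℕ) : ℕ :=
  bestL k N C F (liftL k C) (hatL k N F) (degL (N * k) (liftL k C) (hatL k N F))
    (QpL (degL (N * k) (liftL k C) (hatL k N F))) T S' S B

/-! ### The main loop -/

/-- nodes -/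
abbrev NodeL := List ℕ × ℕ × ℕ

/-- states: active nodes, accumulated weight, accumulated violated weight -/
abbrev StL := List NodeL × ℕ × ℕ

/-- the numbers used in a run: `(n, L, r, R, T, J, b, S', S, B)` -/
structure Num where
  n : ℕ
  L : ℕ
  r : ℕ
  R : ℕ
  T : ℕ
  J : ℕ
  b : ℕ
  S' : ℕ
  S : ℕ
  B : ℕ

/-- children of a node -/
def splitL (N : ℕ) (E : List (ℕ × ℕ)) (F : List ℕ) (wh j : ℕ) (rest : List NodeL) (Y : List ℕ) :
    List NodeL :=
  (childRL N F Y (maxL Y), wh, j) ::
    (childLL N F Y (maxL Y), (degL N E (childLL N F Y (maxL Y))).sum, j + 1) :: rest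

/-- treatment of a node, `D` = degrees, `o` = result of the search -/
def treatL (k N : ℕ) (C : Cons) (P : Num) (nd : NodeL) (rest : List NodeL) (aw av : ℕ)
    (D : List ℕ) : StL :=
  if P.J ≤ nd.2.2 ∨ D.sum * P.n < nd.2.1 then (rest, aw, av)
  else match findL N (baseL C) nd.1 D (QpL D) P.n P.L P.r P.R P.T D.sum with
    | none => (rest, aw + D.sum, av + leafL k N C nd.1 P.T P.S' P.S P.B)
    | some p => (splitL N (baseL C) nd.1 nd.2.1 nd.2.2 rest
        (bumpL N (baseL C) nd.1 D (QpL D) p.1 (min p.2 P.T)), aw, av)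

/-- one step of the main loop -/
def loopL (k N : ℕ) (C : Cons) (P : Num) (s : StL) : StL :=
  match s.1 with
  | [] => s
  | nd :: rest => treatL k N C P nd rest s.2.1 s.2.2 (degL N (baseL C) nd.1)

/-- initial state -/
def initL (N : ℕ) (C : Cons) (P : Num) : StL :=
  ([(tab N fun _ => 2 ^ P.b, (degL N (baseL C) (tab N fun _ => 2 ^ P.b)).sum, 0)], 0, 0)

/-- the final test -/
def acceptL (k1 k2 m b aw av : ℕ) : Bool :=
  decide (k1 * (4 ^ b * 4 * m) ≤ 4 ^ b * 4 * m + k1 * aw) &&
    decide (2 * k2 * av ≤ 4 ^ b * 4 * m)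

/-- the answer for given numbers -/
def runL (k k1 k2 N : ℕ) (C : Cons) (P : Num) : Bool :=
  acceptL k1 k2 C.length P.b ((loopL k N C P)^[P.B] (initL N C P)).2.1
    ((loopL k N C P)^[P.B] (initL N C P)).2.2

/-! ### Parsing, and the choice of the numbers -/

/-- the constants of the algorithm -/
structure Cst where
  k : ℕ
  q : ℕ
  k1 : ℕ
  k2 : ℕ
  n0 : ℕ
  cq : ℕ
  L0 : ℕ
  CS : ℕ
  C : ℕ

/-- number of constraints in the code `l` -/
def parseM (k : ℕ) (l : List ℕ) : ℕ := (l.length - 1) / (k + 2)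

/-- the constraints in the code `l` -/
def parseC (k : ℕ) (l : List ℕ) : Cons :=
  (List.range (parseM k l)).map fun i =>
    (gt l (1 + i * (k + 2)), gt l (2 + i * (k + 2)), (l.drop (3 + i * (k + 2))).take k)

/-- the numbers of the run, `B` the length of the padding -/
def nums (c : Cst) (n r B : ℕ) : Num where
  n := n
  L := Nat.size n
  r := r
  R := 32 * c.k1 * Nat.size n
  T := 4 * (32 * c.k1 * Nat.size n) * c.cq
  J := 16 * c.q * c.k1
  b := (8 * (16 * c.q * c.k1) + 32) * Nat.size n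
  S' := c.L0 * r
  S := c.CS * r ^ 3
  B := B

/-- size of the instance plus `n0` -/
def sizeL (c : Cst) (l : List ℕ) : ℕ := l.headD 0 + parseM c.k l + c.n0

/-- the answer with a padding of length `B`; `none` if the padding is too short -/
def main (c : Cst) (l : List ℕ) (B : ℕ) : Option Bool :=
  match (List.range B).find? (fun r => decide (sizeL c l ≤ r ^ (4 * c.q))) with
  | none => none
  | some r => if c.C * r ^ 4 < Nat.size B then
      some (runL c.k c.k1 c.k2 (min (l.headD 0) B) (parseC c.k l)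
        (nums c (sizeL c l) (min r B) B))
    else none

end Vale.Agent.P325.Alg
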