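import Vale.Agent.Lib.PolyTime.Lists2
import Vale.Agent.Lib.PolyTime.NatArith2
import Vale.Agent.P325.Alg

/-!
# The walk part of the algorithm runs in polynomial time
-/

namespace Vale.Agent.P325.AlgPT

open Vale.Agent.Lib.PolyTime Vale.Agent.P325.Alg Function

variable {A : Set Word} {α β γ : Type*} [Enc α] [Enc β] [Enc γ]

/-! ### Plumbing -/

theorem pt_gt {F : α → List ℕ} {x : α → ℕ} (hF : PT A F) (hx : PT A x) :
    PT A (fun a => gt (F a) (x a)) := PT.getD hF hx (PT.const 0)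

theorem pt_tab {N : α → ℕ} {f : α → ℕ → ℕ} (hN : PT A N) (hNb : PBd N)
    (hf : PT A (fun p : α × ℕ => f p.1 p.2)) : PT A (fun a => tab (N a) (f a)) :=
  PT.map (PT.range hN hNb) hf

theorem pt_sumR {N : α → ℕ} {f : α → ℕ → ℕ} (hN : PT A N) (hNb : PBd N)
    (hf : PT A (fun p : α × ℕ => f p.1 p.2)) : PT A (fun a => sumR (N a) (f a)) :=
  PT.sum (PT.map (PT.range hN hNb) hf)

theorem pt_lg {x : α → ℕ} (hx : PT A x) : PT A (fun a => lg (x a)) :=
  PT.sub (PT.natSize hx) (PT.const 1)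

/-- lifting to a larger context -/
theorem ptl {f : α → γ} (hf : PT A f) : PT A (fun p : α × β => f p.1) := hf.comp PT.fst'

theorem pbl {f : α → ℕ} (hf : PBd f) : PBd (fun p : α × β => f p.1) :=
  PBd.comp (A := ∅) hf PT.fst'

theorem pbd_of_le {f g : α → ℕ} (hg : PBd g) (h : ∀ a, f a ≤ g a) : PBd f := hg.mono h

theorem pt_mvE {F h : α → List ℕ} {x : α → ℕ} {e : α → ℕ × ℕ} (hF : PT A F) (hh : PT A h)
    (hx : PT A x) (he : PT A e) : PT A (fun a => mvE (F a) (h a) (x a) (e a)) := by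
  unfold mvE
  refine PT.mul (PT.add (PT.ite (PT.eqNat hx he.fst) (PT.const 1) (PT.const 0))
    (PT.ite (PT.eqNat hx he.snd) (PT.const 1) (PT.const 0))) ?_
  exact PT.add (PT.mul (pt_gt hF he.fst) (pt_gt hh he.fst))
    (PT.mul (pt_gt hF he.snd) (pt_gt hh he.snd))

variable {N Q n L r R T w v t m : α → ℕ} {E : α → List (ℕ × ℕ)} {F D h y X Y : α → List ℕ}

theorem pt_mvL (hN : PT A N) (hNb : PBd N) (hE : PT A E) (hF : PT A F) (hh : PT A h) :
    PT A (fun a => mvL (N a) (E a) (F a) (h a)) := by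
  unfold mvL
  refine pt_tab (f := fun a x => gt (F a) x * ((E a).map (mvE (F a) (h a) x)).sum) hN hNb ?_
  refine PT.mul (pt_gt (ptl hF) PT.snd') (PT.sum ?_)
  exact PT.map (f := fun (p : α × ℕ) e => mvE (F p.1) (h p.1) p.2 e) (ptl hE)
    (pt_mvE (ptl (ptl hF)) (ptl (ptl hh)) PT.fst'.snd PT.snd')

theorem pt_degL (hN : PT A N) (hNb : PBd N) (hE : PT A E) (hF : PT A F) :
    PT A (fun a => degL (N a) (E a) (F a)) :=
  pt_mvL hN hNb hE hF (pt_tab (f := fun _ _ => 1) hN hNb (PT.const 1))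

theorem pt_QpL (hD : PT A D) : PT A (fun a => QpL (D a)) :=
  PT.prod (PT.map (f := fun _ d => max d 1) hD (PT.max PT.snd' (PT.const 1)))

theorem pt_scaleL (hN : PT A N) (hNb : PBd N) (hD : PT A D) (hQ : PT A Q) (hy : PT A y) :
    PT A (fun a => scaleL (N a) (D a) (Q a) (y a)) :=
  pt_tab (f := fun a x => (Q a / gt (D a) x) * gt (y a) x) hN hNb
    (PT.mul (PT.div (ptl hQ) (pt_gt (ptl hD) PT.snd')) (pt_gt (ptl hy) PT.snd'))

theorem pt_stepL (hN : PT A N) (hNb : PBd N) (hE : PT A E) (hF : PT A F) (hD : PT A D)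
    (hQ : PT A Q) (hh : PT A h) :
    PT A (fun a => stepL (N a) (E a) (F a) (D a) (Q a) (h a)) :=
  pt_scaleL hN hNb hD hQ (pt_mvL hN hNb hE hF hh)

/-! ### Size bounds -/

theorem gt_lt (l : List ℕ) (x : ℕ) : gt l x < 2 ^ esize l := by
  unfold gt
  rcases lt_or_ge x l.length with hx | hx
  · rw [List.getD_eq_getElem _ _ hx]
    exact (lt_two_pow_esize _).trans_le
      (Nat.pow_le_pow_right (by norm_num) (esize_le_of_mem (List.getElem_mem hx)))
  · rw [List.getD_eq_default _ _ hx]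
    positivity

theorem gt_tab (M : ℕ) (f : ℕ → ℕ) (x : ℕ) : gt (tab M f) x = if x < M then f x else 0 := by
  unfold gt tab
  by_cases hx : x < M
  · rw [if_pos hx, List.getD_eq_getElem _ _ (by simpa using hx)]
    simp
  · rw [if_neg hx, List.getD_eq_default _ _ (by simpa using hx)]

theorem gt_tab_lt {M B : ℕ} {f : ℕ → ℕ} (h : ∀ x, f x < 2 ^ B) (x : ℕ) :
    gt (tab M f) x < 2 ^ B := by
  rw [gt_tab]
  split_ifs
  · exact h x
  · positivity

theorem esize_le_of_gt {l : List ℕ} {B : ℕ} (h : ∀ x, gt l x < 2 ^ B) :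
    esize l ≤ l.length * (2 * B + 1) := by
  refine esize_list_le fun x hx => esize_nat_le ?_
  obtain ⟨i, hi, rfl⟩ := List.getElem_of_mem hx
  have := h i
  unfold gt at this
  rwa [List.getD_eq_getElem _ _ hi] at this

theorem length_tab (M : ℕ) (f : ℕ → ℕ) : (tab M f).length = M := by simp [tab]

theorem length_stepL (N : ℕ) (E : List (ℕ × ℕ)) (F D : List ℕ) (Q : ℕ) (h : List ℕ) :
    (stepL N E F D Q h).length = N := length_tab _ _

theorem length_iterL (N : ℕ) (E : List (ℕ × ℕ)) (F D : List ℕ) (Q t : ℕ) (h : List ℕ) :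
    (iterL N E F D Q t h).length ≤ h.length + N := by
  unfold iterL
  rcases t with _ | t
  · simp
  · rw [iterate_succ_apply', length_stepL]
    omega

/-- sum of a list, bounded by the length times a bound -/
theorem sum_map_le {τ : Type*} {l : List τ} {f : τ → ℕ} {B : ℕ} (h : ∀ x ∈ l, f x ≤ B) :
    (l.map f).sum ≤ l.length * B := by
  refine (List.sum_le_card_nsmul (l.map f) B ?_).trans (by simp)
  intro x hx
  obtain ⟨y, hy, rfl⟩ := List.mem_map.1 hx
  exact h y hy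

theorem mvE_le {F h : List ℕ} {x : ℕ} {e : ℕ × ℕ} {f k : ℕ} (hF : ∀ x, gt F x < 2 ^ f)
    (hh : ∀ x, gt h x < 2 ^ k) : mvE F h x e ≤ 2 ^ (f + k + 2) := by
  unfold mvE
  have h1 : (if x = e.1 then 1 else 0) + (if x = e.2 then 1 else 0) ≤ 2 := by
    split_ifs <;> omega
  have h2 : ∀ y, gt F y * gt h y ≤ 2 ^ (f + k) := fun y => by
    rw [pow_add]
    exact Nat.mul_le_mul (hF y).le (hh y).le
  calc _ ≤ 2 * (2 ^ (f + k) + 2 ^ (f + k)) := Nat.mul_le_mul h1 (add_le_add (h2 _) (h2 _))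
    _ = 2 ^ (f + k + 2) := by rw [pow_succ, pow_succ]; ring

theorem stepL_lt {N : ℕ} {E : List (ℕ × ℕ)} {F D : List ℕ} {Q : ℕ} {h : List ℕ} {f k q e : ℕ}
    (hF : ∀ x, gt F x < 2 ^ f) (hh : ∀ x, gt h x < 2 ^ k) (hQ : Q < 2 ^ q)
    (hE : E.length < 2 ^ e) (x : ℕ) :
    gt (stepL N E F D Q h) x < 2 ^ (k + (q + 2 * f + e + 2)) := by
  have h1 : ∀ x, gt (mvL N E F h) x ≤ 2 ^ f * (E.length * 2 ^ (f + k + 2)) := by
    intro x
    unfold mvL
    rw [gt_tab]
    split_ifs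
    · exact Nat.mul_le_mul (hF x).le (sum_map_le fun e _ => mvE_le hF hh)
    · exact Nat.zero_le _
  unfold stepL scaleL
  rw [gt_tab]
  split_ifs
  · calc Q / gt D x * gt (mvL N E F h) x ≤ Q * (2 ^ f * (E.length * 2 ^ (f + k + 2))) :=
        Nat.mul_le_mul (Nat.div_le_self _ _) (h1 x)
      _ = (Q * E.length) * 2 ^ (k + (2 * f + 2)) := by
        rw [show k + (2 * f + 2) = f + (f + k + 2) by ring, pow_add 2 f (f + k + 2)]
        ring
      _ < (2 ^ q * 2 ^ e) * 2 ^ (k + (2 * f + 2)) :=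
        Nat.mul_lt_mul_of_pos_right (Nat.mul_lt_mul'' hQ hE) (by positivity)
      _ = 2 ^ (k + (q + 2 * f + e + 2)) := by
        rw [← pow_add, ← pow_add]; congr 1; ring
  · positivity

theorem iterL_lt {N : ℕ} {E : List (ℕ × ℕ)} {F D : List ℕ} {Q : ℕ} {h : List ℕ} {f k q e : ℕ}
    (hF : ∀ x, gt F x < 2 ^ f) (hh : ∀ x, gt h x < 2 ^ k) (hQ : Q < 2 ^ q)
    (hE : E.length < 2 ^ e) (t x : ℕ) :
    gt (iterL N E F D Q t h) x < 2 ^ (k + t * (q + 2 * f + e + 2)) := by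
  unfold iterL
  induction t generalizing x with
  | zero => simpa using hh x
  | succ t ih =>
    rw [iterate_succ_apply']
    refine (stepL_lt hF ih hQ hE x).trans_le (le_of_eq ?_)
    congr 1
    ring

/-- crude number of bits gained in a step -/
def gain (E : List (ℕ × ℕ)) (F : List ℕ) (Q : ℕ) : ℕ := esize Q + 2 * esize F + esize E + 2

theorem iterL_lt' (N : ℕ) (E : List (ℕ × ℕ)) (F D : List ℕ) (Q : ℕ) {h : List ℕ} {k : ℕ}
    (hh : ∀ x, gt h x < 2 ^ k) (t x : ℕ) :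
    gt (iterL N E F D Q t h) x < 2 ^ (k + t * gain E F Q) :=
  iterL_lt (gt_lt F) hh (lt_two_pow_esize Q)
    (Nat.lt_two_pow_self.trans_le (Nat.pow_le_pow_right (by norm_num) (length_le_esize E))) t x

theorem pbd_gain (hE : PT A E) (hF : PT A F) (hQ : PT A Q) :
    PBd (fun a => gain (E a) (F a) (Q a)) := by
  have h1 := hE.pbd
  have h2 := hF.pbd
  have h3 := hQ.pbd
  unfold gain
  fun_prop

theorem esize_iterL (N : ℕ) (E : List (ℕ × ℕ)) (F D : List ℕ) (Q t : ℕ) (h : List ℕ) :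
    esize (iterL N E F D Q t h) ≤
      (h.length + N) * (2 * (esize h + t * gain E F Q) + 1) :=
  (esize_le_of_gt (iterL_lt' N E F D Q (gt_lt h) t)).trans
    (Nat.mul_le_mul_right _ (length_iterL ..))

theorem pt_iterL (hN : PT A N) (hNb : PBd N) (hE : PT A E) (hF : PT A F) (hD : PT A D)
    (hQ : PT A Q) (ht : PT A t) (htb : PBd t) (hh : PT A h) :
    PT A (fun a => iterL (N a) (E a) (F a) (D a) (Q a) (t a) (h a)) := by
  have hg := pbd_gain hE hF hQ
  have h1 := PBd.length hh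
  have h2 := hh.pbd
  have hB : PBd (fun a => ((h a).length + N a) *
      (2 * (esize (h a) + t a * gain (E a) (F a) (Q a)) + 1)) := by
    fun_prop
  refine PT.iterate' (step := fun a h => stepL (N a) (E a) (F a) (D a) (Q a) h) ht htb hh
    (pt_stepL (ptl hN) (pbl hNb) (ptl hE) (ptl hF) (ptl hD) (ptl hQ) PT.snd') hB
    fun a j hj => ?_
  refine (esize_iterL (N a) (E a) (F a) (D a) (Q a) j (h a)).trans ?_
  gcongr

/-! ### Norms, energies, bumps -/

theorem pt_nrmL (hN : PT A N) (hNb : PBd N) (hD : PT A D) (hh : PT A h) :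
    PT A (fun a => nrmL (N a) (D a) (h a)) :=
  pt_sumR (f := fun a x => gt (D a) x * gt (h a) x ^ 2) hN hNb
    (PT.mul (pt_gt (ptl hD) PT.snd') (PT.powConst (pt_gt (ptl hh) PT.snd') 2))

theorem pt_energyL (hE : PT A E) (hF : PT A F) (hh : PT A h) :
    PT A (fun a => energyL (E a) (F a) (h a)) := by
  unfold energyL
  refine PT.sum (PT.map (f := fun a (e : ℕ × ℕ) => gt (F a) e.1 * gt (F a) e.2 *
    ((gt (h a) e.1 - gt (h a) e.2) + (gt (h a) e.2 - gt (h a) e.1)) ^ 2) hE ?_)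
  refine PT.mul (PT.mul (pt_gt (ptl hF) PT.snd'.fst) (pt_gt (ptl hF) PT.snd'.snd))
    (PT.powConst (PT.add (PT.sub (pt_gt (ptl hh) PT.snd'.fst) (pt_gt (ptl hh) PT.snd'.snd))
      (PT.sub (pt_gt (ptl hh) PT.snd'.snd) (pt_gt (ptl hh) PT.snd'.fst))) 2)

theorem pt_svolL (hN : PT A N) (hNb : PBd N) (hD : PT A D) (hh : PT A h) :
    PT A (fun a => svolL (N a) (D a) (h a)) :=
  pt_sumR (f := fun a x => if gt (h a) x = 0 then 0 else gt (D a) x) hN hNb
    (PT.ite (PT.eqNat (pt_gt (ptl hh) PT.snd') (PT.const 0)) (PT.const 0)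
      (pt_gt (ptl hD) PT.snd'))

theorem pt_truncL (hN : PT A N) (hNb : PBd N) (hD : PT A D) (hQ : PT A Q) (hv : PT A v)
    (ht : PT A t) (htb : PBd t) (hX : PT A X) :
    PT A (fun a => truncL (N a) (D a) (Q a) (v a) (t a) (X a)) :=
  pt_tab (f := fun a x => 4 * gt (D a) (v a) * Q a ^ t a * gt (X a) x - nrmL (N a) (D a) (X a))
    hN hNb (PT.sub (PT.mul (PT.mul (PT.mul (PT.const 4) (ptl (pt_gt hD hv)))
      (ptl (PT.pow hQ ht htb))) (pt_gt (ptl hX) PT.snd')) (ptl (pt_nrmL hN hNb hD hX)))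

theorem pt_bumpL (hN : PT A N) (hNb : PBd N) (hE : PT A E) (hF : PT A F) (hD : PT A D)
    (hQ : PT A Q) (hv : PT A v) (ht : PT A t) (htb : PBd t) :
    PT A (fun a => bumpL (N a) (E a) (F a) (D a) (Q a) (v a) (t a)) :=
  pt_truncL hN hNb hD hQ hv ht htb (pt_iterL hN hNb hE hF hD hQ ht htb
    (pt_tab (f := fun a x => if x = v a then 1 else 0) hN hNb
      (PT.ite (PT.eqNat PT.snd' (ptl hv)) (PT.const 1) (PT.const 0))))

theorem pt_cheapL (hN : PT A N) (hNb : PBd N) (hE : PT A E) (hF : PT A F) (hD : PT A D)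
    (hL : PT A L) (hr : PT A r) (hR : PT A R) (hw : PT A w) (hY : PT A Y) :
    PT A (fun a => cheapL (N a) (E a) (F a) (D a) (L a) (r a) (R a) (w a) (Y a)) := by
  have h1 := pt_svolL hN hNb hD hY
  have h2 := pt_lg (PT.div hw h1)
  unfold cheapL
  exact PT.and (PT.le (pt_lg (PT.mul (PT.const 4) hr)) h2)
    (PT.le (PT.mul hR (pt_energyL hE hF hY))
      (PT.mul (PT.min h2 (PT.mul (PT.const 2) hL)) (pt_nrmL hN hNb hD hY)))

theorem pt_goodL (hN : PT A N) (hNb : PBd N) (hE : PT A E) (hF : PT A F) (hD : PT A D)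
    (hQ : PT A Q) (hn : PT A n) (hL : PT A L) (hr : PT A r) (hR : PT A R) (hT : PT A T)
    (hTb : PBd T) (hw : PT A w) (hv : PT A v) (ht : PT A t) :
    PT A (fun a => goodL (N a) (E a) (F a) (D a) (Q a) (n a) (L a) (r a) (R a) (T a) (w a)
      (v a) (t a)) := by
  unfold goodL
  exact PT.and (PT.and (PT.lt (PT.const 0) (pt_gt hD hv))
    (PT.le hw (PT.mul (PT.powConst hn 2) (pt_gt hD hv))))
    (pt_cheapL hN hNb hE hF hD hL hr hR hw (pt_bumpL hN hNb hE hF hD hQ hv (PT.min ht hT)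
      (pbd_of_le hTb fun a => min_le_right _ _)))

theorem pt_pairsL (hN : PT A N) (hNb : PBd N) (hT : PT A T) (hTb : PBd T) :
    PT A (fun a => pairsL (N a) (T a)) :=
  PT.flatMap (f := fun a v => (List.range (T a)).map fun t => (v, t)) (PT.range hN hNb)
    (PT.map (f := fun (p : α × ℕ) t => (p.2, t)) (ptl (PT.range hT hTb))
      (PT.pair PT.fst'.snd PT.snd'))

theorem pt_findL (hN : PT A N) (hNb : PBd N) (hE : PT A E) (hF : PT A F) (hD : PT A D)
    (hQ : PT A Q) (hn : PT A n) (hL : PT A L) (hr : PT A r) (hR : PT A R) (hT : PT A T)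
    (hTb : PBd T) (hw : PT A w) :
    PT A (fun a => findL (N a) (E a) (F a) (D a) (Q a) (n a) (L a) (r a) (R a) (T a) (w a)) :=
  PT.find? (f := fun a (p : ℕ × ℕ) => goodL (N a) (E a) (F a) (D a) (Q a) (n a) (L a) (r a) (R a)
      (T a) (w a) p.1 p.2) (pt_pairsL hN hNb hT hTb)
    (pt_goodL (ptl hN) (pbl hNb) (ptl hE) (ptl hF) (ptl hD) (ptl hQ) (ptl hn) (ptl hL) (ptl hr)
      (ptl hR) (ptl hT) (pbl hTb) (ptl hw) PT.snd'.fst PT.snd'.snd)

/-! ### Children -/

theorem foldl_max_le {l : List ℕ} {s B : ℕ} (hs : s ≤ B) (h : ∀ x ∈ l, x ≤ B) :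
    l.foldl max s ≤ B := by
  induction l generalizing s with
  | nil => exact hs
  | cons a l ih =>
    rw [List.foldl_cons]
    exact ih (max_le hs (h a (by simp))) fun x hx => h x (by simp [hx])

theorem pt_maxL (hY : PT A Y) : PT A (fun a => maxL (Y a)) := by
  refine PT.foldl (init := fun _ => 0) (f := fun _ s x => max s x) hY (PT.const 0)
    (PT.max PT.snd'.fst PT.snd'.snd) hY.pbd fun a i => esize_nat_le ?_
  refine Nat.lt_of_le_pred (by positivity) (foldl_max_le (Nat.zero_le _) fun x hx => ?_)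
  have h1 := esize_le_of_mem (List.mem_of_mem_take hx)
  exact Nat.le_pred_of_lt ((lt_two_pow_esize x).trans_le (Nat.pow_le_pow_right (by norm_num) h1))

theorem pt_childLL (hN : PT A N) (hNb : PBd N) (hF : PT A F) (hY : PT A Y) (hm : PT A m) :
    PT A (fun a => childLL (N a) (F a) (Y a) (m a)) :=
  pt_tab (f := fun a x => gt (F a) x * (2 * gt (Y a) x * m a) / (m a ^ 2 + gt (Y a) x ^ 2)) hN hNb
    (PT.div (PT.mul (pt_gt (ptl hF) PT.snd') (PT.mul (PT.mul (PT.const 2)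
      (pt_gt (ptl hY) PT.snd')) (ptl hm)))
      (PT.add (PT.powConst (ptl hm) 2) (PT.powConst (pt_gt (ptl hY) PT.snd') 2)))

theorem pt_childRL (hN : PT A N) (hNb : PBd N) (hF : PT A F) (hY : PT A Y) (hm : PT A m) :
    PT A (fun a => childRL (N a) (F a) (Y a) (m a)) :=
  pt_tab (f := fun a x => gt (F a) x * (m a ^ 2 - gt (Y a) x ^ 2) / (m a ^ 2 + gt (Y a) x ^ 2))
    hN hNb
    (PT.div (PT.mul (pt_gt (ptl hF) PT.snd') (PT.sub (PT.powConst (ptl hm) 2)
      (PT.powConst (pt_gt (ptl hY) PT.snd') 2)))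
      (PT.add (PT.powConst (ptl hm) 2) (PT.powConst (pt_gt (ptl hY) PT.snd') 2)))

theorem childRL_le {N : ℕ} {F Y : List ℕ} {m b : ℕ} (hF : ∀ x, gt F x ≤ b) (x : ℕ) :
    gt (childRL N F Y m) x ≤ b := by
  unfold childRL
  rw [gt_tab]
  split_ifs
  · rcases Nat.eq_zero_or_pos (m ^ 2 + gt Y x ^ 2) with h0 | h0
    · rw [h0, Nat.div_zero]; exact Nat.zero_le _
    · refine Nat.div_le_of_le_mul ?_
      rw [mul_comm]
      exact Nat.mul_le_mul (by omega) (hF x)
  · exact Nat.zero_le _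

theorem childLL_le {N : ℕ} {F Y : List ℕ} {m b : ℕ} (hF : ∀ x, gt F x ≤ b) (x : ℕ) :
    gt (childLL N F Y m) x ≤ b := by
  unfold childLL
  rw [gt_tab]
  split_ifs
  · rcases Nat.eq_zero_or_pos (m ^ 2 + gt Y x ^ 2) with h0 | h0
    · rw [h0, Nat.div_zero]; exact Nat.zero_le _
    · refine Nat.div_le_of_le_mul ?_
      rw [mul_comm]
      refine Nat.mul_le_mul ?_ (hF x)
      rcases le_total (gt Y x) m with h | h
      · obtain ⟨d, rfl⟩ := Nat.exists_eq_add_of_le h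
        nlinarith
      · obtain ⟨d, hd⟩ := Nat.exists_eq_add_of_le h
        rw [hd]
        nlinarith
  · exact Nat.zero_le _

end Vale.Agent.P325.AlgPT
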