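import Vale.Agent.P325.AlgPT1

/-!
# The label part of the algorithm runs in polynomial time
-/

namespace Vale.Agent.P325.AlgPT

open Vale.Agent.Lib.PolyTime Vale.Agent.P325.Alg Function

variable {A : Set Word} {α β γ : Type*} [Enc α] [Enc β] [Enc γ]

variable {k N M Q T S' S B c s u i G : α → ℕ} {E : α → List (ℕ × ℕ)} {C : α → Cons}
variable {F D h psi x y l : α → List ℕ} {p : α → List ℕ × List ℕ}

theorem pt_baseL (hC : PT A C) : PT A (fun a => baseL (C a)) :=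
  PT.map (f := fun _ (c : ℕ × ℕ × List ℕ) => (c.1, c.2.1)) hC (PT.pair PT.snd'.fst PT.snd'.snd.fst)

theorem pt_liftL (hk : PT A k) (hkb : PBd k) (hC : PT A C) : PT A (fun a => liftL (k a) (C a)) := by
  unfold liftL
  refine PT.flatMap (f := fun a (c : ℕ × ℕ × List ℕ) =>
    (List.range (k a)).map fun i => (i + k a * c.1, gt c.2.2 i + k a * c.2.1)) hC ?_
  refine PT.map (f := fun (p : α × (ℕ × ℕ × List ℕ)) i =>
    (i + k p.1 * p.2.1, gt p.2.2.2 i + k p.1 * p.2.2.1)) (ptl (PT.range hk hkb)) ?_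
  exact PT.pair (PT.add PT.snd' (PT.mul (ptl (ptl hk)) PT.fst'.snd.fst))
    (PT.add (pt_gt PT.fst'.snd.snd.snd PT.snd') (PT.mul (ptl (ptl hk)) PT.fst'.snd.snd.fst))

theorem pt_hatL (hk : PT A k) (hkb : PBd k) (hN : PT A N) (hNb : PBd N) (hF : PT A F) :
    PT A (fun a => hatL (k a) (N a) (F a)) :=
  pt_tab (f := fun a x => gt (F a) (x / k a)) (PT.mul hN hk) (PBd.mul hNb hkb)
    (pt_gt (ptl hF) (PT.div PT.snd' (ptl hk)))

theorem pt_seedL (hM : PT A M) (hS : PT A S) (hSb : PBd S) (hc : PT A c) (hs : PT A s) :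
    PT A (fun a => seedL (M a) (S a) (c a) (s a)) := by
  unfold seedL
  exact PT.mod (PT.div hc (PT.pow hM (PT.min hs hS) (pbd_of_le hSb fun a => min_le_right _ _))) hM

theorem pt_psiL (hM : PT A M) (hMb : PBd M) (hD : PT A D) (hQ : PT A Q) (hS : PT A S)
    (hSb : PBd S) (hc : PT A c) :
    PT A (fun a => psiL (M a) (D a) (Q a) (S a) (c a)) := by
  unfold psiL
  refine pt_tab (f := fun a y => ((List.range (S a)).map fun s =>
    if y = seedL (M a) (S a) (c a) s then Q a / gt (D a) y else 0).sum) hM hMb ?_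
  refine PT.sum (PT.map (f := fun (p : α × ℕ) s =>
    if p.2 = seedL (M p.1) (S p.1) (c p.1) s then Q p.1 / gt (D p.1) p.2 else 0)
    (ptl (PT.range hS hSb)) ?_)
  exact PT.ite (PT.eqNat PT.fst'.snd (pt_seedL (ptl (ptl hM)) (ptl (ptl hS)) (pbl (pbl hSb))
    (ptl (ptl hc)) PT.snd')) (PT.div (ptl (ptl hQ)) (pt_gt (ptl (ptl hD)) PT.fst'.snd))
    (PT.const 0)

theorem pt_addL (hM : PT A M) (hMb : PBd M) (hG : PT A G) (hx : PT A x) (hy : PT A y) :
    PT A (fun a => addL (M a) (G a) (x a) (y a)) :=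
  pt_tab (f := fun a z => G a * gt (x a) z + gt (y a) z) hM hMb
    (PT.add (PT.mul (ptl hG) (pt_gt (ptl hx) PT.snd')) (pt_gt (ptl hy) PT.snd'))

theorem pt_filtStepL (hM : PT A M) (hMb : PBd M) (hE : PT A E) (hF : PT A F) (hD : PT A D)
    (hQ : PT A Q) (hT : PT A T) (hTb : PBd T) (hp : PT A p) :
    PT A (fun a => filtStepL (M a) (E a) (F a) (D a) (Q a) (T a) (p a)) := by
  unfold filtStepL
  exact PT.pair
    (pt_addL hM hMb (PT.pow hQ hT hTb) hp.fst (pt_iterL hM hMb hE hF hD hQ hT hTb hp.snd))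
    (pt_addL hM hMb (PT.pow hQ hT hTb) hp.snd (pt_iterL hM hMb hE hF hD hQ hT hTb hp.fst))

theorem addL_lt {M G : ℕ} {a b : List ℕ} {g k : ℕ} (hG : G ≤ 2 ^ g) (ha : ∀ x, gt a x < 2 ^ k)
    (hb : ∀ x, gt b x < 2 ^ (g + k)) (x : ℕ) : gt (addL M G a b) x < 2 ^ (k + (g + 1)) := by
  unfold addL
  rw [gt_tab]
  split_ifs
  · have h1 : G * gt a x ≤ 2 ^ g * 2 ^ k := Nat.mul_le_mul hG (ha x).le
    have h2 := hb x
    have h3 : 2 ^ (k + (g + 1)) = 2 ^ g * 2 ^ k + 2 ^ (g + k) := by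
      rw [pow_add, pow_succ, pow_add]; ring
    omega
  · positivity

theorem filtStepL_lt (M : ℕ) (E : List (ℕ × ℕ)) (F D : List ℕ) (Q T : ℕ) {p : List ℕ × List ℕ}
    {k : ℕ} (h1 : ∀ x, gt p.1 x < 2 ^ k) (h2 : ∀ x, gt p.2 x < 2 ^ k) :
    (∀ x, gt (filtStepL M E F D Q T p).1 x < 2 ^ (k + (T * gain E F Q + 1))) ∧
    ∀ x, gt (filtStepL M E F D Q T p).2 x < 2 ^ (k + (T * gain E F Q + 1)) := by
  have hQ : Q ^ T ≤ 2 ^ (T * gain E F Q) := by
    calc Q ^ T ≤ (2 ^ esize Q) ^ T := Nat.pow_le_pow_left (lt_two_pow_esize Q).le T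
      _ = 2 ^ (T * esize Q) := by rw [← pow_mul, mul_comm]
      _ ≤ _ := Nat.pow_le_pow_right (by norm_num) (Nat.mul_le_mul_left _ (by unfold gain; omega))
  have key : ∀ {h : List ℕ}, (∀ x, gt h x < 2 ^ k) →
      ∀ x, gt (iterL M E F D Q T h) x < 2 ^ (T * gain E F Q + k) := fun hh x => by
    rw [add_comm]
    exact iterL_lt' M E F D Q hh T x
  exact ⟨addL_lt hQ h1 (key h2), addL_lt hQ h2 (key h1)⟩

theorem filtL_lt (M : ℕ) (E : List (ℕ × ℕ)) (F D : List ℕ) (Q T : ℕ) {p : List ℕ × List ℕ}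
    {k : ℕ} (h1 : ∀ x, gt p.1 x < 2 ^ k) (h2 : ∀ x, gt p.2 x < 2 ^ k) (j : ℕ) :
    (∀ x, gt ((filtStepL M E F D Q T)^[j] p).1 x < 2 ^ (k + j * (T * gain E F Q + 1))) ∧
    ∀ x, gt ((filtStepL M E F D Q T)^[j] p).2 x < 2 ^ (k + j * (T * gain E F Q + 1)) := by
  induction j with
  | zero => simpa using ⟨h1, h2⟩
  | succ j ih =>
    rw [iterate_succ_apply']
    have := filtStepL_lt M E F D Q T ih.1 ih.2
    rwa [show k + (j + 1) * (T * gain E F Q + 1) =
      k + j * (T * gain E F Q + 1) + (T * gain E F Q + 1) by ring]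

theorem length_filtL (M : ℕ) (E : List (ℕ × ℕ)) (F D : List ℕ) (Q T : ℕ) (p : List ℕ × List ℕ)
    (j : ℕ) : ((filtStepL M E F D Q T)^[j] p).1.length ≤ p.1.length + M ∧
      ((filtStepL M E F D Q T)^[j] p).2.length ≤ p.2.length + M := by
  rcases j with _ | j
  · simp
  · rw [iterate_succ_apply']
    unfold filtStepL addL
    simp only [length_tab]
    omega

theorem esize_filtL (M : ℕ) (E : List (ℕ × ℕ)) (F D : List ℕ) (Q T j : ℕ) (psi : List ℕ) :
    esize ((filtStepL M E F D Q T)^[j] (psi, tab M fun _ => 0)) ≤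
      2 * ((psi.length + M) * (2 * (esize psi + j * (T * gain E F Q + 1)) + 1)) +
      ((M + M) * (2 * (esize psi + j * (T * gain E F Q + 1)) + 1)) + 1 := by
  have h1 := filtL_lt M E F D Q T (p := (psi, tab M fun _ => 0)) (k := esize psi) (gt_lt psi)
    (gt_tab_lt fun _ => by positivity) j
  have h2 := length_filtL M E F D Q T (psi, tab M fun _ => 0) j
  simp only [length_tab] at h2
  have h3 := esize_le_of_gt h1.1
  have h4 := esize_le_of_gt h1.2
  rw [← Prod.mk.eta (p := (filtStepL M E F D Q T)^[j] (psi, tab M fun _ => 0)), esize_pair]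
  have h5 := h3.trans (Nat.mul_le_mul_right _ h2.1)
  have h6 := h4.trans (Nat.mul_le_mul_right _ h2.2)
  omega

theorem pt_filtL (hM : PT A M) (hMb : PBd M) (hE : PT A E) (hF : PT A F) (hD : PT A D)
    (hQ : PT A Q) (hT : PT A T) (hTb : PBd T) (hS : PT A S') (hSb : PBd S') (hp : PT A psi) :
    PT A (fun a => filtL (M a) (E a) (F a) (D a) (Q a) (T a) (S' a) (psi a)) := by
  have hg := pbd_gain hE hF hQ
  have h1 := PBd.length hp
  have h2 := hp.pbd
  have hB : PBd (fun a => 2 * (((psi a).length + M a) * (2 * (esize (psi a) +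
      S' a * (T a * gain (E a) (F a) (Q a) + 1)) + 1)) + ((M a + M a) * (2 * (esize (psi a) +
      S' a * (T a * gain (E a) (F a) (Q a) + 1)) + 1)) + 1) := by
    fun_prop
  unfold filtL
  refine PT.iterate' (step := fun a p => filtStepL (M a) (E a) (F a) (D a) (Q a) (T a) p) hS hSb
    (PT.pair hp (pt_tab (f := fun _ _ => 0) hM hMb (PT.const 0)))
    (pt_filtStepL (ptl hM) (pbl hMb) (ptl hE) (ptl hF) (ptl hD) (ptl hQ) (ptl hT) (pbl hTb)
      PT.snd') hB fun a j hj => ?_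
  refine (esize_filtL (M a) (E a) (F a) (D a) (Q a) (T a) j (psi a)).trans ?_
  gcongr

theorem pt_scoreL (hM : PT A M) (hMb : PBd M) (hQ : PT A Q) (hT : PT A T) (hTb : PBd T)
    (hS : PT A S') (hSb : PBd S') (hpsi : PT A psi) (hp : PT A p) :
    PT A (fun a => scoreL (M a) (Q a) (T a) (S' a) (psi a) (p a)) := by
  unfold scoreL
  exact PT.pair (pt_addL hM hMb (PT.pow hQ (PT.mul hT hS) (PBd.mul hTb hSb)) hpsi hp.snd) hp.fst

theorem pt_bestAtL (hk : PT A k) (hkb : PBd k) (hp : PT A p) (hu : PT A u) (hi : PT A i) :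
    PT A (fun a => bestAtL (k a) (p a) (u a) (i a)) := by
  unfold bestAtL
  refine PT.all (f := fun a j => decide (gt (p a).1 (j + k a * u a) + gt (p a).2 (i a + k a * u a) ≤
    gt (p a).1 (i a + k a * u a) + gt (p a).2 (j + k a * u a))) (PT.range hk hkb) ?_
  have e1 : PT A (fun q : α × ℕ => i q.1 + k q.1 * u q.1) := ptl (PT.add hi (PT.mul hk hu))
  have e2 : PT A (fun q : α × ℕ => q.2 + k q.1 * u q.1) := PT.add PT.snd' (ptl (PT.mul hk hu))
  exact PT.le (PT.add (pt_gt (ptl hp.fst) e2) (pt_gt (ptl hp.snd) e1))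
    (PT.add (pt_gt (ptl hp.fst) e1) (pt_gt (ptl hp.snd) e2))

theorem pt_labelL (hk : PT A k) (hkb : PBd k) (hN : PT A N) (hNb : PBd N) (hp : PT A p) :
    PT A (fun a => labelL (k a) (N a) (p a)) := by
  unfold labelL
  refine pt_tab (f := fun a u => ((List.range (k a)).find? (bestAtL (k a) (p a) u)).getD 0)
    hN hNb ?_
  refine PT.optGetD (PT.find? (f := fun (q : α × ℕ) i => bestAtL (k q.1) (p q.1) q.2 i)
    (ptl (PT.range hk hkb)) ?_) (PT.const 0)
  exact pt_bestAtL (ptl (ptl hk)) (pbl (pbl hkb)) (ptl (ptl hp)) PT.fst'.snd PT.snd'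

theorem pt_costL (hC : PT A C) (hF : PT A F) (hl : PT A l) :
    PT A (fun a => costL (C a) (F a) (l a)) := by
  unfold costL
  refine PT.sum (PT.map (f := fun a (c : ℕ × ℕ × List ℕ) =>
    if gt (l a) c.2.1 = gt c.2.2 (gt (l a) c.1) then 0 else gt (F a) c.1 * gt (F a) c.2.1) hC ?_)
  exact PT.ite (PT.eqNat (pt_gt (ptl hl) PT.snd'.snd.fst)
    (pt_gt PT.snd'.snd.snd (pt_gt (ptl hl) PT.snd'.fst))) (PT.const 0)
    (PT.mul (pt_gt (ptl hF) PT.snd'.fst) (pt_gt (ptl hF) PT.snd'.snd.fst))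

theorem pt_decodeL (hk : PT A k) (hkb : PBd k) (hN : PT A N) (hNb : PBd N) (hE : PT A E)
    (hF : PT A F) (hD : PT A D) (hQ : PT A Q) (hT : PT A T) (hTb : PBd T) (hS1 : PT A S')
    (hS1b : PBd S') (hS : PT A S) (hSb : PBd S) (hc : PT A c) :
    PT A (fun a => decodeL (k a) (N a) (E a) (F a) (D a) (Q a) (T a) (S' a) (S a) (c a)) := by
  unfold decodeL
  have hM : PT A (fun a => N a * k a) := PT.mul hN hk
  have hMb : PBd (fun a => N a * k a) := PBd.mul hNb hkb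
  have hpsi := pt_psiL hM hMb hD hQ hS hSb hc
  exact pt_labelL hk hkb hN hNb (pt_scoreL hM hMb hQ hT hTb hS1 hS1b hpsi
    (pt_filtL hM hMb hE hF hD hQ hT hTb hS1 hS1b hpsi))

theorem pt_certL (hk : PT A k) (hkb : PBd k) (hN : PT A N) (hNb : PBd N) (hC : PT A C)
    (hF : PT A F) (hE : PT A E) (hh : PT A h) (hD : PT A D) (hQ : PT A Q) (hT : PT A T)
    (hTb : PBd T) (hS1 : PT A S') (hS1b : PBd S') (hS : PT A S) (hSb : PBd S) (hc : PT A c) :
    PT A (fun a => certL (k a) (N a) (C a) (F a) (E a) (h a) (D a) (Q a) (T a) (S' a) (S a)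
      (c a)) :=
  pt_costL hC hF (pt_decodeL hk hkb hN hNb hE hh hD hQ hT hTb hS1 hS1b hS hSb hc)

theorem foldl_min_le (l : List ℕ) (s : ℕ) : l.foldl min s ≤ s := by
  induction l generalizing s with
  | nil => exact le_rfl
  | cons a l ih =>
    rw [List.foldl_cons]
    exact (ih _).trans (min_le_left _ _)

theorem pt_foldMin {l : α → List ℕ} {s : α → ℕ} (hl : PT A l) (hs : PT A s) :
    PT A (fun a => (l a).foldl min (s a)) :=
  PT.foldl (init := s) (f := fun _ s x => min s x) hl hs (PT.min PT.snd'.fst PT.snd'.snd) hs.pbd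
    fun _ _ => esize_nat_mono (foldl_min_le _ _)

theorem pt_bestL (hk : PT A k) (hkb : PBd k) (hN : PT A N) (hNb : PBd N) (hC : PT A C)
    (hF : PT A F) (hE : PT A E) (hh : PT A h) (hD : PT A D) (hQ : PT A Q) (hT : PT A T)
    (hTb : PBd T) (hS1 : PT A S') (hS1b : PBd S') (hS : PT A S) (hSb : PBd S) (hB : PT A B)
    (hBb : PBd B) :
    PT A (fun a => bestL (k a) (N a) (C a) (F a) (E a) (h a) (D a) (Q a) (T a) (S' a) (S a)
      (B a)) := by
  unfold bestL
  refine pt_foldMin (PT.map (f := fun a c => certL (k a) (N a) (C a) (F a) (E a) (h a) (D a) (Q a)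
    (T a) (S' a) (S a) c) (PT.range hB hBb) ?_)
    (pt_certL hk hkb hN hNb hC hF hE hh hD hQ hT hTb hS1 hS1b hS hSb (PT.const 0))
  exact pt_certL (ptl hk) (pbl hkb) (ptl hN) (pbl hNb) (ptl hC) (ptl hF) (ptl hE) (ptl hh)
    (ptl hD) (ptl hQ) (ptl hT) (pbl hTb) (ptl hS1) (pbl hS1b) (ptl hS) (pbl hSb) PT.snd'

theorem pt_leafL (hk : PT A k) (hkb : PBd k) (hN : PT A N) (hNb : PBd N) (hC : PT A C)
    (hF : PT A F) (hT : PT A T) (hTb : PBd T) (hS1 : PT A S') (hS1b : PBd S') (hS : PT A S)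
    (hSb : PBd S) (hB : PT A B) (hBb : PBd B) :
    PT A (fun a => leafL (k a) (N a) (C a) (F a) (T a) (S' a) (S a) (B a)) := by
  unfold leafL
  have hE := pt_liftL hk hkb hC
  have hh := pt_hatL hk hkb hN hNb hF
  have hD := pt_degL (PT.mul hN hk) (PBd.mul hNb hkb) hE hh
  exact pt_bestL hk hkb hN hNb hC hF hE hh hD (pt_QpL hD) hT hTb hS1 hS1b hS hSb hB hBb

end Vale.Agent.P325.AlgPT
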