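import Vale.Agent.P325.AlgPT2

/-!
# The main loop of the algorithm is computable in polynomial time

Size invariants of the main loop, and the polynomial time computability of `loopL`, `runL`,
`parseC`, `nums` and `main`.
-/

namespace Vale.Agent.P325.AlgPT3

open Vale.Agent.Lib.PolyTime Vale.Agent.P325.Alg Vale.Agent.P325.AlgPT Function

/-! ### Bounds -/

theorem getD_le {F : List ℕ} {β : ℕ} (h : ∀ y ∈ F, y ≤ β) (x : ℕ) : gt F x ≤ β := by
  unfold gt
  rw [List.getD_eq_getElem?_getD]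
  rcases e : F[x]? with _ | y
  · simp
  · exact h y (List.mem_of_getElem? e)

theorem mem_tab {N : ℕ} {f : ℕ → ℕ} {y : ℕ} (h : y ∈ tab N f) : ∃ x, y = f x := by
  unfold tab at h
  obtain ⟨x, -, rfl⟩ := List.mem_map.1 h
  exact ⟨x, rfl⟩

theorem length_tab3 (N : ℕ) (f : ℕ → ℕ) : (tab N f).length = N := by simp [tab]

theorem tab_le {N : ℕ} {f : ℕ → ℕ} {β : ℕ} (h : ∀ x, f x ≤ β) : ∀ y ∈ tab N f, y ≤ β := by
  intro y hy
  obtain ⟨x, rfl⟩ := mem_tab hy
  exact h x

theorem mul_div_le_of_le {F a b : ℕ} (h : a ≤ b) : F * a / b ≤ F := by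
  rcases Nat.eq_zero_or_pos b with h0 | h0
  · subst h0
    simp
  · calc F * a / b ≤ F * b / b := Nat.div_le_div_right (Nat.mul_le_mul_left _ h)
      _ = F := Nat.mul_div_cancel _ h0

theorem childLL_le3 {N : ℕ} {F Y : List ℕ} {m β : ℕ} (h : ∀ y ∈ F, y ≤ β) :
    ∀ y ∈ childLL N F Y m, y ≤ β := by
  refine tab_le fun x => (mul_div_le_of_le ?_).trans (getD_le h x)
  nlinarith [sq_nonneg ((m : ℤ) - gt Y x), two_mul_le_add_sq (m : ℤ) (gt Y x), two_mul_le_add_sq (gt Y x) m]

theorem childRL_le3 {N : ℕ} {F Y : List ℕ} {m β : ℕ} (h : ∀ y ∈ F, y ≤ β) :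
    ∀ y ∈ childRL N F Y m, y ≤ β := by
  refine tab_le fun x => (mul_div_le_of_le ?_).trans (getD_le h x)
  omega

theorem sum_le_of_le {l : List ℕ} {β : ℕ} (h : ∀ y ∈ l, y ≤ β) : l.sum ≤ l.length * β := by
  induction l with
  | nil => simp
  | cons a l ih =>
    rw [List.sum_cons, List.length_cons, add_mul, one_mul, add_comm]
    exact add_le_add (ih fun y hy => h y (List.mem_cons_of_mem _ hy)) (h a List.mem_cons_self)

theorem degL_sum_le {N : ℕ} {E : List (ℕ × ℕ)} {F : List ℕ} {β : ℕ} (h : ∀ y ∈ F, y ≤ β) :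
    (degL N E F).sum ≤ N * (β * (E.length * (2 * (2 * β)))) := by
  unfold degL mvL
  refine (sum_le_of_le (β := β * (E.length * (2 * (2 * β)))) (tab_le fun x => ?_)).trans ?_
  · refine Nat.mul_le_mul (getD_le h x) ?_
    refine (sum_le_of_le (β := 2 * (2 * β)) fun y hy => ?_).trans (by rw [List.length_map])
    obtain ⟨e, -, rfl⟩ := List.mem_map.1 hy
    unfold mvE
    have h1 : ∀ x, gt (tab N fun _ => 1) x ≤ 1 := getD_le (tab_le fun _ => le_rfl)
    refine Nat.mul_le_mul (by split_ifs <;> omega) ?_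
    have h2 := Nat.mul_le_mul (getD_le h e.1) (h1 e.1)
    have h3 := Nat.mul_le_mul (getD_le h e.2) (h1 e.2)
    omega
  · rw [length_tab3]

theorem costL_le {C : Cons} {F a : List ℕ} {β : ℕ} (h : ∀ y ∈ F, y ≤ β) :
    costL C F a ≤ C.length * (β * β) := by
  unfold costL
  refine (sum_le_of_le (β := β * β) fun y hy => ?_).trans (by rw [List.length_map])
  obtain ⟨c, -, rfl⟩ := List.mem_map.1 hy
  split_ifs
  · exact Nat.zero_le _
  · exact Nat.mul_le_mul (getD_le h _) (getD_le h _)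

theorem foldl_min_le (l : List ℕ) (x : ℕ) : l.foldl min x ≤ x := by
  induction l generalizing x with
  | nil => exact le_rfl
  | cons a l ih =>
    rw [List.foldl_cons]
    exact (ih _).trans (min_le_left _ _)

theorem leafL_le {k N : ℕ} {C : Cons} {F : List ℕ} {T S' S B β : ℕ} (h : ∀ y ∈ F, y ≤ β) :
    leafL k N C F T S' S B ≤ C.length * (β * β) := by
  unfold leafL bestL
  refine (foldl_min_le _ _).trans ?_
  unfold certL
  exact costL_le h

/-! ### The invariant of the main loop -/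

/-- the size invariant: `N` vertices, entries at most `β`, weights at most `W`, `i` steps done -/
def Inv (N β W i : ℕ) (s : StL) : Prop :=
  s.1.length ≤ i + 1 ∧ (∀ nd ∈ s.1, nd.1.length = N ∧ (∀ y ∈ nd.1, y ≤ β) ∧ nd.2.1 ≤ W ∧
    nd.2.2 ≤ i) ∧ s.2.1 ≤ i * W ∧ s.2.2 ≤ i * W

theorem Inv.loop {k N : ℕ} {C : Cons} {P : Alg.Num} {β W i : ℕ} {s : StL}
    (hW : N * (β * (C.length * (2 * (2 * β)))) ≤ W) (hW' : C.length * (β * β) ≤ W)
    (h : Inv N β W i s) : Inv N β W (i + 1) (loopL k N C P s) := by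
  obtain ⟨l, aw, av⟩ := s
  obtain ⟨h1, h2, h3, h4⟩ := h
  unfold loopL
  rcases l with _ | ⟨nd, rest⟩
  · refine ⟨by simp, by simp, ?_, ?_⟩
    · exact h3.trans (Nat.mul_le_mul_right _ (Nat.le_succ _))
    · exact h4.trans (Nat.mul_le_mul_right _ (Nat.le_succ _))
  · dsimp only at h1 h2 h3 h4 ⊢
    have hnd := h2 nd List.mem_cons_self
    have hrest : ∀ nd ∈ rest, nd.1.length = N ∧ (∀ y ∈ nd.1, y ≤ β) ∧ nd.2.1 ≤ W ∧
        nd.2.2 ≤ i + 1 := by
      intro x hx
      obtain ⟨a1, a2, a3, a4⟩ := h2 x (List.mem_cons_of_mem _ hx)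
      exact ⟨a1, a2, a3, a4.trans (Nat.le_succ _)⟩
    rw [List.length_cons] at h1
    have hb : (baseL C).length = C.length := by simp [baseL]
    have hs := fun F (hF : ∀ y ∈ F, y ≤ β) => (degL_sum_le (N := N) (E := baseL C) (F := F) hF)
    rw [hb] at hs
    have e1 : i * W ≤ (i + 1) * W := Nat.mul_le_mul_right _ (Nat.le_succ _)
    unfold treatL
    split_ifs with hc
    · exact ⟨by dsimp only; omega, hrest, h3.trans e1, h4.trans e1⟩
    · rcases findL N (baseL C) nd.1 (degL N (baseL C) nd.1) (QpL (degL N (baseL C) nd.1))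
        P.n P.L P.r P.R P.T (degL N (baseL C) nd.1).sum with _ | p
      · refine ⟨by dsimp only; omega, hrest, ?_, ?_⟩
        · dsimp only
          rw [add_mul, one_mul]
          exact add_le_add h3 ((hs _ hnd.2.1).trans hW)
        · dsimp only
          rw [add_mul, one_mul]
          exact add_le_add h4 ((leafL_le hnd.2.1).trans hW')
      · dsimp only
        refine ⟨?_, ?_, h3.trans e1, h4.trans e1⟩
        · simp only [splitL, List.length_cons]
          omega
        · intro x hx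
          simp only [splitL, List.mem_cons] at hx
          rcases hx with rfl | rfl | hx
          · exact ⟨length_tab3 _ _, childRL_le3 hnd.2.1, hnd.2.2.1, hnd.2.2.2.trans (Nat.le_succ _)⟩
          · refine ⟨length_tab3 _ _, childLL_le3 hnd.2.1, (hs _ (childLL_le3 hnd.2.1)).trans hW, ?_⟩
            exact Nat.add_le_add_right hnd.2.2.2 1
          · exact hrest x hx

theorem Inv.iter {k N : ℕ} {C : Cons} {P : Alg.Num} {β W : ℕ}
    (hW : N * (β * (C.length * (2 * (2 * β)))) ≤ W) (hW' : C.length * (β * β) ≤ W)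
    (hβ : 2 ^ P.b ≤ β) (i : ℕ) : Inv N β W i ((loopL k N C P)^[i] (initL N C P)) := by
  induction i with
  | zero =>
    have hb : (baseL C).length = C.length := by simp [baseL]
    refine ⟨by simp [initL], ?_, by simp [initL], by simp [initL]⟩
    intro nd hnd
    simp only [iterate_zero, id_eq, initL, List.mem_singleton] at hnd
    subst hnd
    have h1 : ∀ y ∈ tab N fun _ => 2 ^ P.b, y ≤ β := tab_le fun _ => hβ
    refine ⟨length_tab3 _ _, h1, ?_, le_rfl⟩
    have := degL_sum_le (N := N) (E := baseL C) h1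
    rw [hb] at this
    exact this.trans hW
  | succ i ih =>
    rw [iterate_succ_apply']
    exact ih.loop hW hW'

/-- bound for the size of a state -/
theorem Inv.esize_le {N β W i c : ℕ} {s : StL} (h : Inv N β W i s) (hβ : β < 2 ^ c)
    (hW : i * W < 2 ^ c) (hWc : W < 2 ^ c) :
    esize s ≤ 2 * ((i + 1) * (2 * (2 * (N * (2 * c + 1)) + (2 * c + i + 1) + 1) + 1)) +
      (2 * c + c + 1) + 1 := by
  obtain ⟨l, aw, av⟩ := s
  obtain ⟨h1, h2, h3, h4⟩ := h
  rw [esize_pair, esize_pair]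
  have e1 : esize aw ≤ c := esize_nat_le (h3.trans_lt hW)
  have e2 : esize av ≤ c := esize_nat_le (h4.trans_lt hW)
  have e3 : esize l ≤ l.length * (2 * (2 * (N * (2 * c + 1)) + (2 * c + i + 1) + 1) + 1) := by
    refine esize_list_le fun nd hnd => ?_
    obtain ⟨F, wh, j⟩ := nd
    obtain ⟨a1, a2, a3, a4⟩ := h2 _ hnd
    dsimp only at a1 a2 a3 a4
    rw [esize_pair, esize_pair]
    have f1 : esize F ≤ N * (2 * c + 1) := by
      rw [← a1]
      exact esize_list_le fun y hy => esize_nat_le ((a2 y hy).trans_lt hβ)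
    have f2 : esize wh ≤ c := esize_nat_le (a3.trans_lt hWc)
    have f3 : esize j ≤ i := (esize_nat_le_self j).trans a4
    omega
  have e4 := e3.trans (Nat.mul_le_mul_right _ h1)
  omega

/-! ### The main loop in polynomial time -/

variable {A : Set Word} {α : Type*} [Enc α]

/-- the numbers of the run are computable in polynomial time; all but `n`, `r`-free ones are
polynomially bounded -/
structure PTNum (A : Set Word) (P : α → Alg.Num) : Prop where
  n : PT A fun a => (P a).n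
  L : PT A fun a => (P a).L
  r : PT A fun a => (P a).r
  R : PT A fun a => (P a).R
  T : PT A fun a => (P a).T
  J : PT A fun a => (P a).J
  b : PT A fun a => (P a).b
  S' : PT A fun a => (P a).S'
  S : PT A fun a => (P a).S
  B : PT A fun a => (P a).B
  Tb : PBd fun a => (P a).T
  bb : PBd fun a => (P a).b
  S'b : PBd fun a => (P a).S'
  Sb : PBd fun a => (P a).S
  Bb : PBd fun a => (P a).B

theorem PTNum.comp {β : Type*} [Enc β] {P : α → Alg.Num} (h : PTNum A P) {f : β → α} (hf : PT A f) :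
    PTNum A fun b => P (f b) :=
  ⟨h.n.comp hf, h.L.comp hf, h.r.comp hf, h.R.comp hf, h.T.comp hf, h.J.comp hf, h.b.comp hf,
    h.S'.comp hf, h.S.comp hf, h.B.comp hf, h.Tb.comp hf, h.bb.comp hf, h.S'b.comp hf,
    h.Sb.comp hf, h.Bb.comp hf⟩

theorem PT_tab_const {N f : α → ℕ} (hN : PT A N) (hNb : PBd N) (hf : PT A f) :
    PT A fun a => tab (N a) fun _ => f a :=
  PT.map (f := fun a _ => f a) (PT.range hN hNb) (hf.comp PT.fst')

theorem PT_splitL {N wh j : α → ℕ} {E : α → List (ℕ × ℕ)} {F Y : α → List ℕ}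
    {rest : α → List NodeL} (hN : PT A N) (hNb : PBd N) (hE : PT A E) (hF : PT A F)
    (hwh : PT A wh) (hj : PT A j) (hrest : PT A rest) (hY : PT A Y) :
    PT A fun a => splitL (N a) (E a) (F a) (wh a) (j a) (rest a) (Y a) := by
  have hm := pt_maxL hY
  have hR := pt_childRL hN hNb hF hY hm
  have hL := pt_childLL hN hNb hF hY hm
  have hs := PT.sum (pt_degL hN hNb hE hL)
  exact PT.cons (hR.pair (hwh.pair hj)) (PT.cons (hL.pair (hs.pair (PT.add hj (PT.const 1)))) hrest)

theorem PT_treatL {k N aw av : α → ℕ} {C : α → Cons} {P : α → Alg.Num} {nd : α → NodeL}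
    {rest : α → List NodeL} {D : α → List ℕ} (hk : PT A k) (hkb : PBd k) (hN : PT A N)
    (hNb : PBd N) (hC : PT A C) (hP : PTNum A P) (hnd : PT A nd) (hrest : PT A rest)
    (haw : PT A aw) (hav : PT A av) (hD : PT A D) :
    PT A fun a => treatL (k a) (N a) (C a) (P a) (nd a) (rest a) (aw a) (av a) (D a) := by
  have hE := pt_baseL hC
  have hF : PT A fun a => (nd a).1 := hnd.fst
  have hQ := pt_QpL hD
  have hw := PT.sum hD
  have hfind := pt_findL hN hNb hE hF hD hQ hP.n hP.L hP.r hP.R hP.T hP.Tb hw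
  have hleaf := pt_leafL hk hkb hN hNb hC hF hP.T hP.Tb hP.S' hP.S'b hP.S hP.Sb hP.B hP.Bb
  unfold treatL
  refine PT.ite (PT.decide_or (PT.le hP.J hnd.snd.snd)
    (PT.lt (PT.mul hw hP.n) hnd.snd.fst)) (hrest.pair (haw.pair hav)) ?_
  refine (PT.optCase (g := fun a p => (splitL (N a) (baseL (C a)) (nd a).1 (nd a).2.1 (nd a).2.2
    (rest a) (bumpL (N a) (baseL (C a)) (nd a).1 (D a) (QpL (D a)) p.1 (min p.2 (P a).T)),
    aw a, av a)) hfind (hrest.pair ((PT.add haw hw).pair (PT.add hav hleaf))) ?_).congr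
    fun a => ?_
  rotate_left
  · rcases findL (N a) (baseL (C a)) (nd a).1 (D a) (QpL (D a)) (P a).n (P a).L (P a).r (P a).R
      (P a).T (D a).sum with _ | p <;> rfl
  have hc := PT.fst' (A := A) (α := α) (β := ℕ × ℕ)
  have hmin : PT A fun p : α × ℕ × ℕ => min p.2.2 (P p.1).T :=
    PT.min PT.snd'.snd (hP.T.comp hc)
  have hminb : PBd fun p : α × ℕ × ℕ => min p.2.2 (P p.1).T :=
    (hP.Tb.comp hc).mono fun _ => min_le_right _ _
  refine PT.pair (PT_splitL (hN.comp hc) (hNb.comp hc) (hE.comp hc) (hF.comp hc)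
    (hnd.snd.fst.comp hc) (hnd.snd.snd.comp hc) (hrest.comp hc) ?_)
    ((haw.comp hc).pair (hav.comp hc))
  exact pt_bumpL (hN.comp hc) (hNb.comp hc) (hE.comp hc) (hF.comp hc) (hD.comp hc) (hQ.comp hc)
    PT.snd'.fst hmin hminb

theorem PT_loopL {k N : α → ℕ} {C : α → Cons} {P : α → Alg.Num} {s : α → StL} (hk : PT A k)
    (hkb : PBd k) (hN : PT A N) (hNb : PBd N) (hC : PT A C) (hP : PTNum A P) (hs : PT A s) :
    PT A fun a => loopL (k a) (N a) (C a) (P a) (s a) := by
  have hc := PT.fst' (A := A) (α := α) (β := NodeL × List NodeL)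
  have hN' : PBd fun p : α × NodeL × List NodeL => N p.1 := hNb.comp hc
  refine (PT.listCase (g := fun a nd rest => treatL (k a) (N a) (C a) (P a) nd rest (s a).2.1
    (s a).2.2 (degL (N a) (baseL (C a)) nd.1)) hs.fst hs
    (PT_treatL (hk.comp hc) (hkb.comp hc) (hN.comp hc) hN' (hC.comp hc) (hP.comp hc) PT.snd'.fst
      PT.snd'.snd (hs.snd.fst.comp hc) (hs.snd.snd.comp hc)
      (pt_degL (hN.comp hc) hN' (pt_baseL (hC.comp hc)) PT.snd'.fst.fst))).congr fun a => ?_
  unfold loopL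
  rcases (s a).1 with _ | ⟨nd, rest⟩ <;> rfl

theorem PT_initL {N : α → ℕ} {C : α → Cons} {P : α → Alg.Num} (hN : PT A N) (hNb : PBd N)
    (hC : PT A C) (hP : PTNum A P) : PT A fun a => initL (N a) (C a) (P a) := by
  unfold initL
  have h1 : PT A fun a => tab (N a) fun _ => 2 ^ (P a).b :=
    PT_tab_const hN hNb (PT.pow (PT.const 2) hP.b hP.bb)
  exact (PT.cons (h1.pair ((PT.sum (pt_degL hN hNb (pt_baseL hC) h1)).pair (PT.const 0)))
    PT.nil).pair ((PT.const 0).pair (PT.const 0))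

theorem PT_iter_loopL {k N : α → ℕ} {C : α → Cons} {P : α → Alg.Num} (hk : PT A k)
    (hkb : PBd k) (hN : PT A N) (hNb : PBd N) (hC : PT A C) (hP : PTNum A P) :
    PT A fun a => (loopL (k a) (N a) (C a) (P a))^[(P a).B] (initL (N a) (C a) (P a)) := by
  have hCl := PBd.length hC
  -- the bound `2 ^ c` for all numbers
  set c : α → ℕ := fun a => (P a).B + (N a + ((P a).b + (C a).length + 3 + (P a).b) + 1) + 1
    with hcdef
  have hcb : PBd c := by
    have h1 := hP.Bb
    have h2 := hP.bb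
    simp only [hcdef]
    fun_prop
  set bd : α → ℕ := fun a => 2 * (((P a).B + 1) * (2 * (2 * (N a * (2 * c a + 1)) +
    (2 * c a + (P a).B + 1) + 1) + 1)) + (2 * c a + c a + 1) + 1 with hbd
  have hbdb : PBd bd := by
    have h1 := hP.Bb
    simp only [hbd]
    fun_prop
  have hc := PT.fst' (A := A) (α := α) (β := StL)
  refine PT.iterate' (step := fun a s => loopL (k a) (N a) (C a) (P a) s) hP.B hP.Bb
    (PT_initL hN hNb hC hP) (PT_loopL (hk.comp hc) (hkb.comp hc) (hN.comp hc)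
      (hNb.comp hc) (hC.comp hc) (hP.comp hc) PT.snd') hbdb fun a j hj => ?_
  have hm : (C a).length < 2 ^ (C a).length := Nat.lt_two_pow_self
  have hW0 : (N a + 1) * (2 ^ (P a).b * ((C a).length * (2 * (2 * 2 ^ (P a).b)))) ≤
      2 ^ (N a + ((P a).b + (C a).length + 3 + (P a).b)) := by
    have e : 2 ^ (N a + ((P a).b + (C a).length + 3 + (P a).b)) =
        2 ^ N a * (2 ^ (P a).b * (2 ^ (C a).length * (2 * (2 * (2 * 2 ^ (P a).b))))) := by
      rw [pow_add, pow_add, pow_add, pow_add]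
      ring
    rw [e]
    refine Nat.mul_le_mul Nat.lt_two_pow_self (Nat.mul_le_mul_left _ ?_)
    refine Nat.mul_le_mul hm.le ?_
    omega
  set W : ℕ := (N a + 1) * (2 ^ (P a).b * ((C a).length * (2 * (2 * 2 ^ (P a).b)))) with hWdef
  have hWlt : W < 2 ^ (N a + ((P a).b + (C a).length + 3 + (P a).b) + 1) := by
    rw [pow_succ]
    have : 0 < 2 ^ (N a + ((P a).b + (C a).length + 3 + (P a).b)) := by positivity
    omega
  have hc1 : 2 ^ (N a + ((P a).b + (C a).length + 3 + (P a).b) + 1) ≤ 2 ^ c a :=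
    Nat.pow_le_pow_right (by norm_num) (by simp only [hcdef]; omega)
  have hc2 : j * W < 2 ^ c a := by
    have h2 : j ≤ 2 ^ (P a).B := hj.trans Nat.lt_two_pow_self.le
    calc j * W ≤ 2 ^ (P a).B * 2 ^ (N a + ((P a).b + (C a).length + 3 + (P a).b) + 1) :=
          Nat.mul_le_mul h2 hWlt.le
      _ = 2 ^ ((P a).B + (N a + ((P a).b + (C a).length + 3 + (P a).b) + 1)) := (pow_add _ _ _).symm
      _ < 2 ^ c a := Nat.pow_lt_pow_right (by norm_num) (by simp only [hcdef]; omega)
  have hβ : 2 ^ (P a).b < 2 ^ c a :=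
    Nat.pow_lt_pow_right (by norm_num) (by simp only [hcdef]; omega)
  have hinv : Inv (N a) (2 ^ (P a).b) W j
      ((loopL (k a) (N a) (C a) (P a))^[j] (initL (N a) (C a) (P a))) := by
    refine Inv.iter ?_ ?_ le_rfl j
    · exact Nat.mul_le_mul_right _ (Nat.le_succ _)
    · rw [hWdef]
      have h3 : 1 ≤ N a + 1 := by omega
      calc (C a).length * (2 ^ (P a).b * 2 ^ (P a).b)
          ≤ 1 * (2 ^ (P a).b * ((C a).length * (2 * (2 * 2 ^ (P a).b)))) := by
            nlinarith [Nat.zero_le ((C a).length * (2 ^ (P a).b * 2 ^ (P a).b))]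
        _ ≤ _ := Nat.mul_le_mul_right _ h3
  refine (hinv.esize_le hβ hc2 (hWlt.trans_le hc1)).trans ?_
  simp only [hbd]
  gcongr

theorem PT_acceptL {k1 k2 m b aw av : α → ℕ} (hk1 : PT A k1) (hk2 : PT A k2) (hm : PT A m)
    (hb : PT A b) (hbb : PBd b) (haw : PT A aw) (hav : PT A av) :
    PT A fun a => acceptL (k1 a) (k2 a) (m a) (b a) (aw a) (av a) := by
  have h1 : PT A fun a => 4 ^ b a * 4 * m a :=
    PT.mul (PT.mul (PT.pow (PT.const 4) hb hbb) (PT.const 4)) hm
  exact (PT.le (PT.mul hk1 h1) (PT.add h1 (PT.mul hk1 haw))).and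
    (PT.le (PT.mul (PT.mul (PT.const 2) hk2) hav) h1)

theorem PT_runL {k k1 k2 N : α → ℕ} {C : α → Cons} {P : α → Alg.Num} (hk : PT A k)
    (hkb : PBd k) (hk1 : PT A k1) (hk2 : PT A k2) (hN : PT A N) (hNb : PBd N) (hC : PT A C)
    (hP : PTNum A P) : PT A fun a => runL (k a) (k1 a) (k2 a) (N a) (C a) (P a) := by
  have h := PT_iter_loopL hk hkb hN hNb hC hP
  exact PT_acceptL hk1 hk2 hC.length hP.b hP.bb h.snd.fst h.snd.snd

/-! ### Parsing, and the choice of the numbers -/

theorem PT_gt {F : α → List ℕ} {x : α → ℕ} (hF : PT A F) (hx : PT A x) :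
    PT A fun a => gt (F a) (x a) :=
  PT.getD hF hx (PT.const 0)

theorem PT_parseM {k : α → ℕ} {l : α → List ℕ} (hk : PT A k) (hl : PT A l) :
    PT A fun a => parseM (k a) (l a) :=
  PT.div (PT.sub hl.length (PT.const 1)) (PT.add hk (PT.const 2))

theorem PBd_parseM {k : α → ℕ} {l : α → List ℕ} (hl : PT A l) :
    PBd fun a => parseM (k a) (l a) :=
  (PBd.length hl).mono fun _ => (Nat.div_le_self _ _).trans (Nat.sub_le _ _)

theorem PT_parseC {k : α → ℕ} {l : α → List ℕ} (hk : PT A k) (hl : PT A l) :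
    PT A fun a => parseC (k a) (l a) := by
  unfold parseC
  have hc := PT.fst' (A := A) (α := α) (β := ℕ)
  have hk' : PT A fun p : α × ℕ => k p.1 := hk.comp hc
  have hl' : PT A fun p : α × ℕ => l p.1 := hl.comp hc
  have h1 : PT A fun p : α × ℕ => p.2 * (k p.1 + 2) := PT.mul PT.snd' (PT.add hk' (PT.const 2))
  exact PT.map (PT.range (PT_parseM hk hl) (PBd_parseM hl))
    (PT.pair (PT_gt hl' (PT.add (PT.const 1) h1)) (PT.pair (PT_gt hl' (PT.add (PT.const 2) h1))
      (PT.take (PT.drop hl' (PT.add (PT.const 3) h1)) hk')))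

theorem PBd_size {f : α → ℕ} (hf : PT A f) : PBd fun a => Nat.size (f a) :=
  hf.pbd.mono fun a => (esize_nat (f a)).ge

theorem PTNum_nums (c : Cst) {n r B : α → ℕ} (hn : PT A n) (hr : PT A r) (hrb : PBd r)
    (hB : PT A B) (hBb : PBd B) : PTNum A fun a => nums c (n a) (r a) (B a) := by
  have hs : PT A fun a => Nat.size (n a) := hn.natSize
  have hsb := PBd_size hn
  have hR : PT A fun a => 32 * c.k1 * Nat.size (n a) := PT.mul (PT.const _) hs
  have hRb : PBd fun a => 32 * c.k1 * Nat.size (n a) := (PBd.const _).mul hsb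
  exact {
    n := hn
    L := hs
    r := hr
    R := hR
    T := PT.mul (PT.mul (PT.const 4) hR) (PT.const c.cq)
    J := PT.const _
    b := PT.mul (PT.const _) hs
    S' := PT.mul (PT.const c.L0) hr
    S := PT.mul (PT.const c.CS) (PT.powConst hr 3)
    B := hB
    Tb := ((PBd.const 4).mul hRb).mul (PBd.const c.cq)
    bb := (PBd.const _).mul hsb
    S'b := (PBd.const c.L0).mul hrb
    Sb := (PBd.const c.CS).mul (hrb.pow 3)
    Bb := hBb }

theorem PT_sizeL (c : Cst) {l : α → List ℕ} (hl : PT A l) : PT A fun a => sizeL c (l a) :=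
  PT.add (PT.add (hl.headD (PT.const 0)) (PT_parseM (PT.const c.k) hl)) (PT.const c.n0)

/-- **The algorithm is computable in polynomial time**, the padding counted in the input. -/
theorem PT_main (c : Cst) : PT A fun s : List ℕ × Raw => main c s.1 s.2.w.length := by
  have hl : PT A fun s : List ℕ × Raw => s.1 := PT.fst'
  have hB : PT A fun s : List ℕ × Raw => s.2.w.length := PT.rawLength PT.snd'
  have hBb : PBd fun s : List ℕ × Raw => s.2.w.length :=
    (PT.snd' (A := A) (α := List ℕ) (β := Raw)).pbd.mono fun s => (esize_raw s.2).ge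
  have hfind : PT A fun s : List ℕ × Raw => (List.range s.2.w.length).find?
      fun r => decide (sizeL c s.1 ≤ r ^ (4 * c.q)) :=
    PT.find? (f := fun (s : List ℕ × Raw) r => decide (sizeL c s.1 ≤ r ^ (4 * c.q)))
      (PT.range hB hBb) (PT.le (PT_sizeL c PT.fst'.fst) (PT.powConst PT.snd' _))
  have hc := PT.fst' (A := A) (α := List ℕ × Raw) (β := ℕ)
  have hl' : PT A fun p : (List ℕ × Raw) × ℕ => p.1.1 := hl.comp hc
  have hB' : PT A fun p : (List ℕ × Raw) × ℕ => p.1.2.w.length := hB.comp hc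
  have hBb' : PBd fun p : (List ℕ × Raw) × ℕ => p.1.2.w.length := hBb.comp hc
  have hN : PT A fun p : (List ℕ × Raw) × ℕ => min (p.1.1.headD 0) p.1.2.w.length :=
    PT.min (hl'.headD (PT.const 0)) hB'
  have hNb : PBd fun p : (List ℕ × Raw) × ℕ => min (p.1.1.headD 0) p.1.2.w.length :=
    hBb'.mono fun _ => min_le_right _ _
  have hr : PT A fun p : (List ℕ × Raw) × ℕ => min p.2 p.1.2.w.length := PT.min PT.snd' hB'
  have hrb : PBd fun p : (List ℕ × Raw) × ℕ => min p.2 p.1.2.w.length :=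
    hBb'.mono fun _ => min_le_right _ _
  have hrun := PT_runL (PT.const c.k) (PBd.const c.k) (PT.const c.k1) (PT.const c.k2) hN hNb
    (PT_parseC (PT.const c.k) hl') (PTNum_nums c (PT_sizeL c hl') hr hrb hB' hBb')
  refine (PT.optCase (g := fun (s : List ℕ × Raw) r => if c.C * r ^ 4 < Nat.size s.2.w.length then
      some (runL c.k c.k1 c.k2 (min (s.1.headD 0) s.2.w.length) (parseC c.k s.1)
        (nums c (sizeL c s.1) (min r s.2.w.length) s.2.w.length)) else none)
    hfind (PT.const none) (PT.ite (PT.lt (PT.mul (PT.const c.C) (PT.powConst PT.snd' 4))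
      hB'.natSize) (PT.some hrun) (PT.const none))).congr fun s => ?_
  unfold main
  rcases (List.range s.2.w.length).find? fun r => decide (sizeL c s.1 ≤ r ^ (4 * c.q))
    with _ | r <;> rfl

end Vale.Agent.P325.AlgPT3
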