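import Vale.Agent.P325.NatForm

/-!
# The decomposition process

Nodes are triples `(F, wh, j)`: the piece, the weight of its last split-off ancestor, the number of
split-off ancestors.
-/

namespace Vale.Agent.P325

open Finset

variable {V : Type*} [Fintype V] [DecidableEq V]

/-- numerical parameters of the process -/
structure Prm where
  n : ℕ
  L : ℕ
  r : ℕ
  R : ℕ
  T : ℕ
  J : ℕ
  b : ℕ

/-- `v` is heavy in the piece `F` -/
def Heavy (P : Prm) (E : List (V × V)) (F : V → ℕ) (v : V) : Prop :=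
  0 < degN E F v ∧ totN E F ≤ P.n ^ 2 * degN E F v

/-- the bump `(v, t)` is cheap -/
def Good (P : Prm) (E : List (V × V)) (F : V → ℕ) (v : V) (t : ℕ) : Prop :=
  t < P.T ∧ Heavy P E F v ∧ Nat.log 2 (4 * P.r) ≤ lamN E F (bumpN E F v t) ∧
    P.R * energyN E F (bumpN E F v t) ≤
      min (lamN E F (bumpN E F v t)) (2 * P.L) * nrmN E F (bumpN E F v t)

/-- maximum -/
def ymax (Y : V → ℕ) : ℕ := univ.sup Y

/-- the piece split off by the bump `Y` -/
def childL (F Y : V → ℕ) (x : V) : ℕ := F x * (2 * Y x * ymax Y) / (ymax Y ^ 2 + Y x ^ 2)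

/-- the remaining piece -/
def childR (F Y : V → ℕ) (x : V) : ℕ := F x * (ymax Y ^ 2 - Y x ^ 2) / (ymax Y ^ 2 + Y x ^ 2)

/-- a node: piece, weight of the last split-off ancestor, number of split-off ancestors -/
abbrev Node (V : Type*) := (V → ℕ) × ℕ × ℕ

/-- the first list is the stack of active nodes, the second one the list of leaves -/
abbrev State (V : Type*) := List (Node V) × List (V → ℕ)

/-- the root -/
def init (P : Prm) (E : List (V × V)) : State V :=
  ([(fun _ => 2 ^ P.b, totN E fun _ => 2 ^ P.b, 0)], [])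

/-- one step of the process -/
inductive Step (P : Prm) (E : List (V × V)) : State V → State V → Prop
  | drop (F : V → ℕ) (wh j : ℕ) (act : List (Node V)) (lv : List (V → ℕ))
      (h : P.J ≤ j ∨ totN E F * P.n < wh) : Step P E ((F, wh, j) :: act, lv) (act, lv)
  | leaf (F : V → ℕ) (wh j : ℕ) (act : List (Node V)) (lv : List (V → ℕ))
      (h : ¬ (P.J ≤ j ∨ totN E F * P.n < wh)) (h2 : ∀ v t, ¬ Good P E F v t) :
      Step P E ((F, wh, j) :: act, lv) (act, F :: lv)
  | split (F : V → ℕ) (wh j : ℕ) (act : List (Node V)) (lv : List (V → ℕ))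
      (h : ¬ (P.J ≤ j ∨ totN E F * P.n < wh)) (v : V) (t : ℕ) (h2 : Good P E F v t) :
      Step P E ((F, wh, j) :: act, lv)
        ((childR F (bumpN E F v t), wh, j) :: (childL F (bumpN E F v t),
          totN E (childL F (bumpN E F v t)), j + 1) :: act, lv)

/-- states reached after `i` steps -/
inductive Reach (P : Prm) (E : List (V × V)) : ℕ → State V → Prop
  | zero : Reach P E 0 (init P E)
  | succ (i : ℕ) (s s' : State V) (h : Reach P E i s) (h' : Step P E s s') : Reach P E (i + 1) s'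

/-! ### Scaling -/

omit [DecidableEq V] in
theorem energy_smul (M : V → V → ℝ) (c : ℝ) (s : V → ℝ) :
    energy M (fun x => c * s x) = c ^ 2 * energy M s := by
  unfold energy
  rw [← mul_div_assoc, mul_sum]
  congr 1
  refine sum_congr rfl fun x _ => ?_
  rw [mul_sum]
  exact sum_congr rfl fun y _ => by ring

omit [DecidableEq V] in
theorem nrm_smul (M : V → V → ℝ) (c : ℝ) (s : V → ℝ) :
    nrm M (fun x => c * s x) = c ^ 2 * nrm M s := by
  unfold nrm
  rw [mul_sum]
  exact sum_congr rfl fun x _ => by ring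

omit [DecidableEq V] in
theorem svol_smul (M : V → V → ℝ) {c : ℝ} (hc : c ≠ 0) (s : V → ℝ) :
    svol M (fun x => c * s x) = svol M s := by
  unfold svol
  refine sum_congr rfl fun x _ => ?_
  by_cases h : s x = 0
  · simp [h]
  · rw [if_neg h, if_neg (mul_ne_zero hc h)]

omit [DecidableEq V] in
theorem lam_smul (M : V → V → ℝ) {c : ℝ} (hc : c ≠ 0) (s : V → ℝ) :
    lam M (fun x => c * s x) = lam M s := by
  unfold lam
  rw [svol_smul M hc]

section
variable (E : List (V × V)) (F : V → ℕ)

theorem exists_scale {v : V} (hv : 0 < degN E F v) (t : ℕ) : ∃ c : ℝ, 0 < c ∧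
    toR (bumpN E F v t) = fun x => c * bump (GF E F) v t x := by
  refine ⟨4 * degN E F v * (QpN E F : ℝ) ^ (2 * t), ?_, ?_⟩
  · have h1 : (0 : ℝ) < degN E F v := by exact_mod_cast hv
    have h2 : (0 : ℝ) < QpN E F := by exact_mod_cast QpN_pos E F
    positivity
  · funext x
    exact bumpN_cast E F hv t x

/-- the test in terms of the real valued bump -/
theorem good_iff (P : Prm) {v : V} {t : ℕ} : Good P E F v t ↔ t < P.T ∧ Heavy P E F v ∧
    Nat.log 2 (4 * P.r) ≤ lam (GF E F) (bump (GF E F) v t) ∧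
    P.R * energy (GF E F) (bump (GF E F) v t) ≤
      (min (lam (GF E F) (bump (GF E F) v t)) (2 * P.L) : ℕ) *
        nrm (GF E F) (bump (GF E F) v t) := by
  unfold Good
  refine and_congr_right fun _ => and_congr_right fun hv => ?_
  obtain ⟨c, hc, hY⟩ := exists_scale E F hv.1 t
  have h1 : lamN E F (bumpN E F v t) = lam (GF E F) (bump (GF E F) v t) := by
    rw [lamN_eq, hY, lam_smul _ hc.ne']
  rw [h1]
  refine and_congr_right fun _ => ?_
  have h2 : (energyN E F (bumpN E F v t) : ℝ) = c ^ 2 * energy (GF E F) (bump (GF E F) v t) := by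
    rw [energyN_cast, hY, energy_smul]
  have h3 : (nrmN E F (bumpN E F v t) : ℝ) = c ^ 2 * nrm (GF E F) (bump (GF E F) v t) := by
    rw [nrmN_cast, hY, nrm_smul]
  have hc2 : 0 < c ^ 2 := by positivity
  rw [← Nat.cast_le (α := ℝ), Nat.cast_mul, Nat.cast_mul, h2, h3]
  constructor
  · intro h
    refine le_of_mul_le_mul_left ?_ hc2
    linarith
  · intro h
    have := mul_le_mul_of_nonneg_left h hc2.le
    linarith

/-- the heat kernel of a leaf is small at heavy vertices -/
theorem leaf_of_not_good (P : Prm) (hR : 0 < P.R) (hr : 1 ≤ P.r) (hn : P.n ≤ 2 ^ P.L)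
    (hlog : 2 * P.L * Real.exp (-(P.T / (4 * P.R))) ≤ Real.log (4 * P.r))
    (h : ∀ v t, ¬ Good P E F v t) {v : V} (hv : Heavy P E F v) :
    nrm (GF E F) (heat (GF E F) v P.T) * tot (GF E F) ≤ 16 * P.r * deg (GF E F) v ^ 2 := by
  by_contra hcon
  push Not at hcon
  have hd : 0 < deg (GF E F) v := by
    rw [← degN_cast]
    exact_mod_cast hv.1
  have h1 : tot (GF E F) ≤ P.n ^ 2 * deg (GF E F) v := by
    rw [← degN_cast, ← totN_cast]
    exact_mod_cast hv.2
  obtain ⟨t, ht, h2, h3⟩ := exists_good (GF_isForm E F) hd (R := P.R) (L := P.L) hR hr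
    (by exact_mod_cast hn) h1 hcon hlog
  exact h v t ((good_iff E F P).2 ⟨ht, hv, h3, h2⟩)

end

end Vale.Agent.P325
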