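import Vale.Agent.P325.Alg
import Vale.Agent.P325.Proc

/-!
# The list functions compute the right things
-/

namespace Vale.Agent.P325

open Finset Alg

section Enl

variable {X : Type*} {N : ℕ} (e : X ≃ Fin N)

/-- number of a vertex -/
def idx (x : X) : ℕ := (e x : ℕ)

/-- table of a function -/
def enl (F : X → ℕ) : List ℕ := List.ofFn fun i => F (e.symm i)

/-- numbered edges -/
def edg (E : List (X × X)) : List (ℕ × ℕ) := E.map fun p => (idx e p.1, idx e p.2)

theorem idx_lt (x : X) : idx e x < N := (e x).2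

theorem idx_inj {x y : X} : idx e x = idx e y ↔ x = y := by
  unfold idx
  rw [← Fin.ext_iff]
  exact e.injective.eq_iff

theorem exists_idx {y : ℕ} (hy : y < N) : ∃ x, idx e x = y :=
  ⟨e.symm ⟨y, hy⟩, by simp [idx]⟩

theorem length_enl (F : X → ℕ) : (enl e F).length = N := by simp [enl]

theorem gt_enl (F : X → ℕ) (x : X) : gt (enl e F) (idx e x) = F x := by
  unfold gt enl idx
  rw [List.getD_eq_getElem?_getD, List.getElem?_ofFn]
  simp

theorem tab_eq (f : ℕ → ℕ) : tab N f = enl e fun x => f (idx e x) := by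
  unfold tab enl idx
  refine List.ext_getElem (by simp) fun i h1 h2 => ?_
  simp

theorem enl_congr {F G : X → ℕ} (h : ∀ x, F x = G x) : enl e F = enl e G := by
  rw [funext h]

theorem enl_inj {F G : X → ℕ} : enl e F = enl e G ↔ F = G := by
  constructor
  · intro h
    funext x
    rw [← gt_enl e F, h, gt_enl]
  · rintro rfl; rfl

variable [Fintype X]

theorem enl_sum (F : X → ℕ) : (enl e F).sum = ∑ x, F x := by
  unfold enl
  rw [List.sum_ofFn]
  exact Equiv.sum_comp e.symm F

theorem sumR_eq (f : ℕ → ℕ) : sumR N f = ∑ x, f (idx e x) := by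
  show (tab N f).sum = _
  rw [tab_eq e, enl_sum]

theorem enl_map_prod (F : X → ℕ) (g : ℕ → ℕ) : ((enl e F).map g).prod = ∏ x, g (F x) := by
  unfold enl
  rw [List.map_ofFn, List.prod_ofFn]
  exact Equiv.prod_comp e.symm fun x => g (F x)

theorem maxL_eq (Y : X → ℕ) : maxL (enl e Y) = ymax Y := by
  have key : ∀ (l : List ℕ) (a b : ℕ), l.foldl max a ≤ b ↔ a ≤ b ∧ ∀ x ∈ l, x ≤ b := by
    intro l
    induction l with
    | nil => intro a b; simp
    | cons x l ih => intro a b; rw [List.foldl_cons, ih]; simp [and_assoc]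
  have h : ∀ b, maxL (enl e Y) ≤ b ↔ ymax Y ≤ b := by
    intro b
    unfold maxL ymax
    rw [key, Finset.sup_le_iff]
    constructor
    · rintro ⟨_, h⟩ x _
      refine h _ ?_
      unfold enl
      rw [List.mem_ofFn]
      exact ⟨e x, by simp⟩
    · intro h
      refine ⟨Nat.zero_le _, fun x hx => ?_⟩
      unfold enl at hx
      rw [List.mem_ofFn] at hx
      obtain ⟨i, rfl⟩ := hx
      exact h _ (mem_univ _)
  exact le_antisymm ((h _).2 le_rfl) ((h _).1 le_rfl)

variable [DecidableEq X]

theorem mvL_eq (E : List (X × X)) (F h : X → ℕ) :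
    mvL N (edg e E) (enl e F) (enl e h) = enl e (mvN E F h) := by
  unfold mvL
  rw [tab_eq e]
  refine enl_congr e fun x => ?_
  unfold mvN edg
  rw [gt_enl, List.map_map]
  congr 2
  refine List.map_congr_left fun p _ => ?_
  simp only [Function.comp, mvE, gt_enl, idx_inj]

theorem one_eq : tab N (fun _ => 1) = enl e fun _ => 1 := tab_eq e _

theorem degL_eq (E : List (X × X)) (F : X → ℕ) :
    degL N (edg e E) (enl e F) = enl e (degN E F) := by
  unfold degL
  rw [one_eq e, mvL_eq]
  rfl

theorem QpL_eq (E : List (X × X)) (F : X → ℕ) : QpL (enl e (degN E F)) = QpN E F := by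
  unfold QpL QpN
  rw [enl_map_prod]

theorem stepL_eq (E : List (X × X)) (F h : X → ℕ) :
    stepL N (edg e E) (enl e F) (enl e (degN E F)) (QpN E F) (enl e h) =
      enl e (stepN E F h) := by
  unfold stepL scaleL
  rw [mvL_eq, tab_eq e]
  refine enl_congr e fun x => ?_
  rw [gt_enl, gt_enl]
  rfl

theorem iterL_eq (E : List (X × X)) (F h : X → ℕ) (t : ℕ) :
    iterL N (edg e E) (enl e F) (enl e (degN E F)) (QpN E F) t (enl e h) =
      enl e ((stepN E F)^[t] h) := by
  unfold iterL
  induction t with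
  | zero => rfl
  | succ t ih => rw [Function.iterate_succ_apply', Function.iterate_succ_apply', ih, stepL_eq]

theorem nrmL_eq (E : List (X × X)) (F h : X → ℕ) :
    nrmL N (enl e (degN E F)) (enl e h) = nrmN E F h := by
  unfold nrmL nrmN
  rw [sumR_eq e]
  exact sum_congr rfl fun x _ => by rw [gt_enl, gt_enl]

omit [Fintype X] [DecidableEq X] in
theorem energyL_eq [Fintype X] (E : List (X × X)) (F h : X → ℕ) :
    energyL (edg e E) (enl e F) (enl e h) = energyN E F h := by
  unfold energyL energyN edg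
  rw [List.map_map]
  congr 1
  refine List.map_congr_left fun p _ => ?_
  simp only [Function.comp, gt_enl]

theorem svolL_eq (E : List (X × X)) (F h : X → ℕ) :
    svolL N (enl e (degN E F)) (enl e h) = svolN E F h := by
  unfold svolL svolN
  rw [sumR_eq e]
  exact sum_congr rfl fun x _ => by rw [gt_enl, gt_enl]

theorem bumpL_eq (E : List (X × X)) (F : X → ℕ) (v : X) (t : ℕ) :
    bumpL N (edg e E) (enl e F) (enl e (degN E F)) (QpN E F) (idx e v) t =
      enl e (bumpN E F v t) := by
  unfold bumpL truncL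
  have h1 : tab N (fun x => if x = idx e v then 1 else 0) =
      enl e fun x => if x = v then 1 else 0 := by
    rw [tab_eq e]
    exact enl_congr e fun x => by simp only [idx_inj]
  rw [h1, iterL_eq, tab_eq e]
  refine enl_congr e fun x => ?_
  rw [gt_enl, gt_enl, nrmL_eq]
  rfl

omit [Fintype X] [DecidableEq X] in
theorem lg_eq (x : ℕ) : lg x = Nat.log 2 x := by
  unfold lg
  rcases Nat.eq_zero_or_pos x with rfl | hx
  · simp
  · have h1 : 0 < Nat.size x := Nat.size_pos.2 hx
    refine le_antisymm ?_ ?_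
    · apply (Nat.le_log_iff_pow_le (by norm_num) (by omega)).2
      exact Nat.lt_size.1 (by omega)
    · have h2 : 2 ^ Nat.log 2 x ≤ x := Nat.pow_log_le_self 2 (by omega)
      have := Nat.lt_size.2 h2
      omega

theorem totN_sum (E : List (X × X)) (F : X → ℕ) : (enl e (degN E F)).sum = totN E F := by
  rw [enl_sum]
  rfl

theorem goodL_iff (P : Prm) (E : List (X × X)) (F : X → ℕ) (v : X) {t : ℕ} (ht : t < P.T) :
    goodL N (edg e E) (enl e F) (enl e (degN E F)) (QpN E F) P.n P.L P.r P.R P.T (totN E F)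
      (idx e v) t = true ↔ Good P E F v t := by
  unfold goodL cheapL Good Heavy
  rw [min_eq_left ht.le, bumpL_eq, svolL_eq, energyL_eq, nrmL_eq, gt_enl]
  simp only [lg_eq, Bool.and_eq_true, decide_eq_true_eq]
  unfold lamN
  tauto

theorem findL_none (P : Prm) (E : List (X × X)) (F : X → ℕ)
    (h : findL N (edg e E) (enl e F) (enl e (degN E F)) (QpN E F) P.n P.L P.r P.R P.T
      (totN E F) = none) (v : X) (t : ℕ) : ¬ Good P E F v t := by
  intro hg
  unfold findL at h
  rw [List.find?_eq_none] at h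
  have hm : (idx e v, t) ∈ pairsL N P.T := by
    unfold pairsL
    rw [List.mem_flatMap]
    refine ⟨idx e v, List.mem_range.2 (idx_lt e v), ?_⟩
    rw [List.mem_map]
    exact ⟨t, List.mem_range.2 hg.1, rfl⟩
  exact h _ hm ((goodL_iff e P E F v hg.1).2 hg)

theorem findL_some (P : Prm) (E : List (X × X)) (F : X → ℕ) {p : ℕ × ℕ}
    (h : findL N (edg e E) (enl e F) (enl e (degN E F)) (QpN E F) P.n P.L P.r P.R P.T
      (totN E F) = some p) : ∃ v, p.1 = idx e v ∧ Good P E F v p.2 := by
  unfold findL at h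
  have h1 := List.mem_of_find?_eq_some h
  have h2 := List.find?_some h
  unfold pairsL at h1
  rw [List.mem_flatMap] at h1
  obtain ⟨v, hv, h3⟩ := h1
  rw [List.mem_map] at h3
  obtain ⟨t, ht, rfl⟩ := h3
  obtain ⟨x, rfl⟩ := exists_idx e (List.mem_range.1 hv)
  exact ⟨x, rfl, (goodL_iff e P E F x (List.mem_range.1 ht)).1 h2⟩

omit [DecidableEq X] in
theorem childLL_eq (F Y : X → ℕ) :
    childLL N (enl e F) (enl e Y) (maxL (enl e Y)) = enl e (childL F Y) := by
  unfold childLL
  rw [maxL_eq, tab_eq e]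
  exact enl_congr e fun x => by rw [gt_enl, gt_enl]; rfl

omit [DecidableEq X] in
theorem childRL_eq (F Y : X → ℕ) :
    childRL N (enl e F) (enl e Y) (maxL (enl e Y)) = enl e (childR F Y) := by
  unfold childRL
  rw [maxL_eq, tab_eq e]
  exact enl_congr e fun x => by rw [gt_enl, gt_enl]; rfl

end Enl

end Vale.Agent.P325
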