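import Vale.Agent.P325.AlgSpec

/-!
# The list functions compute the right things: labels
-/

namespace Vale.Agent.P325

open Finset Alg

section Lab

variable {V : Type*} {k N : ℕ} (e : V ≃ Fin N)

/-- numbering of the label extended graph -/
def eh (e : V ≃ Fin N) (k : ℕ) : V × Fin k ≃ Fin (N * k) :=
  (e.prodCongr (Equiv.refl _)).trans finProdFinEquiv

theorem idx_eh (u : V) (i : Fin k) : idx (eh e k) (u, i) = i + k * idx e u := by
  simp [idx, eh, finProdFinEquiv]

/-- constraints as numbers -/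
def conL (E : List (Con V k)) : Cons :=
  E.map fun c => (idx e c.1, idx e c.2.1, List.ofFn fun i => (c.2.2 i : ℕ))

theorem baseL_eq (E : List (Con V k)) : baseL (conL e E) = edg e (base E) := by
  simp [baseL, conL, edg, base, Function.comp_def]

theorem gt_ofFn {m : ℕ} (f : Fin m → ℕ) (i : Fin m) : gt (List.ofFn f) i = f i := by
  unfold gt
  rw [List.getD_eq_getElem?_getD, List.getElem?_ofFn]
  simp

theorem range_map_eq {α : Type*} (k : ℕ) (f : ℕ → α) :
    (List.range k).map f = (List.finRange k).map fun i : Fin k => f (i : ℕ) := by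
  refine List.ext_getElem (by simp) fun i h1 h2 => by simp

theorem liftL_eq (E : List (Con V k)) : liftL k (conL e E) = edg (eh e k) (lift E) := by
  unfold liftL conL edg lift
  rw [List.flatMap_map, List.map_flatMap]
  refine List.flatMap_congr fun c _ => ?_
  rw [range_map_eq, List.map_map]
  refine List.map_congr_left fun i _ => ?_
  simp only [Function.comp, idx_eh, gt_ofFn]

/-- lift of a function -/
def hatN (k : ℕ) (F : V → ℕ) : V × Fin k → ℕ := fun y => F y.1

theorem hatL_eq (F : V → ℕ) : hatL k N (enl e F) = enl (eh e k) (hatN k F) := by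
  unfold hatL
  rw [tab_eq (eh e k)]
  refine enl_congr _ fun y => ?_
  obtain ⟨u, i⟩ := y
  have hk : 0 < k := i.pos
  rw [idx_eh, Nat.add_mul_div_left _ _ hk, Nat.div_eq_of_lt i.2, zero_add, gt_enl]
  rfl

/-! ### The filter -/

section
variable {X : Type*} [Fintype X] [DecidableEq X] {M : ℕ} (d : X ≃ Fin M)

/-- one step of the filter -/
def filtStepN (E : List (X × X)) (F : X → ℕ) (T : ℕ) (p : (X → ℕ) × (X → ℕ)) :
    (X → ℕ) × (X → ℕ) :=
  (fun x => QpN E F ^ T * p.1 x + ((stepN E F)^[T] p.2) x,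
    fun x => QpN E F ^ T * p.2 x + ((stepN E F)^[T] p.1) x)

theorem filtStepL_eq (E : List (X × X)) (F : X → ℕ) (T : ℕ) (p : (X → ℕ) × (X → ℕ)) :
    filtStepL M (edg d E) (enl d F) (enl d (degN E F)) (QpN E F) T (enl d p.1, enl d p.2) =
      (enl d (filtStepN E F T p).1, enl d (filtStepN E F T p).2) := by
  unfold filtStepL addL
  simp only [iterL_eq]
  rw [tab_eq d, tab_eq d]
  simp only [gt_enl]
  rfl

theorem filtL_eq (E : List (X × X)) (F : X → ℕ) (T S' : ℕ) (psi : X → ℕ) :
    filtL M (edg d E) (enl d F) (enl d (degN E F)) (QpN E F) T S' (enl d psi) =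
      (enl d ((filtStepN E F T)^[S'] (psi, fun _ => 0)).1,
        enl d ((filtStepN E F T)^[S'] (psi, fun _ => 0)).2) := by
  unfold filtL
  induction S' with
  | zero =>
    rw [Function.iterate_zero, Function.iterate_zero, id, id, tab_eq d]
  | succ S' ih =>
    rw [Function.iterate_succ_apply', Function.iterate_succ_apply', ih, filtStepL_eq]

theorem stepN_iter_cast (E : List (X × X)) (F : X → ℕ) (T : ℕ) (h : X → ℕ) (x : X) :
    (((stepN E F)^[T] h) x : ℝ) = (QpN E F : ℝ) ^ T * ((walk (GF E F))^[T] (toR h)) x := by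
  induction T generalizing x with
  | zero => simp
  | succ T ih =>
    rw [Function.iterate_succ_apply', stepN_cast, Function.iterate_succ_apply']
    have h2 : toR ((stepN E F)^[T] h) =
        fun x => (QpN E F : ℝ) ^ T * ((walk (GF E F))^[T] (toR h)) x := funext ih
    rw [h2, walk_smul, pow_succ]
    ring

omit [DecidableEq X] in
theorem walk_iter_smul (M : X → X → ℝ) (c : ℝ) (T : ℕ) (h : X → ℝ) :
    (walk M)^[T] (fun x => c * h x) = fun x => c * ((walk M)^[T] h) x := by
  induction T with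
  | zero => rfl
  | succ T ih =>
    rw [Function.iterate_succ_apply', Function.iterate_succ_apply', ih, walk_smul]

omit [DecidableEq X] in
theorem walk_sub (M : X → X → ℝ) (g h : X → ℝ) :
    walk M (fun x => g x - h x) = fun x => walk M g x - walk M h x := by
  funext x
  unfold walk
  rw [← sub_div, ← sum_sub_distrib]
  congr 1
  exact sum_congr rfl fun y _ => by ring

omit [DecidableEq X] in
theorem walk_iter_sub (M : X → X → ℝ) (T : ℕ) (g h : X → ℝ) :
    (walk M)^[T] (fun x => g x - h x) = fun x => ((walk M)^[T] g) x - ((walk M)^[T] h) x := by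
  induction T with
  | zero => rfl
  | succ T ih =>
    rw [Function.iterate_succ_apply', Function.iterate_succ_apply', Function.iterate_succ_apply',
      ih, walk_sub]

/-- the high pass operator `1 - walk ^ T` -/
noncomputable def hp (M : X → X → ℝ) (T : ℕ) (g : X → ℝ) : X → ℝ :=
  fun y => g y - ((walk M)^[T] g) y

omit [DecidableEq X] in
theorem hp_smul (M : X → X → ℝ) (T : ℕ) (c : ℝ) (h : X → ℝ) :
    hp M T (fun x => c * h x) = fun x => c * hp M T h x := by
  funext x
  unfold hp
  rw [walk_iter_smul]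
  ring

omit [DecidableEq X] in
theorem hp_iter_smul (M : X → X → ℝ) (T S' : ℕ) (c : ℝ) (h : X → ℝ) :
    (hp M T)^[S'] (fun x => c * h x) = fun x => c * ((hp M T)^[S'] h) x := by
  induction S' with
  | zero => rfl
  | succ S' ih =>
    rw [Function.iterate_succ_apply', Function.iterate_succ_apply', ih, hp_smul]

theorem filtStepN_cast (E : List (X × X)) (F : X → ℕ) (T : ℕ) (p : (X → ℕ) × (X → ℕ)) (x : X) :
    ((filtStepN E F T p).1 x : ℝ) - (filtStepN E F T p).2 x =
      (QpN E F : ℝ) ^ T * hp (GF E F) T (fun y => (p.1 y : ℝ) - p.2 y) x := by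
  unfold filtStepN hp
  push_cast
  rw [stepN_iter_cast, stepN_iter_cast, walk_iter_sub]
  ring

theorem filtN_cast (E : List (X × X)) (F : X → ℕ) (T S' : ℕ) (psi : X → ℕ) (x : X) :
    (((filtStepN E F T)^[S'] (psi, fun _ => 0)).1 x : ℝ) -
      ((filtStepN E F T)^[S'] (psi, fun _ => 0)).2 x =
      (QpN E F : ℝ) ^ (T * S') * ((hp (GF E F) T)^[S'] (toR psi)) x := by
  induction S' generalizing x with
  | zero => simp
  | succ S' ih =>
    rw [Function.iterate_succ_apply', Function.iterate_succ_apply', filtStepN_cast]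
    have h2 : (fun y => (((filtStepN E F T)^[S'] (psi, fun _ => 0)).1 y : ℝ) -
      ((filtStepN E F T)^[S'] (psi, fun _ => 0)).2 y) =
      fun y => (QpN E F : ℝ) ^ (T * S') * ((hp (GF E F) T)^[S'] (toR psi)) y := funext ih
    rw [h2, hp_smul, Nat.mul_succ, pow_add]
    ring

end

/-! ### Labels -/

section
variable {k N : ℕ} (e : V ≃ Fin N)

/-- the sum of the seeds -/
noncomputable def seedSum {X : Type*} [DecidableEq X] (M : X → X → ℝ) [Fintype X] {S : ℕ}
    (x : Fin S → X) : X → ℝ :=
  fun y => ∑ s, if y = x s then 1 / deg M (x s) else 0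

theorem psiL_eq {X : Type*} [Fintype X] [DecidableEq X] {M : ℕ} (d : X ≃ Fin M)
    (D : X → ℕ) (Q S : ℕ) (x : Fin S → X) :
    psiL M (enl d D) Q S (finFunctionFinEquiv (fun s => d (x s)) : Fin (M ^ S)) =
      enl d fun y => ∑ s, if y = x s then Q / D y else 0 := by
  unfold psiL
  rw [tab_eq d]
  refine enl_congr d fun y => ?_
  rw [gt_enl, range_map_eq, ← List.ofFn_eq_map, List.sum_ofFn]
  refine sum_congr rfl fun s _ => ?_
  have h1 : seedL M S (finFunctionFinEquiv (fun s => d (x s)) : Fin (M ^ S)) s =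
      idx d (x s) := by
    unfold seedL
    rw [min_eq_left s.2.le]
    have h2 : finFunctionFinEquiv.symm (finFunctionFinEquiv (fun s => d (x s))) s = d (x s) := by
      rw [Equiv.symm_apply_apply]
    exact congrArg Fin.val h2
  rw [h1]
  simp only [idx_inj]

theorem psi_cast {X : Type*} [Fintype X] [DecidableEq X] (E : List (X × X)) (F : X → ℕ) {S : ℕ}
    (x : Fin S → X) : toR (fun y => ∑ s, if y = x s then QpN E F / degN E F y else 0) =
      fun y => QpN E F * seedSum (GF E F) x y := by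
  funext y
  unfold seedSum toR
  rw [Nat.cast_sum, mul_sum]
  refine sum_congr rfl fun s _ => ?_
  by_cases h : y = x s
  · rw [if_pos h, if_pos h, ← h, ← degN_cast]
    rcases Nat.eq_zero_or_pos (degN E F y) with h0 | h0
    · rw [h0]; simp
    · rw [Nat.cast_div (deg_dvd_QpN E F h0) (by positivity)]
      ring
  · rw [if_neg h, if_neg h]
    simp

theorem labelL_val (hk : 0 < k) (p : List ℕ × List ℕ) : ∃ a : V → Fin k,
    labelL k N p = enl e (fun u => (a u : ℕ)) ∧ ∀ u,
      ((∃ i < k, bestAtL k p (idx e u) i = true) → bestAtL k p (idx e u) (a u) = true) := by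
  have h1 : ∀ u : V, ((List.range k).find? (bestAtL k p (idx e u))).getD 0 < k := by
    intro u
    rcases h : (List.range k).find? (bestAtL k p (idx e u)) with _ | i
    · simpa using hk
    · have := List.mem_of_find?_eq_some h
      simpa using this
  refine ⟨fun u => ⟨_, h1 u⟩, ?_, ?_⟩
  · unfold labelL
    rw [tab_eq e]
  · rintro u ⟨i, hi, hb⟩
    rcases h : (List.range k).find? (bestAtL k p (idx e u)) with _ | j
    · rw [List.find?_eq_none] at h
      exact absurd hb (h i (List.mem_range.2 hi))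
    · have h5 := List.find?_some h
      show bestAtL k p (idx e u) (((List.range k).find? (bestAtL k p (idx e u))).getD 0) = true
      rw [h]
      exact h5

theorem bestAtL_iff (A B : V × Fin k → ℕ) (u : V) (i : Fin k) :
    bestAtL k (enl (eh e k) A, enl (eh e k) B) (idx e u) i = true ↔
      ∀ j, (A (u, j) : ℝ) - B (u, j) ≤ A (u, i) - B (u, i) := by
  unfold bestAtL
  rw [List.all_eq_true]
  constructor
  · intro h j
    have h2 := h j (List.mem_range.2 j.2)
    rw [decide_eq_true_eq] at h2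
    rw [← idx_eh, ← idx_eh, gt_enl, gt_enl, gt_enl, gt_enl] at h2
    have h3 : ((A (u, j) + B (u, i) : ℕ) : ℝ) ≤ ((A (u, i) + B (u, j) : ℕ) : ℝ) := by
      exact_mod_cast h2
    push_cast at h3
    linarith
  · intro h j hj
    rw [List.mem_range] at hj
    have h2 := h ⟨j, hj⟩
    rw [decide_eq_true_eq]
    have e1 : j + k * idx e u = idx (eh e k) (u, ⟨j, hj⟩) := by rw [idx_eh]
    rw [e1, ← idx_eh, gt_enl, gt_enl, gt_enl, gt_enl]
    have h3 : ((A (u, ⟨j, hj⟩) + B (u, i) : ℕ) : ℝ) ≤ ((A (u, i) + B (u, ⟨j, hj⟩) : ℕ) : ℝ) := by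
      push_cast
      linarith
    exact_mod_cast h3

theorem exists_best (hk : 0 < k) (A B : V × Fin k → ℕ) (u : V) :
    ∃ i < k, bestAtL k (enl (eh e k) A, enl (eh e k) B) (idx e u) i = true := by
  have : Nonempty (Fin k) := ⟨⟨0, hk⟩⟩
  obtain ⟨i, _, hi⟩ := exists_max_image univ (fun j : Fin k => (A (u, j) : ℝ) - B (u, j))
    univ_nonempty
  exact ⟨i, i.2, (bestAtL_iff e A B u i).2 fun j => hi j (mem_univ j)⟩

theorem costL_eq (E : List (Con V k)) (F : V → ℕ) (a : V → Fin k) :
    costL (conL e E) (enl e F) (enl e fun u => (a u : ℕ)) = pieceV E F a := by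
  unfold costL conL pieceV
  rw [List.map_map]
  congr 1
  refine List.map_congr_left fun c _ => ?_
  simp only [Function.comp, gt_enl, gt_ofFn]
  simp only [← Fin.ext_iff]

variable [Fintype V] [DecidableEq V]

/-- the lifted form of a piece -/
abbrev GH (E : List (Con V k)) (F : V → ℕ) : V × Fin k → V × Fin k → ℝ :=
  GF (lift E) (hatN k F)

/-- scaled list data of the label extended graph -/
theorem decodeL_spec (hk : 0 < k) (E : List (Con V k)) (F : V → ℕ) (T S' S : ℕ)
    (x : Fin S → V × Fin k) : ∃ a : V → Fin k,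
    decodeL k N (edg (eh e k) (lift E)) (enl (eh e k) (hatN k F))
      (enl (eh e k) (degN (lift E) (hatN k F))) (QpN (lift E) (hatN k F)) T S' S
      (finFunctionFinEquiv (fun s => eh e k (x s)) : Fin ((N * k) ^ S)) =
        enl e (fun u => (a u : ℕ)) ∧
    ∀ u i, seedSum (GH E F) x (u, i) - ((hp (GH E F) T)^[S'] (seedSum (GH E F) x)) (u, i) ≤
      seedSum (GH E F) x (u, a u) -
        ((hp (GH E F) T)^[S'] (seedSum (GH E F) x)) (u, a u) := by
  unfold decodeL
  rw [psiL_eq, filtL_eq]
  unfold scoreL addL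
  rw [tab_eq (eh e k)]
  simp only [gt_enl]
  set Qh := QpN (lift E) (hatN k F) with hQh
  set psi : V × Fin k → ℕ := fun y => ∑ s, if y = x s then Qh / degN (lift E) (hatN k F) y else 0
    with hpsi
  set p := (filtStepN (lift E) (hatN k F) T)^[S'] (psi, fun _ => 0) with hp'
  obtain ⟨a, ha, ha'⟩ := labelL_val e hk (enl (eh e k) (fun y => Qh ^ (T * S') * psi y + p.2 y),
    enl (eh e k) p.1)
  refine ⟨a, ha, fun u i => ?_⟩
  have h1 := ha' u (exists_best e hk _ _ u)
  rw [bestAtL_iff] at h1
  have h2 := h1 i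
  have hcast : ∀ y, ((Qh ^ (T * S') * psi y + p.2 y : ℕ) : ℝ) - p.1 y =
      (Qh : ℝ) ^ (T * S') * Qh * (seedSum (GH E F) x y -
        ((hp (GH E F) T)^[S'] (seedSum (GH E F) x)) y) := by
    intro y
    have h3 := filtN_cast (lift E) (hatN k F) T S' psi y
    rw [← hp', psi_cast (lift E) (hatN k F) x, hp_iter_smul] at h3
    have h4 : (psi y : ℝ) = Qh * seedSum (GH E F) x y :=
      congrFun (psi_cast (lift E) (hatN k F) x) y
    push_cast
    rw [h4]
    have h5 : (p.2 y : ℝ) - p.1 y = - ((Qh : ℝ) ^ (T * S') *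
      (Qh * ((hp (GH E F) T)^[S'] (seedSum (GH E F) x)) y)) := by
      rw [← h3]; ring
    linear_combination h5
  rw [hcast, hcast] at h2
  have hQ : (0 : ℝ) < (Qh : ℝ) ^ (T * S') * Qh := by
    have : (0 : ℝ) < Qh := by exact_mod_cast QpN_pos _ _
    positivity
  exact le_of_mul_le_mul_left h2 hQ

omit [Fintype V] [DecidableEq V] in
theorem certL_val (hk : 0 < k) (E : List (Con V k)) (F : V → ℕ) (Eh : List (ℕ × ℕ))
    (Fh D : List ℕ) (Q T S' S c : ℕ) : ∃ a : V → Fin k,
    certL k N (conL e E) (enl e F) Eh Fh D Q T S' S c = pieceV E F a := by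
  unfold certL decodeL
  obtain ⟨a, ha, _⟩ := labelL_val e hk (scoreL (N * k) Q T S' (psiL (N * k) D Q S c)
    (filtL (N * k) Eh Fh D Q T S' (psiL (N * k) D Q S c)))
  exact ⟨a, by rw [ha, costL_eq]⟩

omit [Fintype V] [DecidableEq V] in
theorem foldl_min_spec (l : List ℕ) (a : ℕ) :
    (l.foldl min a = a ∨ l.foldl min a ∈ l) ∧ l.foldl min a ≤ a ∧ ∀ x ∈ l, l.foldl min a ≤ x := by
  induction l generalizing a with
  | nil => simp
  | cons y l ih =>
    rw [List.foldl_cons]
    obtain ⟨h1, h2, h3⟩ := ih (min a y)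
    refine ⟨?_, h2.trans (min_le_left _ _), ?_⟩
    · rcases h1 with h1 | h1
      · rcases min_choice a y with h | h
        · left; rw [h1, h]
        · right; rw [h1, h]; exact List.mem_cons_self
      · right; exact List.mem_cons_of_mem _ h1
    · intro x hx
      rcases List.mem_cons.1 hx with rfl | hx
      · exact h2.trans (min_le_right _ _)
      · exact h3 x hx

omit [Fintype V] [DecidableEq V] in
theorem leafL_val (hk : 0 < k) (E : List (Con V k)) (F : V → ℕ) (T S' S B : ℕ) :
    ∃ a : V → Fin k, leafL k N (conL e E) (enl e F) T S' S B = pieceV E F a := by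
  unfold leafL bestL
  set f := fun c => certL k N (conL e E) (enl e F) (liftL k (conL e E)) (hatL k N (enl e F))
    (degL (N * k) (liftL k (conL e E)) (hatL k N (enl e F)))
    (QpL (degL (N * k) (liftL k (conL e E)) (hatL k N (enl e F)))) T S' S c with hf
  obtain ⟨h1, _, _⟩ := foldl_min_spec ((List.range B).map f) (f 0)
  rcases h1 with h1 | h1
  · obtain ⟨a, ha⟩ := certL_val e hk E F (liftL k (conL e E)) (hatL k N (enl e F))
      (degL (N * k) (liftL k (conL e E)) (hatL k N (enl e F)))
      (QpL (degL (N * k) (liftL k (conL e E)) (hatL k N (enl e F)))) T S' S 0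
    exact ⟨a, h1.trans ha⟩
  · rw [List.mem_map] at h1
    obtain ⟨c, _, h1⟩ := h1
    obtain ⟨a, ha⟩ := certL_val e hk E F (liftL k (conL e E)) (hatL k N (enl e F))
      (degL (N * k) (liftL k (conL e E)) (hatL k N (enl e F)))
      (QpL (degL (N * k) (liftL k (conL e E)) (hatL k N (enl e F)))) T S' S c
    exact ⟨a, h1.symm.trans ha⟩

theorem leafL_le (hk : 0 < k) (E : List (Con V k)) (F : V → ℕ) (T S' S B : ℕ)
    (hB : (N * k) ^ S ≤ B) (x : Fin S → V × Fin k) : ∃ a : V → Fin k,
    leafL k N (conL e E) (enl e F) T S' S B ≤ pieceV E F a ∧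
    ∀ u i, seedSum (GH E F) x (u, i) - ((hp (GH E F) T)^[S'] (seedSum (GH E F) x)) (u, i) ≤
      seedSum (GH E F) x (u, a u) -
        ((hp (GH E F) T)^[S'] (seedSum (GH E F) x)) (u, a u) := by
  obtain ⟨a, ha, ha'⟩ := decodeL_spec e hk E F T S' S x
  refine ⟨a, ?_, ha'⟩
  unfold leafL bestL
  rw [liftL_eq, hatL_eq, degL_eq, QpL_eq]
  obtain ⟨c, hc⟩ : ∃ c : ℕ, c = ((finFunctionFinEquiv (fun s => eh e k (x s)) :
    Fin ((N * k) ^ S)) : ℕ) := ⟨_, rfl⟩
  obtain ⟨_, _, h3⟩ := foldl_min_spec ((List.range B).map fun c => certL k N (conL e E) (enl e F)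
    (edg (eh e k) (lift E)) (enl (eh e k) (hatN k F)) (enl (eh e k) (degN (lift E) (hatN k F)))
    (QpN (lift E) (hatN k F)) T S' S c) (certL k N (conL e E) (enl e F)
    (edg (eh e k) (lift E)) (enl (eh e k) (hatN k F)) (enl (eh e k) (degN (lift E) (hatN k F)))
    (QpN (lift E) (hatN k F)) T S' S 0)
  refine (h3 _ (List.mem_map.2 ⟨c, List.mem_range.2 ?_, rfl⟩)).trans (le_of_eq ?_)
  · rw [hc]
    exact (Fin.is_lt _).trans_le hB
  · unfold certL
    rw [hc, ha, costL_eq]

end

end Lab

end Vale.Agent.P325
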