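import Vale.Agent.P325.AlgSpec2

/-!
# The main loop follows the process
-/

namespace Vale.Agent.P325

open Finset Alg

variable {V : Type*} {k N : ℕ} (e : V ≃ Fin N) [Fintype V] [DecidableEq V]

/-- parameters of the process -/
def prm (P : Alg.Num) : Prm := ⟨P.n, P.L, P.r, P.R, P.T, P.J, P.b⟩

omit [Fintype V] [DecidableEq V] in
/-- a node as numbers -/
def nodeL (x : Node V) : NodeL := (enl e x.1, x.2.1, x.2.2)

/-- value of a leaf -/
def leafN (E : List (Con V k)) (P : Alg.Num) (F : V → ℕ) : ℕ :=
  leafL k N (conL e E) (enl e F) P.T P.S' P.S P.B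

/-- a state as numbers -/
def stateL (E : List (Con V k)) (P : Alg.Num) (s : State V) : StL :=
  (s.1.map (nodeL e), (s.2.map (totN (base E))).sum, (s.2.map (leafN e E P)).sum)

theorem initL_eq (E : List (Con V k)) (P : Alg.Num) :
    initL N (conL e E) P = stateL e E P (init (prm P) (base E)) := by
  unfold initL stateL init nodeL
  have h1 : tab N (fun _ => 2 ^ P.b) = enl e fun _ => 2 ^ P.b := tab_eq e _
  rw [h1, baseL_eq, degL_eq, totN_sum]
  simp only [List.map_cons, List.map_nil, List.sum_nil]
  rfl

theorem loopL_step (E : List (Con V k)) (P : Alg.Num) (s : State V) (hs : s.1 ≠ []) :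
    ∃ s', Step (prm P) (base E) s s' ∧
      loopL k N (conL e E) P (stateL e E P s) = stateL e E P s' := by
  obtain ⟨act, lv⟩ := s
  cases act with
  | nil => exact absurd rfl hs
  | cons x act =>
    obtain ⟨F, wh, j⟩ := x
    have h0 : loopL k N (conL e E) P (stateL e E P ((F, wh, j) :: act, lv)) =
        treatL k N (conL e E) P (enl e F, wh, j) (act.map (nodeL e))
          (lv.map (totN (base E))).sum (lv.map (leafN e E P)).sum
          (enl e (degN (base E) F)) := by
      unfold loopL stateL
      simp only [List.map_cons, nodeL]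
      rw [baseL_eq, degL_eq]
    rw [h0]
    unfold treatL
    simp only [totN_sum, QpL_eq, baseL_eq]
    by_cases h : P.J ≤ j ∨ totN (base E) F * P.n < wh
    · rw [if_pos h]
      exact ⟨(act, lv), Step.drop F wh j act lv h, rfl⟩
    · rw [if_neg h]
      rcases hf : findL N (edg e (base E)) (enl e F) (enl e (degN (base E) F))
        (QpN (base E) F) P.n P.L P.r P.R P.T (totN (base E) F) with _ | p
      · refine ⟨(act, F :: lv), Step.leaf F wh j act lv h
          (findL_none e (prm P) (base E) F hf), ?_⟩
        unfold stateL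
        simp only [List.map_cons, List.sum_cons]
        rw [add_comm (totN (base E) F), add_comm (leafN e E P F)]
        rfl
      · obtain ⟨v, hv, hg⟩ := findL_some e (prm P) (base E) F hf
        have ht : min p.2 P.T = p.2 := min_eq_left (le_of_lt hg.1)
        refine ⟨_, Step.split F wh j act lv h v p.2 hg, ?_⟩
        simp only [ht, hv, bumpL_eq]
        unfold splitL stateL
        simp only [List.map_cons, nodeL, childLL_eq, childRL_eq, degL_eq, totN_sum]

theorem loopL_nil (E : List (Con V k)) (P : Alg.Num) (s : State V) (hs : s.1 = []) :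
    loopL k N (conL e E) P (stateL e E P s) = stateL e E P s := by
  unfold loopL stateL
  rw [hs]
  rfl

/-- the main loop follows the process -/
theorem loop_reach (E : List (Con V k)) (P : Alg.Num) (i : ℕ) : ∃ (s : State V) (j : ℕ),
    Reach (prm P) (base E) j s ∧ (j = i ∨ s.1 = []) ∧
      (loopL k N (conL e E) P)^[i] (initL N (conL e E) P) = stateL e E P s := by
  induction i with
  | zero => exact ⟨_, 0, Reach.zero, Or.inl rfl, initL_eq e E P⟩
  | succ i ih =>
    obtain ⟨s, j, h1, h2, h3⟩ := ih
    rw [Function.iterate_succ_apply', h3]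
    by_cases hs : s.1 = []
    · exact ⟨s, j, h1, Or.inr hs, loopL_nil e E P s hs⟩
    · obtain ⟨s', h4, h5⟩ := loopL_step e E P s hs
      refine ⟨s', j + 1, Reach.succ j s s' h1 h4, Or.inl ?_, h5⟩
      rcases h2 with h2 | h2
      · rw [h2]
      · exact absurd h2 hs

/-- the run, if it is long enough -/
theorem runL_eq (E : List (Con V k)) (P : Alg.Num) (k1 k2 : ℕ)
    (hB : ∀ j s, Reach (prm P) (base E) j s → j < P.B) :
    ∃ (j : ℕ) (lv : List (V → ℕ)), Reach (prm P) (base E) j ([], lv) ∧
      runL k k1 k2 N (conL e E) P = acceptL k1 k2 E.length P.b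
        (lv.map (pieceW (base E))).sum (lv.map (leafN e E P)).sum := by
  obtain ⟨s, j, h1, h2, h3⟩ := loop_reach e E P P.B
  have h4 : s.1 = [] := by
    rcases h2 with h2 | h2
    · have := hB j s h1
      omega
    · exact h2
  obtain ⟨act, lv⟩ := s
  simp only at h4
  subst h4
  refine ⟨j, lv, h1, ?_⟩
  unfold runL
  rw [h3]
  unfold stateL conL
  rw [List.length_map]
  have h5 : totN (base E) = pieceW (base E) := funext fun F => totN_eq _ F
  rw [h5]

end Vale.Agent.P325
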