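import Vale.Agent.P325.Reduction

/-!
# The algorithm for the gap problem, and its consequence for reductions
-/

namespace Vale.Agent.P325

open Vale.Agent.Lib.PolyTime Vale.Agent.P325.Alg

theorem result_both : ∃ c : ℝ, 0 < c ∧ ∀ (k : ℕ) (α κ ε : ℝ), 2 ≤ k → 0 < α → α ≤ 1 →
    0 < κ → κ ≤ 1 → ε ≤ c * κ ^ 3 * α / (1 + Real.log (1 / α)) →
    SolvedIn (Inst.code : Inst k → List Bool) (fun G => G.size)
      (fun G => 1 - ε ≤ G.val) (fun G => G.val ≤ 1 - κ) α ∧
    ∀ (L : Set (List Bool)) (f : List Bool → Inst k) (A b : ℝ), 0 < b →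
      Nonempty (Turing.TM2ComputableInPolyTime (fun x : List Bool => x)
        (Inst.code : Inst k → List Bool) f) →
      (∀ x, ((f x).size : ℝ) ≤ A * ((x.length : ℝ) + 1) ^ b) →
      (∀ x ∈ L, 1 - ε ≤ (f x).val) → (∀ x ∉ L, (f x).val ≤ 1 - κ) →
      SolvedIn (fun x : List Bool => x) (fun x => (x.length : ℝ) + 1)
        (fun x => x ∈ L) (fun x => x ∉ L) (b * α) := by
  obtain ⟨c0, hc0, h⟩ := exists_cfacts
  refine ⟨c0 / 4, by positivity, fun k α κ ε hk hα hα1 hκ hκ1 hε => ?_⟩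
  obtain ⟨q, hq, hq1, hq2⟩ := alpha_q hα hα1
  obtain ⟨c, η, rfl, rfl, hc⟩ := h k q κ hk hq hκ hκ1
  have hq' : (1 : ℝ) ≤ c.q := by exact_mod_cast hq
  -- comparison of the values of epsilon
  have heps : ε ≤ c0 * κ ^ 3 / (c.q * (1 + Real.log c.q)) := by
    refine hε.trans ?_
    have hlog : 0 ≤ Real.log (1 / α) := Real.log_nonneg (by rw [one_le_div hα]; exact hα1)
    have hk3 : 0 ≤ c0 * κ ^ 3 := by positivity
    have h1 := mul_le_mul_of_nonneg_left hq2 hk3
    have e1 : c0 * κ ^ 3 * (α / (4 * (1 + Real.log (1 / α)))) =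
        c0 / 4 * κ ^ 3 * α / (1 + Real.log (1 / α)) := by
      field_simp
    have e2 : c0 * κ ^ 3 * (1 / (c.q * (1 + Real.log c.q))) =
        c0 * κ ^ 3 / (c.q * (1 + Real.log c.q)) := by
      rw [mul_one_div]
    rw [e1, e2] at h1
    exact h1
  refine ⟨?_, ?_⟩
  · obtain ⟨M, C, hM, hG⟩ := exists_machine hc
    refine ⟨M, C, hM, fun G => ?_⟩
    obtain ⟨ans, t, ht, hA, hyes, hno⟩ := hG G
    refine ⟨ans, t, ht.trans ?_, hA, fun hv => hyes (le_trans (by linarith) hv), hno⟩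
    have hs : (1 : ℝ) ≤ G.size := by
      have := List.length_pos_of_ne_nil G.ne
      have h1 : 1 ≤ G.size := by unfold Inst.size; omega
      exact_mod_cast h1
    refine Real.rpow_le_rpow_of_exponent_le (by norm_num) ?_
    exact mul_le_mul_of_nonneg_left (Real.rpow_le_rpow_of_exponent_le hs hq1) (by positivity)
  · intro L f A b hb hf hsize hyes hno
    obtain ⟨M, C, hM, hG⟩ := reduction_q hc L f hb hf hsize
      (fun x hx => le_trans (by linarith) (hyes x hx)) hno
    refine ⟨M, C, hM, fun x => ?_⟩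
    obtain ⟨ans, t, ht, hA, hiff⟩ := hG x
    refine ⟨ans, t, ht.trans ?_, hA, fun hx => hiff.2 hx, fun hx => ?_⟩
    · have hs : (1 : ℝ) ≤ (x.length : ℝ) + 1 := by
        have : (0 : ℝ) ≤ x.length := Nat.cast_nonneg _
        linarith
      refine Real.rpow_le_rpow_of_exponent_le (by norm_num) ?_
      refine mul_le_mul_of_nonneg_left (Real.rpow_le_rpow_of_exponent_le hs ?_) (by positivity)
      exact mul_le_mul_of_nonneg_left hq1 hb.le
    · cases ans
      · rfl
      · exact absurd (hiff.1 rfl) hx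

end Vale.Agent.P325
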