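import Vale.Agent.P325.Form

/-!
# Constraints, graph forms, weights of pieces
-/

namespace Vale.Agent.P325

open Finset

/-- A unique constraint `(u, v, π)`: a labeling `a` satisfies it if `a v = π (a u)`. -/
abbrev Con (V : Type*) (k : ℕ) := V × V × Equiv.Perm (Fin k)

variable {V X : Type*} {k : ℕ}

/-- number of constraints violated by `a` -/
def viol (E : List (Con V k)) (a : V → Fin k) : ℕ :=
  E.countP fun e => decide (a e.2.1 ≠ e.2.2 (a e.1))

/-- the edges of the label-extended graph -/
def lift (E : List (Con V k)) : List ((V × Fin k) × (V × Fin k)) :=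
  E.flatMap fun e => (List.finRange k).map fun i => ((e.1, i), (e.2.1, e.2.2 i))

/-- the lazy graph form of a list of edges: `M(x,y) = ∑ ([x=a]+[x=b]) ([y=a]+[y=b])` over the
edges `(a, b)`; so `Q M h h = ∑ (h a + h b)²` and `tot M = 4 * (number of edges)`. -/
def gform [DecidableEq X] (E : List (X × X)) (x y : X) : ℝ :=
  (E.map fun e => (((if x = e.1 then 1 else 0) + (if x = e.2 then 1 else 0)) *
    ((if y = e.1 then 1 else 0) + (if y = e.2 then 1 else 0)) : ℝ)).sum

/-- the underlying edges -/
def base (E : List (Con V k)) : List (V × V) := E.map fun e => (e.1, e.2.1)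

/-- weight of the piece `F`: this is `tot (loc (gform (base E)) F)` -/
def pieceW (E : List (V × V)) (F : V → ℕ) : ℕ := (E.map fun e => (F e.1 + F e.2) ^ 2).sum

/-- weight of the constraints violated by `a` inside the piece `F` -/
def pieceV (E : List (Con V k)) (F : V → ℕ) (a : V → Fin k) : ℕ :=
  (E.map fun e => if a e.2.1 = e.2.2 (a e.1) then 0 else F e.1 * F e.2.1).sum

end Vale.Agent.P325
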