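import Vale.Agent.P325.Spec
import Vale.Agent.P325.Defs

/-!
# Recovering a labeling of a leaf from few seeds
-/

namespace Vale.Agent.P325

open Finset

/-! ### The lifted form -/

section Lifted

variable {V : Type*} [Fintype V] [DecidableEq V] {k : ℕ} {M : V → V → ℝ}
  {Mh : V × Fin k → V × Fin k → ℝ}

omit [DecidableEq V] in
theorem deg_lifted (hproj : ∀ u i v, ∑ j, Mh (u, i) (v, j) = M u v) (u : V) (i : Fin k) :
    deg Mh (u, i) = deg M u := by
  unfold deg
  rw [Fintype.sum_prod_type]
  exact sum_congr rfl fun v _ => hproj u i v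

omit [DecidableEq V] in
theorem sum_walk_lifted (hM : IsForm M) (hMh : IsForm Mh)
    (hproj : ∀ u i v, ∑ j, Mh (u, i) (v, j) = M u v) (h : V × Fin k → ℝ) (u : V) :
    ∑ i, walk Mh h (u, i) = walk M (fun v => ∑ j, h (v, j)) u := by
  unfold walk
  simp_rw [deg_lifted hproj]
  rw [← sum_div]
  congr 1
  rw [sum_comm, Fintype.sum_prod_type]
  refine sum_congr rfl fun v _ => ?_
  rw [mul_sum]
  refine sum_congr rfl fun j _ => ?_
  rw [← sum_mul]
  congr 1
  rw [hM.symm, ← hproj v j u]
  exact sum_congr rfl fun i _ => hMh.symm _ _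

theorem sum_heat_lifted (hM : IsForm M) (hMh : IsForm Mh)
    (hproj : ∀ u i v, ∑ j, Mh (u, i) (v, j) = M u v) (u : V) (i : Fin k) (t : ℕ) :
    ∀ v, ∑ j, heat Mh (u, i) t (v, j) = heat M u t v := by
  induction t with
  | zero =>
    intro v
    simp only [heat_zero, Prod.mk.injEq]
    by_cases hv : v = u
    · simp [hv]
    · simp [hv]
  | succ t ih =>
    intro v
    simp only [heat_succ]
    rw [sum_walk_lifted hM hMh hproj]
    congr 1
    funext v'
    exact ih v'

theorem nrm_heat_lifted_le (hM : IsForm M) (hMh : IsForm Mh)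
    (hproj : ∀ u i v, ∑ j, Mh (u, i) (v, j) = M u v) (u : V) (i : Fin k) (t : ℕ) :
    nrm Mh (heat Mh (u, i) t) ≤ nrm M (heat M u t) := by
  unfold nrm
  rw [Fintype.sum_prod_type]
  refine sum_le_sum fun v _ => ?_
  simp_rw [deg_lifted hproj]
  rw [← mul_sum]
  refine mul_le_mul_of_nonneg_left ?_ (hM.deg_nonneg v)
  rw [← sum_heat_lifted hM hMh hproj u i t v]
  exact sum_sq_le_sq_sum_of_nonneg fun j _ => hMh.heat_nonneg _ _ _

end Lifted

/-! ### Sampling -/

section Maurey

variable {X I : Type*} [Fintype X] [Fintype I]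

theorem nrm_add_sub (M : X → X → ℝ) (r g : X → ℝ) :
    nrm M (r + g) = nrm M r + 2 * ip M r g + nrm M g := by
  unfold nrm ip
  rw [mul_sum, ← sum_add_distrib, ← sum_add_distrib]
  refine sum_congr rfl fun x _ => ?_
  rw [Pi.add_apply]
  ring

/-- Maurey's lemma: the mean of `g` is approximated by the average of few values. -/
theorem exists_sample {M : X → X → ℝ} (hM : IsForm M) (p : I → ℝ) (hp : ∀ i, 0 ≤ p i)
    (hp1 : ∑ i, p i = 1) (g : I → X → ℝ) (C : ℝ) (hC : ∑ i, p i * nrm M (g i) ≤ C) (S : ℕ) :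
    ∃ x : Fin S → I, (∀ s, 0 < p (x s)) ∧
      nrm M (∑ s, g (x s) - (S : ℝ) • ∑ i, p i • g i) ≤ S * C := by
  set μ := ∑ i, p i • g i with hμ
  induction S with
  | zero => exact ⟨Fin.elim0, fun s => s.elim0, by simp [nrm]⟩
  | succ S ih =>
    obtain ⟨x, hx, hle⟩ := ih
    set r := ∑ s, g (x s) - (S : ℝ) • μ with hr
    -- the average over the next seed
    have havg : ∑ i, p i * nrm M (r + (g i - μ)) ≤ (S + 1) * C := by
      have e1 : ∀ i, p i * nrm M (r + (g i - μ)) =
          p i * nrm M r + 2 * (p i * ip M r (g i - μ)) + p i * nrm M (g i - μ) := fun i => by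
        rw [nrm_add_sub]; ring
      have e2 : ∑ i, p i * ip M r (g i - μ) = 0 := by
        unfold ip
        simp_rw [mul_sum]
        rw [sum_comm]
        refine sum_eq_zero fun y _ => ?_
        have : ∀ i, p i * (deg M y * (r y * (g i - μ) y)) =
            deg M y * r y * (p i * g i y - p i * μ y) := fun i => by
          rw [Pi.sub_apply]; ring
        simp_rw [this]
        rw [← mul_sum, sum_sub_distrib, ← sum_mul, hp1, hμ, Finset.sum_apply]
        simp
      have e3 : ∑ i, p i * nrm M (g i - μ) ≤ C := by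
        have : ∑ i, p i * nrm M (g i - μ) = ∑ i, p i * nrm M (g i) - nrm M μ := by
          unfold nrm
          simp_rw [mul_sum]
          rw [sum_comm, sum_comm (s := univ (α := I)) (t := univ (α := X))
            (f := fun i y => p i * (deg M y * g i y ^ 2)), ← sum_sub_distrib]
          refine sum_congr rfl fun y _ => ?_
          have e : ∀ i, p i * (deg M y * (g i - μ) y ^ 2) =
              p i * (deg M y * g i y ^ 2) - 2 * deg M y * μ y * (p i * g i y) +
                deg M y * μ y ^ 2 * p i := fun i => by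
            rw [Pi.sub_apply]; ring
          simp_rw [e]
          rw [sum_add_distrib, sum_sub_distrib, ← mul_sum, ← mul_sum, hp1]
          have : ∑ i, p i * g i y = μ y := by
            rw [hμ, Finset.sum_apply]
            simp
          rw [this]
          ring
        rw [this]
        have := hM.nrm_nonneg μ
        linarith
      simp_rw [e1]
      rw [sum_add_distrib, sum_add_distrib, ← sum_mul, hp1, ← mul_sum, e2]
      linarith
    obtain ⟨i, hi, hile⟩ : ∃ i, 0 < p i ∧ nrm M (r + (g i - μ)) ≤ (S + 1) * C := by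
      by_contra hcon
      push Not at hcon
      have h1 : ∃ i, 0 < p i := by
        by_contra h
        push Not at h
        have : ∑ i, p i ≤ 0 := sum_nonpos fun i _ => h i
        linarith
      obtain ⟨i₀, hi₀⟩ := h1
      have h2 : ∑ i, p i * ((S + 1) * C) < ∑ i, p i * nrm M (r + (g i - μ)) := by
        refine sum_lt_sum (fun i _ => ?_) ⟨i₀, mem_univ _, ?_⟩
        · rcases (hp i).eq_or_lt with h | h
          · rw [← h]; simp
          · exact mul_le_mul_of_nonneg_left (hcon i h).le (hp i)
        · exact mul_lt_mul_of_pos_left (hcon i₀ hi₀) hi₀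
      rw [← sum_mul, hp1] at h2
      linarith
    refine ⟨Fin.snoc x i, ?_, ?_⟩
    · intro s
      refine Fin.lastCases ?_ (fun s => ?_) s
      · rw [Fin.snoc_last]; exact hi
      · rw [Fin.snoc_castSucc]; exact hx s
    · rw [Fin.sum_univ_castSucc]
      simp only [Fin.snoc_castSucc, Fin.snoc_last]
      have : ∑ s, g (x s) + g i - ((S + 1 : ℕ) : ℝ) • μ = r + (g i - μ) := by
        rw [hr]
        push_cast
        rw [add_smul, one_smul]
        abel
      rw [this]
      push_cast
      exact hile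

end Maurey

/-! ### Decoding -/

section Decode

variable {V : Type*} [Fintype V] [DecidableEq V] {k : ℕ} {M : V → V → ℝ}
  {Mh : V × Fin k → V × Fin k → ℝ}

/-- the indicator of the graph of a labeling -/
noncomputable def lab1 (a : V → Fin k) : V × Fin k → ℝ := fun y => if y.2 = a y.1 then 1 else 0

/-- the normalised sum of the indicators of the seeds -/
noncomputable def seedF (Mh : V × Fin k → V × Fin k → ℝ) {S : ℕ} (x : Fin S → V × Fin k) :
    V × Fin k → ℝ := fun y => ∑ s, if y = x s then 1 / deg Mh (x s) else 0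

omit [DecidableEq V] in
theorem nrm_three (hM : IsForm Mh) (f g h : V × Fin k → ℝ) :
    nrm Mh (fun x => f x + g x + h x) ≤ 3 * (nrm Mh f + nrm Mh g + nrm Mh h) := by
  unfold nrm
  rw [← sum_add_distrib, ← sum_add_distrib, mul_sum]
  refine sum_le_sum fun x _ => ?_
  have h1 := hM.deg_nonneg x
  have h2 : (f x + g x + h x) ^ 2 ≤ 3 * (f x ^ 2 + g x ^ 2 + h x ^ 2) := by
    nlinarith [sq_nonneg (f x - g x), sq_nonneg (g x - h x), sq_nonneg (f x - h x)]
  have := mul_le_mul_of_nonneg_left h2 h1
  linarith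

omit [DecidableEq V] in
theorem nrm_lab1 (hproj : ∀ u i v, ∑ j, Mh (u, i) (v, j) = M u v) (a : V → Fin k) :
    nrm Mh (lab1 a) = tot M := by
  unfold nrm tot lab1
  rw [Fintype.sum_prod_type]
  refine sum_congr rfl fun v _ => ?_
  simp_rw [deg_lifted hproj]
  simp

theorem leaf_decode (hM : IsForm M) (hMh : IsForm Mh)
    (hproj : ∀ u i v, ∑ j, Mh (u, i) (v, j) = M u v) {n r T S S' : ℕ} {η : ℝ}
    (hcard : Fintype.card V ≤ n) (hS : 0 < S) (htot : 0 < tot M) (hη : 0 < η) (hη1 : η ≤ 1)
    (hT : 1 / (r : ℝ) ≤ (1 - η) ^ T)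
    (hleaf : ∀ v, 0 < deg M v → tot M ≤ n ^ 2 * deg M v →
      nrm M (heat M v T) * tot M ≤ 16 * r * deg M v ^ 2) (a : V → Fin k) :
    ∃ x : Fin S → V × Fin k, (∀ s, 0 < deg M (x s).1) ∧
      ∀ a' : V → Fin k, (∀ u i, deg M u ≠ 0 →
        filt Mh T S' (seedF Mh x) (u, i) ≤ filt Mh T S' (seedF Mh x) (u, a' u)) →
      ∑ u ∈ univ.filter (fun u => a' u ≠ a u), deg M u ≤
        6 * (16 * r * S' ^ 2 / S + 1 / n + Real.exp (-(2 * (S' / r : ℝ))) +
          energy Mh (lab1 a) / (η * tot M)) * tot M := by
  classical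
  set w := tot M with hw
  -- heavy vertices
  let Hv : V → Prop := fun v => 0 < deg M v ∧ w ≤ n ^ 2 * deg M v
  set w₀ : ℝ := ∑ v, if Hv v then deg M v else 0 with hw₀
  have hne : (univ : Finset V).Nonempty := by
    by_contra h
    rw [not_nonempty_iff_eq_empty] at h
    have : w = 0 := by rw [hw]; unfold tot; rw [h, sum_empty]
    linarith
  have hn : 0 < n := by
    obtain ⟨v, _⟩ := hne
    exact lt_of_lt_of_le (Fintype.card_pos_iff.2 ⟨v⟩) hcard
  have hnr : (0 : ℝ) < n := by exact_mod_cast hn
  have hlight : ∑ v, (if Hv v then 0 else deg M v) ≤ w / n := by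
    have h1 : ∀ v, (if Hv v then 0 else deg M v) ≤ w / n ^ 2 := by
      intro v
      split_ifs with h
      · positivity
      · rw [le_div_iff₀ (by positivity)]
        by_contra hcon
        push Not at hcon
        have hpos : 0 < deg M v := by
          rcases (hM.deg_nonneg v).eq_or_lt with h0 | h0
          · rw [← h0, zero_mul] at hcon
            linarith
          · exact h0
        exact h ⟨hpos, by linarith⟩
    refine (sum_le_sum fun v _ => h1 v).trans ?_
    rw [sum_const, card_univ, nsmul_eq_mul]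
    have : (Fintype.card V : ℝ) ≤ n := by exact_mod_cast hcard
    calc (Fintype.card V : ℝ) * (w / n ^ 2) ≤ n * (w / n ^ 2) :=
          mul_le_mul_of_nonneg_right this (by positivity)
      _ = w / n := by field_simp
  have hsplit : w₀ + ∑ v, (if Hv v then 0 else deg M v) = w := by
    rw [hw₀, ← sum_add_distrib]
    show _ = ∑ v, deg M v
    refine sum_congr rfl fun v _ => ?_
    split_ifs <;> simp
  have hw₀w : w₀ ≤ w := by
    have : 0 ≤ ∑ v, (if Hv v then 0 else deg M v) := sum_nonneg fun v _ => by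
      split_ifs
      · exact le_refl _
      · exact hM.deg_nonneg v
    linarith
  have hw₀0 : 0 < w₀ := by
    -- a vertex of largest degree is heavy
    obtain ⟨v, _, hv⟩ := exists_max_image univ (fun v => deg M v) hne
    have h1 : w ≤ Fintype.card V * deg M v := by
      rw [hw]
      unfold tot
      refine (sum_le_sum fun u hu => hv u hu).trans ?_
      rw [sum_const, card_univ, nsmul_eq_mul]
    have h2 : (Fintype.card V : ℝ) ≤ n := by exact_mod_cast hcard
    have h3 : 0 < deg M v := by
      rcases (hM.deg_nonneg v).eq_or_lt with h0 | h0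
      · rw [← h0, mul_zero] at h1
        linarith
      · exact h0
    have h4 : (1 : ℝ) ≤ n := by exact_mod_cast hn
    have h5 : Hv v := by
      refine ⟨h3, h1.trans ?_⟩
      refine mul_le_mul_of_nonneg_right ?_ h3.le
      nlinarith
    have h6 : (if Hv v then deg M v else 0) ≤ w₀ :=
      single_le_sum (f := fun v => if Hv v then deg M v else 0) (fun u _ => by
        show 0 ≤ (if Hv u then deg M u else 0)
        split_ifs
        · exact hM.deg_nonneg u
        · exact le_refl _) (mem_univ v)
    rw [if_pos h5] at h6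
    linarith
  -- the seeds
  let δ : V → V × Fin k → ℝ := fun v y => if y = (v, a v) then 1 else 0
  let g : V → V × Fin k → ℝ := fun v => filt Mh T S' ((w₀ / deg M v) • δ v)
  let p : V → ℝ := fun v => (if Hv v then deg M v else 0) / w₀
  have hp : ∀ v, 0 ≤ p v := fun v => by
    refine div_nonneg ?_ hw₀0.le
    split_ifs
    · exact hM.deg_nonneg v
    · exact le_refl _
  have hp1 : ∑ v, p v = 1 := by
    simp only [p]
    rw [← sum_div, ← hw₀, div_self hw₀0.ne']
  have hgN : ∀ v, Hv v → nrm Mh (g v) ≤ 16 * r * S' ^ 2 * w := by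
    intro v hv
    have h1 : nrm Mh (g v) ≤ (w₀ / deg M v) ^ 2 * ((S' : ℝ) ^ 2 * nrm Mh (heat Mh (v, a v) T)) := by
      simp only [g]
      rw [filt_smul]
      have e1 : nrm Mh ((w₀ / deg M v) • filt Mh T S' (δ v)) =
          (w₀ / deg M v) ^ 2 * nrm Mh (filt Mh T S' (δ v)) := by
        unfold nrm
        rw [mul_sum]
        refine sum_congr rfl fun y _ => ?_
        rw [Pi.smul_apply, smul_eq_mul]
        ring
      rw [e1]
      exact mul_le_mul_of_nonneg_left (hMh.nrm_filt_le_walk T S' (δ v)) (sq_nonneg _)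
    have h2 := nrm_heat_lifted_le hM hMh hproj v (a v) T
    have h3 := hleaf v hv.1 hv.2
    have hd : 0 < deg M v := hv.1
    have h4 : nrm Mh (heat Mh (v, a v) T) ≤ 16 * r * deg M v ^ 2 / w := by
      rw [le_div_iff₀ htot]
      exact (mul_le_mul_of_nonneg_right h2 htot.le).trans h3
    calc nrm Mh (g v) ≤ (w₀ / deg M v) ^ 2 * ((S' : ℝ) ^ 2 * (16 * r * deg M v ^ 2 / w)) :=
          h1.trans (mul_le_mul_of_nonneg_left
            (mul_le_mul_of_nonneg_left h4 (sq_nonneg _)) (sq_nonneg _))
      _ = 16 * r * S' ^ 2 * (w₀ ^ 2 / w) := by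
          field_simp
      _ ≤ 16 * r * S' ^ 2 * w := by
          refine mul_le_mul_of_nonneg_left ?_ (by positivity)
          rw [div_le_iff₀ htot]
          nlinarith
  have hC : ∑ v, p v * nrm Mh (g v) ≤ 16 * r * S' ^ 2 * w := by
    have : ∑ v, p v * nrm Mh (g v) ≤ ∑ v, p v * (16 * r * S' ^ 2 * w) := by
      refine sum_le_sum fun v _ => ?_
      by_cases hv : Hv v
      · exact mul_le_mul_of_nonneg_left (hgN v hv) (hp v)
      · have : p v = 0 := by simp only [p]; rw [if_neg hv, zero_div]
        rw [this, zero_mul, zero_mul]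
    rwa [← sum_mul, hp1, one_mul] at this
  obtain ⟨x, hx, hxle⟩ := exists_sample hMh p hp hp1 g _ hC S
  have hxH : ∀ s, Hv (x s) := by
    intro s
    by_contra h
    have := hx s
    simp only [p] at this
    rw [if_neg h, zero_div] at this
    exact lt_irrefl _ this
  refine ⟨fun s => (x s, a (x s)), fun s => (hxH s).1, fun a' ha' => ?_⟩
  set Φ := filt Mh T S' (seedF Mh fun s => (x s, a (x s))) with hΦ
  have hSr : (0 : ℝ) < S := by exact_mod_cast hS
  -- the restricted indicator
  let G₀ : V × Fin k → ℝ := fun y => if Hv y.1 then lab1 a y else 0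
  have hμ : ∑ v, p v • g v = filt Mh T S' G₀ := by
    have e1 : ∀ v, p v • g v = filt Mh T S' (p v • ((w₀ / deg M v) • δ v)) := fun v => by
      simp only [g]
      rw [← filt_smul]
    simp_rw [e1]
    rw [← filt_sum]
    congr 1
    funext y
    rw [Finset.sum_apply]
    have e2 : ∀ v, (p v • ((w₀ / deg M v) • δ v)) y =
        if y = (v, a v) then (if Hv v then 1 else 0) else 0 := by
      intro v
      simp only [Pi.smul_apply, smul_eq_mul, p, δ]
      by_cases h1 : y = (v, a v)
      · rw [if_pos h1, if_pos h1]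
        by_cases h2 : Hv v
        · rw [if_pos h2, if_pos h2]
          have := h2.1.ne'
          have := hw₀0.ne'
          field_simp
        · rw [if_neg h2, if_neg h2]; simp
      · rw [if_neg h1, if_neg h1]; simp
    simp_rw [e2]
    obtain ⟨u, i⟩ := y
    simp only [Prod.mk.injEq, G₀, lab1]
    by_cases hu : i = a u
    · subst hu
      have : ∀ v, (if u = v ∧ a u = a v then (if Hv v then (1 : ℝ) else 0) else 0) =
          if v = u then (if Hv u then 1 else 0) else 0 := by
        intro v
        by_cases hv : v = u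
        · subst hv; simp
        · rw [if_neg hv, if_neg]
          rintro ⟨h1, _⟩
          exact hv h1.symm
      simp_rw [this]
      simp
    · have : ∀ v, (if u = v ∧ i = a v then (if Hv v then (1 : ℝ) else 0) else 0) = 0 := by
        intro v
        rw [if_neg]
        rintro ⟨h1, h2⟩
        exact hu (by rw [h2, h1])
      simp_rw [this]
      simp [hu]
  have hsumg : ∑ s, g (x s) = w₀ • Φ := by
    simp only [g, hΦ]
    rw [← filt_smul, ← filt_sum]
    congr 1
    funext y
    rw [Finset.sum_apply, Pi.smul_apply, smul_eq_mul]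
    unfold seedF
    rw [mul_sum]
    refine sum_congr rfl fun s _ => ?_
    simp only [Pi.smul_apply, smul_eq_mul, δ]
    rw [deg_lifted hproj]
    split_ifs
    · ring
    · ring
  rw [hμ, hsumg] at hxle
  -- the approximation of `lab1 a`
  have hApprox : nrm Mh (fun y => (w₀ / S) * Φ y - lab1 a y) ≤
      3 * (16 * r * S' ^ 2 / S + 1 / n + Real.exp (-(2 * (S' / r : ℝ))) +
        energy Mh (lab1 a) / (η * w)) * w := by
    have e1 : (fun y => (w₀ / S) * Φ y - lab1 a y) = fun y =>
        ((w₀ / S) * Φ y - filt Mh T S' G₀ y) + (filt Mh T S' (G₀ - lab1 a) y) +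
          (filt Mh T S' (lab1 a) y - lab1 a y) := by
      funext y
      rw [filt_sub, Pi.sub_apply]
      ring
    rw [e1]
    refine (nrm_three hMh _ _ _).trans ?_
    have t1 : nrm Mh (fun y => (w₀ / S) * Φ y - filt Mh T S' G₀ y) ≤
        16 * r * S' ^ 2 / S * w := by
      have : nrm Mh (w₀ • Φ - (S : ℝ) • filt Mh T S' G₀) =
          (S : ℝ) ^ 2 * nrm Mh (fun y => (w₀ / S) * Φ y - filt Mh T S' G₀ y) := by
        unfold nrm
        rw [mul_sum]
        refine sum_congr rfl fun y _ => ?_
        rw [Pi.sub_apply, Pi.smul_apply, Pi.smul_apply, smul_eq_mul, smul_eq_mul]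
        field_simp
      rw [this] at hxle
      have h2 : (S : ℝ) * ((S : ℝ) * nrm Mh (fun y => (w₀ / S) * Φ y - filt Mh T S' G₀ y)) ≤
          S * (16 * r * S' ^ 2 * w) := by
        linarith
      have h3 := le_of_mul_le_mul_left h2 hSr
      rw [div_mul_eq_mul_div, le_div_iff₀ hSr]
      linarith
    have t2 : nrm Mh (filt Mh T S' (G₀ - lab1 a)) ≤ 1 / n * w := by
      refine (hMh.nrm_filt_le T S' _).trans ?_
      have : nrm Mh (G₀ - lab1 a) = ∑ v, (if Hv v then 0 else deg M v) := by
        unfold nrm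
        rw [Fintype.sum_prod_type]
        refine sum_congr rfl fun v _ => ?_
        simp_rw [deg_lifted hproj]
        simp only [Pi.sub_apply, G₀, lab1]
        by_cases hv : Hv v
        · simp [hv]
        · simp [hv]
      rw [this]
      refine hlight.trans (le_of_eq ?_)
      ring
    have t3 : nrm Mh (fun y => filt Mh T S' (lab1 a) y - lab1 a y) ≤
        Real.exp (-(2 * (S' / r : ℝ))) * w + energy Mh (lab1 a) / η := by
      have h1 := hMh.nrm_sub_filt_le T S' r hη hη1 hT (lab1 a)
      rw [nrm_lab1 hproj, ← hw] at h1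
      refine le_trans (le_of_eq ?_) h1
      unfold nrm
      refine sum_congr rfl fun y _ => ?_
      rw [Pi.sub_apply]
      ring
    have e2 : 3 * (16 * r * S' ^ 2 / S + 1 / n + Real.exp (-(2 * (S' / r : ℝ))) +
        energy Mh (lab1 a) / (η * w)) * w =
        3 * (16 * r * S' ^ 2 / S * w + 1 / n * w + (Real.exp (-(2 * (S' / r : ℝ))) * w +
          energy Mh (lab1 a) / η)) := by
      field_simp
      ring
    rw [e2]
    linarith
  -- from the approximation to the labels
  have hbad : ∑ u ∈ univ.filter (fun u => a' u ≠ a u), deg M u ≤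
      2 * nrm Mh (fun y => (w₀ / S) * Φ y - lab1 a y) := by
    rw [sum_filter]
    unfold nrm
    rw [Fintype.sum_prod_type, mul_sum]
    refine sum_le_sum fun u _ => ?_
    simp_rw [deg_lifted hproj]
    rw [← mul_sum]
    have hd := hM.deg_nonneg u
    have hsum0 : 0 ≤ ∑ i, ((w₀ / S) * Φ (u, i) - lab1 a (u, i)) ^ 2 :=
      sum_nonneg fun i _ => sq_nonneg _
    split_ifs with hne
    · rcases hd.eq_or_lt with h0 | h0
      · rw [← h0]; simp
      · have hle := ha' u (a u) h0.ne'
        have hc : 0 ≤ w₀ / S := by positivity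
        have h1 : (w₀ / S) * Φ (u, a u) ≤ (w₀ / S) * Φ (u, a' u) :=
          mul_le_mul_of_nonneg_left hle hc
        have h2 : ((w₀ / S) * Φ (u, a u) - lab1 a (u, a u)) ^ 2 +
            ((w₀ / S) * Φ (u, a' u) - lab1 a (u, a' u)) ^ 2 ≤
            ∑ i, ((w₀ / S) * Φ (u, i) - lab1 a (u, i)) ^ 2 := by
          rw [← sum_pair (f := fun i => ((w₀ / S) * Φ (u, i) - lab1 a (u, i)) ^ 2)
            (Ne.symm hne)]
          exact sum_le_sum_of_subset_of_nonneg (subset_univ _) fun i _ _ => sq_nonneg _
        have e1 : lab1 a (u, a u) = 1 := by simp [lab1]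
        have e2 : lab1 a (u, a' u) = 0 := by simp [lab1, hne]
        rw [e1, e2] at h2
        have h3 : (1 : ℝ) ≤ 2 * ∑ i, ((w₀ / S) * Φ (u, i) - lab1 a (u, i)) ^ 2 := by
          nlinarith [sq_nonneg ((w₀ / S) * Φ (u, a u) + (w₀ / S) * Φ (u, a' u) - 1)]
        nlinarith
    · positivity
  linarith

end Decode

end Vale.Agent.P325
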