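import Vale.Agent.P325.AlgSpec2

/-!
# The label extended graph, and comparison of labelings
-/

namespace Vale.Agent.P325

open Finset

variable {V : Type*} {k : ℕ}

/-- indicator of a labeling -/
def ind (a : V → Fin k) (y : V × Fin k) : ℝ := if y.2 = a y.1 then 1 else 0

theorem sum_list_map_comm {α β : Type*} [Fintype β] (l : List α) (f : α → β → ℝ) :
    ∑ j, (l.map fun x => f x j).sum = (l.map fun x => ∑ j, f x j).sum := by
  induction l with
  | nil => simp
  | cons x l ih => simp [sum_add_distrib, ih]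

theorem sum_map_lift (E : List (Con V k)) (f : (V × Fin k) × (V × Fin k) → ℝ) :
    ((lift E).map f).sum =
      (E.map fun c => ∑ l : Fin k, f ((c.1, l), (c.2.1, c.2.2 l))).sum := by
  unfold lift
  induction E with
  | nil => simp
  | cons c E ih =>
    rw [List.flatMap_cons, List.map_append, List.sum_append, ih, List.map_cons, List.sum_cons,
      List.map_map, ← List.ofFn_eq_map, List.sum_ofFn]
    rfl

section
variable [DecidableEq V]

theorem delta_fst (u w : V) (i : Fin k) :
    ∑ l : Fin k, (if (u, i) = (w, l) then 1 else 0 : ℝ) = if u = w then 1 else 0 := by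
  simp only [Prod.mk.injEq]
  by_cases h : u = w <;> simp [h]

theorem delta_fst' (u w : V) (l : Fin k) :
    ∑ j : Fin k, (if (u, j) = (w, l) then 1 else 0 : ℝ) = if u = w then 1 else 0 := by
  simp only [Prod.mk.injEq]
  by_cases h : u = w <;> simp [h]

theorem delta_snd (u w : V) (i : Fin k) (π : Equiv.Perm (Fin k)) :
    ∑ l : Fin k, (if (u, i) = (w, π l) then 1 else 0 : ℝ) = if u = w then 1 else 0 := by
  have h0 : ∀ l, (i = π l) = (π.symm i = l) := fun l => propext (Equiv.symm_apply_eq π).symm
  simp only [Prod.mk.injEq, h0]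
  by_cases h : u = w <;> simp [h]

theorem gform_lift (E : List (Con V k)) (u v : V) (i : Fin k) :
    ∑ j, gform (lift E) (u, i) (v, j) = gform (base E) u v := by
  unfold gform
  rw [sum_list_map_comm]
  simp_rw [← mul_sum, sum_add_distrib]
  rw [sum_map_lift]
  unfold base
  rw [List.map_map]
  congr 1
  refine List.map_congr_left fun c _ => ?_
  simp only [Function.comp, delta_fst']
  rw [← sum_mul, sum_add_distrib, delta_fst, delta_snd]

theorem GH_proj [Fintype V] (E : List (Con V k)) (F : V → ℕ) (u : V) (i : Fin k) (v : V) :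
    ∑ j, GH E F (u, i) (v, j) = GF (base E) F u v := by
  show ∑ j, (F u : ℝ) * F v * gform (lift E) (u, i) (v, j) = (F u : ℝ) * F v * gform (base E) u v
  rw [← mul_sum, gform_lift]

/-- the energy of a labeling is twice its violated weight -/
theorem energy_ind [Fintype V] (E : List (Con V k)) (F : V → ℕ) (a : V → Fin k) :
    energy (GH E F) (ind a) = 2 * pieceV E F a := by
  unfold GH GF
  rw [energy_gform, sum_map_lift]
  unfold pieceV
  rw [Nat.cast_list_sum, List.map_map, ← List.sum_map_mul_left]
  congr 1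
  refine List.map_congr_left fun c _ => ?_
  simp only [Function.comp, ind, hatN, toR]
  rw [← mul_sum]
  have h1 : ∑ l : Fin k, ((if l = a c.1 then (1 : ℝ) else 0) -
      (if c.2.2 l = a c.2.1 then 1 else 0)) ^ 2 =
      if a c.2.1 = c.2.2 (a c.1) then 0 else 2 := by
    have h0 : ∀ l, (c.2.2 l = a c.2.1) = (l = c.2.2.symm (a c.2.1)) := fun l =>
      propext (Equiv.eq_symm_apply c.2.2).symm
    simp only [h0]
    have h2 : (a c.2.1 = c.2.2 (a c.1)) = (c.2.2.symm (a c.2.1) = a c.1) :=
      propext (Equiv.symm_apply_eq c.2.2).symm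
    simp only [h2]
    set p := a c.1
    set q := c.2.2.symm (a c.2.1)
    have h3 : ∀ l : Fin k, ((if l = p then (1 : ℝ) else 0) - (if l = q then 1 else 0)) ^ 2 =
        (if l = p then (1 : ℝ) else 0) + (if l = q then 1 else 0) -
          2 * (if l = p then (if l = q then 1 else 0) else 0) := by
      intro l
      split_ifs <;> norm_num
    simp_rw [h3]
    rw [sum_sub_distrib, sum_add_distrib, ← mul_sum]
    simp only [sum_ite_eq', mem_univ, if_true]
    by_cases h6 : q = p
    · simp [h6]; norm_num
    · have h7 : p ≠ q := fun h => h6 h.symm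
      simp [h6, h7]; norm_num
  rw [h1]
  by_cases h : a c.2.1 = c.2.2 (a c.1)
  · simp [h]
  · simp [h]; ring

/-- comparison of two labelings inside a piece -/
theorem pieceV_le [Fintype V] (E : List (Con V k)) (F : V → ℕ) (a a' : V → Fin k) :
    (pieceV E F a' : ℝ) ≤ pieceV E F a +
      ∑ u, if a' u = a u then 0 else deg (GF (base E) F) u := by
  have h1 : ∀ u, deg (GF (base E) F) u = (E.map fun c =>
      ((if u = c.1 then 1 else 0) + (if u = c.2.1 then 1 else 0)) *
        ((F u : ℝ) * ((F c.1 : ℝ) + F c.2.1))).sum := by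
    intro u
    have h2 := degN_cast (base E) F u
    rw [← h2]
    unfold degN mvN base
    rw [List.map_map, Nat.cast_mul, Nat.cast_list_sum, List.map_map, ← List.sum_map_mul_left]
    congr 1
    refine List.map_congr_left fun c _ => ?_
    simp only [Function.comp]
    push_cast
    ring
  have h2 : ∑ u, (if a' u = a u then 0 else deg (GF (base E) F) u) = (E.map fun c =>
      ((if a' c.1 = a c.1 then 0 else (F c.1 : ℝ)) +
        (if a' c.2.1 = a c.2.1 then 0 else (F c.2.1 : ℝ))) * ((F c.1 : ℝ) + F c.2.1)).sum := by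
    have h3 : ∀ u, (if a' u = a u then 0 else deg (GF (base E) F) u) = (E.map fun c =>
        (if a' u = a u then 0 else (((if u = c.1 then 1 else 0) + (if u = c.2.1 then 1 else 0)) *
          ((F u : ℝ) * ((F c.1 : ℝ) + F c.2.1))))).sum := by
      intro u
      by_cases h4 : a' u = a u
      · simp [h4]
      · simp only [if_neg h4]
        exact h1 u
    simp_rw [h3]
    rw [sum_list_map_comm]
    congr 1
    refine List.map_congr_left fun c _ => ?_
    have h4 : ∀ u, (if a' u = a u then 0 else (((if u = c.1 then 1 else 0) +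
        (if u = c.2.1 then 1 else 0)) * ((F u : ℝ) * ((F c.1 : ℝ) + F c.2.1)))) =
        (if u = c.1 then (if a' u = a u then 0 else (F u : ℝ)) * ((F c.1 : ℝ) + F c.2.1) else 0) +
        (if u = c.2.1 then (if a' u = a u then 0 else (F u : ℝ)) * ((F c.1 : ℝ) + F c.2.1)
          else 0) := by
      intro u
      split_ifs <;> ring
    simp_rw [h4]
    rw [sum_add_distrib, sum_ite_eq', sum_ite_eq']
    simp only [mem_univ, if_true]
    ring
  rw [h2]
  unfold pieceV
  rw [Nat.cast_list_sum, Nat.cast_list_sum, List.map_map, List.map_map, ← List.sum_map_add]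
  refine List.sum_le_sum fun c _ => ?_
  simp only [Function.comp]
  have f1 : (0 : ℝ) ≤ F c.1 := Nat.cast_nonneg _
  have f2 : (0 : ℝ) ≤ F c.2.1 := Nat.cast_nonneg _
  by_cases h3 : a' c.2.1 = c.2.2 (a' c.1)
  · rw [if_pos h3]
    push_cast
    have : (0 : ℝ) ≤ ((if a' c.1 = a c.1 then 0 else (F c.1 : ℝ)) +
        (if a' c.2.1 = a c.2.1 then 0 else (F c.2.1 : ℝ))) * ((F c.1 : ℝ) + F c.2.1) := by
      apply mul_nonneg
      · apply add_nonneg <;> split_ifs <;> simp
      · positivity
    positivity
  · rw [if_neg h3]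
    by_cases h4 : a' c.1 = a c.1
    · by_cases h5 : a' c.2.1 = a c.2.1
      · rw [h4, h5] at h3
        rw [if_neg h3]
        simp [h4, h5]
      · rw [if_pos h4, if_neg h5]
        have : (0 : ℝ) ≤ ((if a c.2.1 = c.2.2 (a c.1) then 0 else F c.1 * F c.2.1 : ℕ) : ℝ) :=
          Nat.cast_nonneg _
        push_cast at this ⊢
        nlinarith [mul_nonneg f1 f2, mul_nonneg f2 f2]
    · rw [if_neg h4]
      have : (0 : ℝ) ≤ ((if a c.2.1 = c.2.2 (a c.1) then 0 else F c.1 * F c.2.1 : ℕ) : ℝ) :=
        Nat.cast_nonneg _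
      have h6 : (0 : ℝ) ≤ (if a' c.2.1 = a c.2.1 then 0 else (F c.2.1 : ℝ)) := by
        split_ifs <;> simp
      push_cast at this ⊢
      nlinarith [mul_nonneg f1 f2, mul_nonneg f1 f1, mul_nonneg h6 f1, mul_nonneg h6 f2]

end

end Vale.Agent.P325
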