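import Vale.Agent.Lib.MathlibUsed
import Mathlib.Analysis.SpecialFunctions.Log.Base

/-!
# The entropy functional

`ent D = ∑ D v * log₂ (w / D v)`, `w = ∑ D v`. Splitting off a part which lives on a set of
small relative volume `2 ^ (-Lam)` and has weight `w₁` decreases it by `Lam * w₁`.
-/

namespace Vale.Agent.P325

open Finset

variable {V : Type*} [Fintype V]

/-- entropy (in bits) times the total mass -/
noncomputable def ent (D : V → ℝ) : ℝ := ∑ v, D v * Real.logb 2 ((∑ u, D u) / D v)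

theorem logb_two_ge {x : ℝ} (hx : 0 < x) : (1 - 1 / x) / Real.log 2 ≤ Real.logb 2 x := by
  have h2 : 0 < Real.log 2 := Real.log_pos (by norm_num)
  have h := Real.one_sub_inv_le_log_of_pos hx
  unfold Real.logb
  rw [one_div]
  exact div_le_div_of_nonneg_right h h2.le

theorem ent_term_nonneg {D : V → ℝ} (hD : ∀ v, 0 ≤ D v) (v : V) :
    0 ≤ Real.logb 2 ((∑ u, D u) / D v) := by
  rcases (hD v).eq_or_lt with h | h
  · rw [← h, div_zero]; simp
  · refine Real.logb_nonneg (by norm_num) ?_
    rw [one_le_div h]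
    exact single_le_sum (f := D) (fun u _ => hD u) (mem_univ v)

theorem ent_nonneg {D : V → ℝ} (hD : ∀ v, 0 ≤ D v) : 0 ≤ ent D :=
  sum_nonneg fun v _ => mul_nonneg (hD v) (ent_term_nonneg hD v)

theorem ent_aux [DecidableEq V] {D D' : V → ℝ} (hD' : ∀ v, 0 ≤ D' v) (hle : ∀ v, D' v ≤ D v)
    {Lam : ℝ} (hL : (2 : ℝ) ^ Lam * (∑ v ∈ univ.filter (fun v => D' v ≠ 0), D v) ≤ ∑ v, D v) :
    ent D' + Lam * ∑ v, D' v ≤ ∑ v, D' v * Real.logb 2 ((∑ u, D u) / D v) := by
  classical
  have h2 : 0 < Real.log 2 := Real.log_pos (by norm_num)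
  have hD : ∀ v, 0 ≤ D v := fun v => (hD' v).trans (hle v)
  set w := ∑ u, D u with hw
  set w' := ∑ u, D' u with hw'
  have hw'0 : 0 ≤ w' := sum_nonneg fun v _ => hD' v
  rcases hw'0.eq_or_lt with h0 | hpos
  · -- everything vanishes
    have hz : ∀ v, D' v = 0 := by
      intro v
      exact (sum_eq_zero_iff_of_nonneg fun v _ => hD' v).1 h0.symm v (mem_univ v)
    have e1 : ent D' = 0 := by
      unfold ent
      exact sum_eq_zero fun v _ => by rw [hz v, zero_mul]
    rw [e1, ← h0]
    simp [hz]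
  have hww' : w' ≤ w := sum_le_sum fun v _ => hle v
  have hwpos : 0 < w := hpos.trans_le hww'
  have key : ∀ v, D' v ≠ 0 → (D' v - D v * (w' * (2 : ℝ) ^ Lam / w)) / Real.log 2 ≤
      D' v * Real.logb 2 (w / D v) - D' v * Real.logb 2 (w' / D' v) - D' v * Lam := by
    intro v hv
    have hv' : 0 < D' v := lt_of_le_of_ne (hD' v) (Ne.symm hv)
    have hv2 : 0 < D v := hv'.trans_le (hle v)
    have hpow : (0 : ℝ) < (2 : ℝ) ^ Lam := Real.rpow_pos_of_pos (by norm_num) _
    have hx : 0 < (w * D' v) / (D v * w' * (2 : ℝ) ^ Lam) := by positivity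
    have e := logb_two_ge hx
    have e2 : Real.logb 2 ((w * D' v) / (D v * w' * (2 : ℝ) ^ Lam)) =
        Real.logb 2 (w / D v) - Real.logb 2 (w' / D' v) - Lam := by
      have e3 : (w * D' v) / (D v * w' * (2 : ℝ) ^ Lam) = (w / D v) / (w' / D' v) / (2 : ℝ) ^ Lam := by
        field_simp
      rw [e3, Real.logb_div (by positivity) (by positivity),
        Real.logb_div (by positivity) (by positivity), Real.logb_rpow (by norm_num) (by norm_num)]
    rw [e2] at e
    have e4 := mul_le_mul_of_nonneg_left e hv'.le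
    calc (D' v - D v * (w' * (2 : ℝ) ^ Lam / w)) / Real.log 2
        = D' v * ((1 - 1 / ((w * D' v) / (D v * w' * (2 : ℝ) ^ Lam))) / Real.log 2) := by
          field_simp
      _ ≤ D' v * (Real.logb 2 (w / D v) - Real.logb 2 (w' / D' v) - Lam) := e4
      _ = _ := by ring
  have hsum : 0 ≤ ∑ v ∈ univ.filter (fun v => D' v ≠ 0),
      (D' v - D v * (w' * (2 : ℝ) ^ Lam / w)) / Real.log 2 := by
    rw [← sum_div]
    refine div_nonneg ?_ h2.le
    rw [sum_sub_distrib, ← sum_mul, sum_filter_ne_zero, ← hw']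
    have : (∑ v ∈ univ.filter (fun v => D' v ≠ 0), D v) * (w' * (2 : ℝ) ^ Lam / w) =
        w' * (((2 : ℝ) ^ Lam * ∑ v ∈ univ.filter (fun v => D' v ≠ 0), D v) / w) := by ring
    rw [this]
    have : ((2 : ℝ) ^ Lam * ∑ v ∈ univ.filter (fun v => D' v ≠ 0), D v) / w ≤ 1 :=
      (div_le_one hwpos).2 hL
    nlinarith
  have hsum2 : ∑ v ∈ univ.filter (fun v => D' v ≠ 0),
      (D' v - D v * (w' * (2 : ℝ) ^ Lam / w)) / Real.log 2 ≤
      ∑ v ∈ univ.filter (fun v => D' v ≠ 0),
        (D' v * Real.logb 2 (w / D v) - D' v * Real.logb 2 (w' / D' v) - D' v * Lam) :=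
    sum_le_sum fun v hv => key v (mem_filter.1 hv).2
  have hsum3 : ∑ v ∈ univ.filter (fun v => D' v ≠ 0),
        (D' v * Real.logb 2 (w / D v) - D' v * Real.logb 2 (w' / D' v) - D' v * Lam) =
      ∑ v, (D' v * Real.logb 2 (w / D v) - D' v * Real.logb 2 (w' / D' v) - D' v * Lam) := by
    refine sum_subset (filter_subset _ _) fun v _ hv => ?_
    have : D' v = 0 := by
      by_contra h
      exact hv (mem_filter.2 ⟨mem_univ v, h⟩)
    rw [this]; ring
  rw [hsum3, sum_sub_distrib, sum_sub_distrib, ← sum_mul, ← hw'] at hsum2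
  have : ent D' = ∑ v, D' v * Real.logb 2 (w' / D' v) := rfl
  rw [this]
  linarith

theorem ent_split [DecidableEq V] {D D1 D2 : V → ℝ} (h1 : ∀ v, 0 ≤ D1 v) (h2 : ∀ v, 0 ≤ D2 v)
    (hle : ∀ v, D1 v + D2 v ≤ D v) {Lam : ℝ}
    (hL : (2 : ℝ) ^ Lam * (∑ v ∈ univ.filter (fun v => D1 v ≠ 0), D v) ≤ ∑ v, D v) :
    ent D1 + ent D2 + Lam * ∑ v, D1 v ≤ ent D := by
  have hD : ∀ v, 0 ≤ D v := fun v => (add_nonneg (h1 v) (h2 v)).trans (hle v)
  have e1 := ent_aux h1 (fun v => by linarith [hle v, h2 v]) hL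
  have e2 := ent_aux (D := D) (D' := D2) h2 (fun v => by linarith [hle v, h1 v]) (Lam := 0) (by
    rw [Real.rpow_zero, one_mul]
    exact sum_le_sum_of_subset_of_nonneg (filter_subset _ _) fun v _ _ => hD v)
  rw [zero_mul, add_zero] at e2
  have e3 : ∑ v, D1 v * Real.logb 2 ((∑ u, D u) / D v) +
      ∑ v, D2 v * Real.logb 2 ((∑ u, D u) / D v) ≤ ent D := by
    unfold ent
    rw [← sum_add_distrib]
    refine sum_le_sum fun v _ => ?_
    rw [← add_mul]
    exact mul_le_mul_of_nonneg_right (hle v) (ent_term_nonneg hD v)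
  linarith

theorem ent_le {D : V → ℝ} (hD : ∀ v, 0 ≤ D v) :
    ent D ≤ (∑ v, D v) * Real.logb 2 (Fintype.card V) := by
  classical
  have h2 : 0 < Real.log 2 := Real.log_pos (by norm_num)
  set w := ∑ u, D u with hw
  have hw0 : 0 ≤ w := sum_nonneg fun v _ => hD v
  rcases hw0.eq_or_lt with h0 | hpos
  · have hz : ∀ v, D v = 0 := by
      intro v
      exact (sum_eq_zero_iff_of_nonneg fun v _ => hD v).1 h0.symm v (mem_univ v)
    have e1 : ent D = 0 := by
      unfold ent
      exact sum_eq_zero fun v _ => by rw [hz v, zero_mul]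
    rw [e1, ← h0, zero_mul]
  have hne : Nonempty V := by
    by_contra h
    rw [not_nonempty_iff] at h
    simp [hw] at hpos
  have hN : (0 : ℝ) < Fintype.card V := by exact_mod_cast Fintype.card_pos
  -- D v * (log2 N - log2 (w / D v)) ≥ (D v - w / N) / log 2
  have key : ∀ v, (D v - w / Fintype.card V) / Real.log 2 ≤
      D v * Real.logb 2 (Fintype.card V) - D v * Real.logb 2 (w / D v) := by
    intro v
    rcases (hD v).eq_or_lt with h | h
    · rw [← h, zero_sub, zero_mul, zero_mul, sub_zero, neg_div]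
      have : 0 ≤ w / Fintype.card V / Real.log 2 := by positivity
      linarith
    · have hx : 0 < (Fintype.card V * D v) / w := by positivity
      have e := logb_two_ge hx
      have e2 : Real.logb 2 ((Fintype.card V * D v) / w) =
          Real.logb 2 (Fintype.card V) - Real.logb 2 (w / D v) := by
        have e3 : ((Fintype.card V : ℝ) * D v) / w = Fintype.card V / (w / D v) := by
          field_simp
        rw [e3, Real.logb_div (by positivity) (by positivity)]
      rw [e2] at e
      have e4 := mul_le_mul_of_nonneg_left e h.le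
      calc (D v - w / Fintype.card V) / Real.log 2
          = D v * ((1 - 1 / ((Fintype.card V * D v) / w)) / Real.log 2) := by
            field_simp
        _ ≤ _ := e4
        _ = _ := by ring
  have hs := sum_le_sum fun v (_ : v ∈ (univ : Finset V)) => key v
  rw [← sum_div, sum_sub_distrib, sum_sub_distrib, ← sum_mul, ← hw, sum_const, card_univ,
    nsmul_eq_mul] at hs
  have e0 : (Fintype.card V : ℝ) * (w / Fintype.card V) = w := by field_simp
  rw [e0, sub_self, zero_div] at hs
  unfold ent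
  linarith

end Vale.Agent.P325
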