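import Vale.Agent.P325.Form
import Mathlib.Algebra.Order.Floor.Semifield

/-!
# Splitting a piece by a bump

`s : V → [0,1]`; the piece `F` is replaced by `F * 2s/(1+s²)` and `F * (1-s²)/(1+s²)` (rounded
down).
-/

namespace Vale.Agent.P325

open Finset

/-- `sin` part -/
noncomputable def gL (s : ℝ) : ℝ := 2 * s / (1 + s ^ 2)

/-- `cos` part -/
noncomputable def gR (s : ℝ) : ℝ := (1 - s ^ 2) / (1 + s ^ 2)

theorem gL_nonneg {s : ℝ} (h : 0 ≤ s) : 0 ≤ gL s := by unfold gL; positivity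

theorem gR_nonneg {s : ℝ} (h : 0 ≤ s) (h1 : s ≤ 1) : 0 ≤ gR s := by
  unfold gR
  exact div_nonneg (by nlinarith) (by positivity)

theorem gL_sq_add_gR_sq (s : ℝ) : gL s ^ 2 + gR s ^ 2 = 1 := by
  unfold gL gR
  have : (1 + s ^ 2) ≠ 0 := by positivity
  field_simp
  ring

theorem gL_le_one (s : ℝ) : gL s ≤ 1 := by
  nlinarith [gL_sq_add_gR_sq s, sq_nonneg (gR s), sq_nonneg (gL s - 1), sq_nonneg (gL s + 1)]

theorem gR_le_one (s : ℝ) : gR s ≤ 1 := by
  nlinarith [gL_sq_add_gR_sq s, sq_nonneg (gL s), sq_nonneg (gR s - 1), sq_nonneg (gR s + 1)]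

theorem le_gL {s : ℝ} (h : 0 ≤ s) (h1 : s ≤ 1) : s ≤ gL s := by
  unfold gL
  rw [le_div_iff₀ (by positivity)]
  nlinarith [mul_nonneg h (mul_nonneg (sub_nonneg.2 h1) (by linarith : (0:ℝ) ≤ 1 + s))]

theorem gL_sub_sq_le {s t : ℝ} (hs : 0 ≤ s) (hs1 : s ≤ 1) (ht : 0 ≤ t) (ht1 : t ≤ 1) :
    (gL s - gL t) ^ 2 ≤ 4 * (s - t) ^ 2 := by
  have e : gL s - gL t = 2 * (s - t) * ((1 - s * t) / ((1 + s ^ 2) * (1 + t ^ 2))) := by
    unfold gL
    have h1 : (1 + s ^ 2) ≠ 0 := by positivity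
    have h2 : (1 + t ^ 2) ≠ 0 := by positivity
    field_simp
    ring
  have hst : s * t ≤ 1 := by nlinarith
  have hd : (0 : ℝ) ≤ (1 - s * t) / ((1 + s ^ 2) * (1 + t ^ 2)) :=
    div_nonneg (by linarith) (by positivity)
  have hd1 : (1 - s * t) / ((1 + s ^ 2) * (1 + t ^ 2)) ≤ 1 := by
    rw [div_le_one (by positivity)]
    nlinarith [mul_nonneg hs ht, sq_nonneg s, sq_nonneg t, mul_nonneg (sq_nonneg s) (sq_nonneg t)]
  rw [e, mul_pow]
  have : ((1 - s * t) / ((1 + s ^ 2) * (1 + t ^ 2))) ^ 2 ≤ 1 := by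
    rw [sq_le_one_iff_abs_le_one, abs_of_nonneg hd]; exact hd1
  nlinarith [sq_nonneg (s - t)]

theorem gL_gR_inner_ge (s t : ℝ) :
    1 - 2 * (s - t) ^ 2 ≤ gL s * gL t + gR s * gR t := by
  have e : gL s * gL t + gR s * gR t = 1 - 2 * (s - t) ^ 2 / ((1 + s ^ 2) * (1 + t ^ 2)) := by
    unfold gL gR
    have h1 : (1 + s ^ 2) ≠ 0 := by positivity
    have h2 : (1 + t ^ 2) ≠ 0 := by positivity
    field_simp
    ring
  rw [e]
  have : 2 * (s - t) ^ 2 / ((1 + s ^ 2) * (1 + t ^ 2)) ≤ 2 * (s - t) ^ 2 := by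
    refine div_le_self (by positivity) ?_
    nlinarith [sq_nonneg s, sq_nonneg t, mul_nonneg (sq_nonneg s) (sq_nonneg t)]
  linarith

theorem gL_gR_inner_le (s t : ℝ) : gL s * gL t + gR s * gR t ≤ 1 := by
  nlinarith [gL_sq_add_gR_sq s, gL_sq_add_gR_sq t, sq_nonneg (gL s - gL t),
    sq_nonneg (gR s - gR t)]

variable {V : Type*}

/-- the split-off piece -/
noncomputable def partL (F : V → ℕ) (s : V → ℝ) (v : V) : ℕ := ⌊(F v : ℝ) * gL (s v)⌋₊

/-- the remaining piece -/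
noncomputable def partR (F : V → ℕ) (s : V → ℝ) (v : V) : ℕ := ⌊(F v : ℝ) * gR (s v)⌋₊

section
variable {F : V → ℕ} {s : V → ℝ}

theorem partL_le_real (h0 : ∀ v, 0 ≤ s v) (v : V) : (partL F s v : ℝ) ≤ F v * gL (s v) :=
  Nat.floor_le (mul_nonneg (Nat.cast_nonneg _) (gL_nonneg (h0 v)))

theorem partR_le_real (h0 : ∀ v, 0 ≤ s v) (h1 : ∀ v, s v ≤ 1) (v : V) :
    (partR F s v : ℝ) ≤ F v * gR (s v) :=
  Nat.floor_le (mul_nonneg (Nat.cast_nonneg _) (gR_nonneg (h0 v) (h1 v)))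

theorem lt_partL_add_one (v : V) : (F v : ℝ) * gL (s v) < partL F s v + 1 :=
  Nat.lt_floor_add_one _

theorem lt_partR_add_one (v : V) : (F v : ℝ) * gR (s v) < partR F s v + 1 :=
  Nat.lt_floor_add_one _

/-- (iv) -/
theorem part_sq_add_sq (h0 : ∀ v, 0 ≤ s v) (h1 : ∀ v, s v ≤ 1) (v : V) :
    partL F s v ^ 2 + partR F s v ^ 2 ≤ F v ^ 2 := by
  have a := partL_le_real (F := F) h0 v
  have b := partR_le_real (F := F) h0 h1 v
  have c := gL_sq_add_gR_sq (s v)
  have a0 : (0 : ℝ) ≤ partL F s v := Nat.cast_nonneg _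
  have b0 : (0 : ℝ) ≤ partR F s v := Nat.cast_nonneg _
  have : ((partL F s v ^ 2 + partR F s v ^ 2 : ℕ) : ℝ) ≤ ((F v ^ 2 : ℕ) : ℝ) := by
    push_cast
    calc (partL F s v : ℝ) ^ 2 + (partR F s v : ℝ) ^ 2
        ≤ (F v * gL (s v)) ^ 2 + (F v * gR (s v)) ^ 2 := by
          exact add_le_add (pow_le_pow_left₀ a0 a 2) (pow_le_pow_left₀ b0 b 2)
      _ = (F v : ℝ) ^ 2 * (gL (s v) ^ 2 + gR (s v) ^ 2) := by ring
      _ = (F v : ℝ) ^ 2 := by rw [c, mul_one]
  exact_mod_cast this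

theorem partL_le (h0 : ∀ v, 0 ≤ s v) (v : V) : partL F s v ≤ F v := by
  have a := partL_le_real (F := F) h0 v
  have c := gL_le_one (s v)
  have : (partL F s v : ℝ) ≤ (F v : ℝ) := a.trans (mul_le_of_le_one_right (Nat.cast_nonneg _) c)
  exact_mod_cast this

theorem partR_le (h0 : ∀ v, 0 ≤ s v) (h1 : ∀ v, s v ≤ 1) (v : V) : partR F s v ≤ F v := by
  have a := partR_le_real (F := F) h0 h1 v
  have c := gR_le_one (s v)
  have : (partR F s v : ℝ) ≤ (F v : ℝ) := a.trans (mul_le_of_le_one_right (Nat.cast_nonneg _) c)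
  exact_mod_cast this

/-- (v) -/
theorem partL_eq_zero {v : V} (h : s v = 0) : partL F s v = 0 := by
  unfold partL gL
  rw [h]; simp

end

variable [Fintype V] {M0 : V → V → ℝ} {F : V → ℕ} {s : V → ℝ} {beta : ℕ}

/-- floors lose little -/
theorem floor_mul_ge {a b a' b' β : ℝ} (ha : a < a' + 1) (hb : b < b' + 1) (ha0 : 0 ≤ a)
    (hb0 : 0 ≤ b') (haβ : a ≤ β) (hbβ : b' ≤ β) : a * b - 2 * β ≤ a' * b' := by
  nlinarith [mul_nonneg ha0 (by linarith : (0 : ℝ) ≤ b' + 1 - b),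
    mul_nonneg hb0 (by linarith : (0 : ℝ) ≤ a' + 1 - a)]

/-- (iii) -/
theorem deg_part_add_le (hM : IsForm M0) (h0 : ∀ v, 0 ≤ s v) (h1 : ∀ v, s v ≤ 1) (v : V) :
    deg (loc M0 fun u => (partL F s u : ℝ)) v + deg (loc M0 fun u => (partR F s u : ℝ)) v ≤
      deg (loc M0 fun u => (F u : ℝ)) v := by
  unfold deg loc
  rw [← sum_add_distrib]
  refine sum_le_sum fun y _ => ?_
  rw [← add_mul]
  refine mul_le_mul_of_nonneg_right ?_ (hM.nonneg v y)
  have a := partL_le_real (F := F) h0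
  have b := partR_le_real (F := F) h0 h1
  have a0 : ∀ v, (0 : ℝ) ≤ partL F s v := fun v => Nat.cast_nonneg _
  have b0 : ∀ v, (0 : ℝ) ≤ partR F s v := fun v => Nat.cast_nonneg _
  calc (partL F s v : ℝ) * partL F s y + partR F s v * partR F s y
      ≤ (F v * gL (s v)) * (F y * gL (s y)) + (F v * gR (s v)) * (F y * gR (s y)) := by
        refine add_le_add (mul_le_mul (a v) (a y) (a0 y) ((a0 v).trans (a v)))
          (mul_le_mul (b v) (b y) (b0 y) ((b0 v).trans (b v)))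
    _ = (F v * F y) * (gL (s v) * gL (s y) + gR (s v) * gR (s y)) := by ring
    _ ≤ (F v * F y) * 1 := by
        refine mul_le_mul_of_nonneg_left (gL_gR_inner_le _ _) (by positivity)
    _ = _ := mul_one _

theorem tot_loc (M0 : V → V → ℝ) (f : V → ℝ) :
    tot (loc M0 f) = ∑ x, ∑ y, f x * f y * M0 x y := rfl

/-- (i) -/
theorem tot_part_add_ge (hM : IsForm M0) (h0 : ∀ v, 0 ≤ s v) (h1 : ∀ v, s v ≤ 1)
    (hF : ∀ v, F v ≤ beta) :
    tot (loc M0 fun u => (F u : ℝ)) ≤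
      tot (loc M0 fun u => (partL F s u : ℝ)) + tot (loc M0 fun u => (partR F s u : ℝ)) +
        4 * energy (loc M0 fun u => (F u : ℝ)) s + 4 * beta * tot M0 := by
  have e1 : 4 * energy (loc M0 fun u => (F u : ℝ)) s =
      ∑ x, ∑ y, (F x * F y * M0 x y : ℝ) * (2 * (s x - s y) ^ 2) := by
    unfold energy
    rw [show (4 : ℝ) * ((∑ x, ∑ y, loc M0 (fun u => (F u : ℝ)) x y * (s x - s y) ^ 2) / 2) =
      2 * ∑ x, ∑ y, loc M0 (fun u => (F u : ℝ)) x y * (s x - s y) ^ 2 by ring, mul_sum]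
    refine sum_congr rfl fun x _ => ?_
    rw [mul_sum]
    refine sum_congr rfl fun y _ => ?_
    unfold loc; ring
  have e2 : 4 * (beta : ℝ) * tot M0 = ∑ x, ∑ y, 4 * (beta : ℝ) * M0 x y := by
    unfold tot deg
    rw [mul_sum]
    exact sum_congr rfl fun x _ => by rw [mul_sum]
  rw [e1, e2, tot_loc, tot_loc, tot_loc, ← sum_add_distrib, ← sum_add_distrib, ← sum_add_distrib]
  refine sum_le_sum fun x _ => ?_
  rw [← sum_add_distrib, ← sum_add_distrib, ← sum_add_distrib]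
  refine sum_le_sum fun y _ => ?_
  have hLa : ∀ v, (F v : ℝ) * gL (s v) ≤ beta := fun v =>
    (mul_le_of_le_one_right (Nat.cast_nonneg _) (gL_le_one _)).trans (by exact_mod_cast hF v)
  have hRa : ∀ v, (F v : ℝ) * gR (s v) ≤ beta := fun v =>
    (mul_le_of_le_one_right (Nat.cast_nonneg _) (gR_le_one _)).trans (by exact_mod_cast hF v)
  have hL := floor_mul_ge (lt_partL_add_one (F := F) (s := s) x) (lt_partL_add_one (F := F) (s := s) y)
    (mul_nonneg (Nat.cast_nonneg _) (gL_nonneg (h0 x))) (Nat.cast_nonneg _) (hLa x)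
    ((partL_le_real h0 y).trans (hLa y))
  have hR := floor_mul_ge (lt_partR_add_one (F := F) (s := s) x) (lt_partR_add_one (F := F) (s := s) y)
    (mul_nonneg (Nat.cast_nonneg _) (gR_nonneg (h0 x) (h1 x))) (Nat.cast_nonneg _) (hRa x)
    ((partR_le_real h0 h1 y).trans (hRa y))
  have hg := mul_le_mul_of_nonneg_left (gL_gR_inner_ge (s x) (s y))
    (by positivity : (0 : ℝ) ≤ F x * F y)
  have hkey : (F x : ℝ) * F y ≤ partL F s x * partL F s y + partR F s x * partR F s y +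
      F x * F y * (2 * (s x - s y) ^ 2) + 4 * beta := by
    nlinarith
  have := mul_le_mul_of_nonneg_right hkey (hM.nonneg x y)
  linarith

/-- (ii) -/
theorem tot_partL_ge (hM : IsForm M0) (h0 : ∀ v, 0 ≤ s v) (h1 : ∀ v, s v ≤ 1)
    (hF : ∀ v, F v ≤ beta) :
    nrm (loc M0 fun u => (F u : ℝ)) s ≤
      tot (loc M0 fun u => (partL F s u : ℝ)) +
        4 * energy (loc M0 fun u => (F u : ℝ)) s + 2 * beta * tot M0 := by
  set M := loc M0 fun u => (F u : ℝ) with hMdef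
  have hMf : IsForm M := hM.loc fun u => Nat.cast_nonneg _
  have e0 : nrm M s ≤ nrm M (fun u => gL (s u)) := by
    unfold nrm
    refine sum_le_sum fun x _ => mul_le_mul_of_nonneg_left ?_ (hMf.deg_nonneg x)
    exact pow_le_pow_left₀ (h0 x) (le_gL (h0 x) (h1 x)) 2
  have e1 : energy M (fun u => gL (s u)) ≤ 4 * energy M s := by
    unfold energy
    rw [← mul_div_assoc]
    refine div_le_div_of_nonneg_right ?_ (by norm_num)
    rw [mul_sum]
    refine sum_le_sum fun x _ => ?_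
    rw [mul_sum]
    refine sum_le_sum fun y _ => ?_
    have := mul_le_mul_of_nonneg_left (gL_sub_sq_le (h0 x) (h1 x) (h0 y) (h1 y)) (hMf.nonneg x y)
    linarith
  have e2 := hMf.energy_eq (fun u => gL (s u))
  have e3 : Q M (fun u => gL (s u)) (fun u => gL (s u)) ≤
      tot (loc M0 fun u => (partL F s u : ℝ)) + 2 * beta * tot M0 := by
    have e4 : 2 * (beta : ℝ) * tot M0 = ∑ x, ∑ y, 2 * (beta : ℝ) * M0 x y := by
      unfold tot deg
      rw [mul_sum]
      exact sum_congr rfl fun x _ => by rw [mul_sum]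
    rw [e4, tot_loc, ← sum_add_distrib]
    unfold Q
    refine sum_le_sum fun x _ => ?_
    rw [← sum_add_distrib]
    refine sum_le_sum fun y _ => ?_
    have hLa : ∀ v, (F v : ℝ) * gL (s v) ≤ beta := fun v =>
      (mul_le_of_le_one_right (Nat.cast_nonneg _) (gL_le_one _)).trans (by exact_mod_cast hF v)
    have hL := floor_mul_ge (lt_partL_add_one (F := F) (s := s) x)
      (lt_partL_add_one (F := F) (s := s) y)
      (mul_nonneg (Nat.cast_nonneg _) (gL_nonneg (h0 x))) (Nat.cast_nonneg _) (hLa x)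
      ((partL_le_real h0 y).trans (hLa y))
    have := mul_le_mul_of_nonneg_right hL (hM.nonneg x y)
    have e5 : M x y * (gL (s x) * gL (s y)) = (F x * gL (s x)) * (F y * gL (s y)) * M0 x y := by
      rw [hMdef]; unfold loc; ring
    rw [e5]
    linarith
  linarith

/-! ### The parts for a rational bump, as natural numbers -/

theorem partL_eq_div {V : Type*} {F : V → ℕ} {s : V → ℝ} {a b : ℕ} {v : V} (hb : 0 < b)
    (h : s v = (a : ℝ) / b) :
    partL F s v = (F v * (2 * a * b)) / (b ^ 2 + a ^ 2) := by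
  have hb' : (b : ℝ) ≠ 0 := by positivity
  unfold partL gL
  rw [← Nat.floor_div_eq_div (K := ℝ), h]
  congr 1
  push_cast
  have : (b : ℝ) ^ 2 + (a : ℝ) ^ 2 ≠ 0 := by positivity
  field_simp

theorem partR_eq_div {V : Type*} {F : V → ℕ} {s : V → ℝ} {a b : ℕ} {v : V} (hb : 0 < b)
    (hab : a ≤ b) (h : s v = (a : ℝ) / b) :
    partR F s v = (F v * (b ^ 2 - a ^ 2)) / (b ^ 2 + a ^ 2) := by
  have hb' : (b : ℝ) ≠ 0 := by positivity
  unfold partR gR
  rw [← Nat.floor_div_eq_div (K := ℝ), h]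
  congr 1
  rw [Nat.cast_mul, Nat.cast_sub (Nat.pow_le_pow_left hab 2)]
  push_cast
  have : (b : ℝ) ^ 2 + (a : ℝ) ^ 2 ≠ 0 := by positivity
  field_simp

end Vale.Agent.P325
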