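import Vale.Agent.Lib.MathlibUsed

/-!
# The worklist algorithm, abstractly

Nodes are triples `(p, wh, j)`: a piece `p`, the weight `wh` it had when it was split off, the
number `j` of times it was split off. The classifier `cls` either drops a node (`none`), declares
it a leaf (`some none`), or splits it (`some (some (p1, p2))`).
-/

namespace Vale.Agent.P325

variable {P : Type*}

/-- one step of the worklist algorithm; the state consists of the active nodes and the leaves -/
def stepT (w : P → ℕ) (cls : P × ℕ × ℕ → Option (Option (P × P)))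
    (s : List (P × ℕ × ℕ) × List P) : List (P × ℕ × ℕ) × List P :=
  match s.1 with
  | [] => s
  | x :: act =>
    match cls x with
    | none => (act, s.2)
    | some none => (act, x.1 :: s.2)
    | some (some q) => ((q.2, x.2.1, x.2.2) :: (q.1, w q.1, x.2.2 + 1) :: act, s.2)

/-- the initial state -/
def initT (w : P → ℕ) (root : P) : List (P × ℕ × ℕ) × List P := ([(root, w root, 0)], [])

section
variable {w : P → ℕ} {cls : P × ℕ × ℕ → Option (Option (P × P))}

theorem stepT_nil (l : List P) : stepT w cls ([], l) = ([], l) := rfl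

theorem stepT_none {x : P × ℕ × ℕ} {act : List (P × ℕ × ℕ)} {l : List P} (h : cls x = none) :
    stepT w cls (x :: act, l) = (act, l) := by
  unfold stepT; simp only [h]

theorem stepT_leaf {x : P × ℕ × ℕ} {act : List (P × ℕ × ℕ)} {l : List P}
    (h : cls x = some none) : stepT w cls (x :: act, l) = (act, x.1 :: l) := by
  unfold stepT; simp only [h]

theorem stepT_split {x : P × ℕ × ℕ} {act : List (P × ℕ × ℕ)} {l : List P} {q : P × P}
    (h : cls x = some (some q)) : stepT w cls (x :: act, l) =
      ((q.2, x.2.1, x.2.2) :: (q.1, w q.1, x.2.2 + 1) :: act, l) := by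
  unfold stepT; simp only [h]

/-- An invariant of all nodes and leaves. -/
theorem stepT_forall {I : P × ℕ × ℕ → Prop} {Lf : P → Prop}
    (hleaf : ∀ x, I x → cls x = some none → Lf x.1)
    (hsplit : ∀ x p1 p2, I x → cls x = some (some (p1, p2)) →
      I (p1, w p1, x.2.2 + 1) ∧ I (p2, x.2.1, x.2.2))
    {s : List (P × ℕ × ℕ) × List P} (h1 : ∀ x ∈ s.1, I x) (h2 : ∀ p ∈ s.2, Lf p) :
    (∀ x ∈ (stepT w cls s).1, I x) ∧ ∀ p ∈ (stepT w cls s).2, Lf p := by
  obtain ⟨act, l⟩ := s
  cases act with
  | nil => exact ⟨h1, h2⟩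
  | cons x act =>
    have hx : I x := h1 x (by simp)
    have hact : ∀ y ∈ act, I y := fun y hy => h1 y (by simp [hy])
    rcases hc : cls x with _ | _ | ⟨p1, p2⟩
    · rw [stepT_none hc]; exact ⟨hact, h2⟩
    · rw [stepT_leaf hc]
      refine ⟨hact, fun p hp => ?_⟩
      rcases List.mem_cons.1 hp with rfl | hp
      · exact hleaf x hx hc
      · exact h2 p hp
    · rw [stepT_split hc]
      obtain ⟨i1, i2⟩ := hsplit x p1 p2 hx hc
      refine ⟨fun y hy => ?_, h2⟩
      rcases List.mem_cons.1 hy with rfl | hy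
      · exact i2
      rcases List.mem_cons.1 hy with rfl | hy
      · exact i1
      · exact hact y hy

theorem iterate_forall {I : P × ℕ × ℕ → Prop} {Lf : P → Prop}
    (hleaf : ∀ x, I x → cls x = some none → Lf x.1)
    (hsplit : ∀ x p1 p2, I x → cls x = some (some (p1, p2)) →
      I (p1, w p1, x.2.2 + 1) ∧ I (p2, x.2.1, x.2.2))
    {s : List (P × ℕ × ℕ) × List P} (h1 : ∀ x ∈ s.1, I x) (h2 : ∀ p ∈ s.2, Lf p) (N : ℕ) :
    (∀ x ∈ ((stepT w cls)^[N] s).1, I x) ∧ ∀ p ∈ ((stepT w cls)^[N] s).2, Lf p := by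
  induction N with
  | zero => exact ⟨h1, h2⟩
  | succ N ih =>
    rw [Function.iterate_succ_apply']
    exact stepT_forall hleaf hsplit ih.1 ih.2

/-- A subadditive quantity does not increase. -/
theorem iterate_sum_le {I : P × ℕ × ℕ → Prop} {g : P → ℕ}
    (hsplit : ∀ x p1 p2, I x → cls x = some (some (p1, p2)) →
      I (p1, w p1, x.2.2 + 1) ∧ I (p2, x.2.1, x.2.2) ∧ g p1 + g p2 ≤ g x.1)
    {s : List (P × ℕ × ℕ) × List P} (h1 : ∀ x ∈ s.1, I x) (N : ℕ) :
    ((((stepT w cls)^[N] s).1.map fun x => g x.1).sum + (((stepT w cls)^[N] s).2.map g).sum) ≤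
      (s.1.map fun x => g x.1).sum + (s.2.map g).sum := by
  induction N with
  | zero => exact le_rfl
  | succ N ih =>
    refine le_trans ?_ ih
    have hI := (iterate_forall (w := w) (cls := cls) (I := I) (Lf := fun _ => True)
      (fun _ _ _ => trivial) (fun x p1 p2 hx hc =>
        ⟨(hsplit x p1 p2 hx hc).1, (hsplit x p1 p2 hx hc).2.1⟩) h1 (fun _ _ => trivial) N).1
    rw [Function.iterate_succ_apply']
    generalize (stepT w cls)^[N] s = s' at *
    obtain ⟨act, l⟩ := s'
    cases act with
    | nil => exact le_rfl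
    | cons x act =>
      rcases hc : cls x with _ | _ | ⟨p1, p2⟩
      · rw [stepT_none hc]; simp only [List.map_cons, List.sum_cons]; omega
      · rw [stepT_leaf hc]; simp only [List.map_cons, List.sum_cons]; omega
      · rw [stepT_split hc]
        have := (hsplit x p1 p2 (hI x (by simp)) hc).2.2
        simp only [List.map_cons, List.sum_cons]; omega

end

/-- The potential does not decrease at a split (real numbers only). -/
theorem pot_split {W W1 W2 E E1 E2 Lam Lam0 a e c t J n q h : ℝ} (hW1 : 0 ≤ W1)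
    (h4 : W1 + W2 ≤ W) (ht0 : 0 ≤ t) (hn : 0 < n) (hJ : 0 < J) (hL : 1 ≤ Lam0)
    (h6 : Lam0 ≤ Lam) (h7 : W ≤ W1 + W2 + a * Lam * W1 + e) (h8 : E1 + E2 + Lam * W1 ≤ E)
    (hc : c = a + 1 / (n * Lam0) + 1 / (J * Lam0) + e * q) (he : 0 ≤ e) (hq : 1 ≤ q * W1)
    (hc0 : 0 ≤ c) :
    W * (1 - t) - c * E - h ≤
      (W2 * (1 - t) - c * E2 - h) + (W1 * (1 - (t + 1 / J)) - c * E1 - W1 / n) := by
  have hL0 : 0 < Lam0 := by linarith
  have hr : 1 ≤ Lam / Lam0 := by rw [one_le_div hL0]; exact h6
  have e1 : W1 + W2 - W ≤ (W1 + W2 - W) * (1 - t) := by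
    have := mul_nonneg (by linarith : (0 : ℝ) ≤ W - W1 - W2) ht0
    linarith
  have e2 : c * (Lam * W1) ≤ c * (E - E1 - E2) :=
    mul_le_mul_of_nonneg_left (by linarith) hc0
  have f1 : W1 / n ≤ 1 / (n * Lam0) * (Lam * W1) := by
    have : 1 / (n * Lam0) * (Lam * W1) = (W1 / n) * (Lam / Lam0) := by
      field_simp
    rw [this]
    exact le_mul_of_one_le_right (by positivity) hr
  have f2 : W1 / J ≤ 1 / (J * Lam0) * (Lam * W1) := by
    have : 1 / (J * Lam0) * (Lam * W1) = (W1 / J) * (Lam / Lam0) := by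
      field_simp
    rw [this]
    exact le_mul_of_one_le_right (by positivity) hr
  have f3 : e ≤ e * q * (Lam * W1) := by
    have h1 : q * W1 ≤ q * W1 * Lam :=
      le_mul_of_one_le_right (by linarith) (by linarith)
    have h2 : 1 ≤ q * (Lam * W1) := by
      calc 1 ≤ q * W1 := hq
        _ ≤ q * W1 * Lam := h1
        _ = q * (Lam * W1) := by ring
    calc e = e * 1 := (mul_one e).symm
      _ ≤ e * (q * (Lam * W1)) := mul_le_mul_of_nonneg_left h2 he
      _ = _ := by ring
  have e3 : a * (Lam * W1) + W1 / n + W1 / J + e ≤ c * (Lam * W1) := by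
    have : c * (Lam * W1) = a * (Lam * W1) + 1 / (n * Lam0) * (Lam * W1) +
        1 / (J * Lam0) * (Lam * W1) + e * q * (Lam * W1) := by rw [hc]; ring
    rw [this]
    linarith
  have e4 : W1 * (1 - (t + 1 / J)) = W1 * (1 - t) - W1 / J := by ring
  rw [e4]
  have e5 : a * Lam * W1 = a * (Lam * W1) := by ring
  rw [e5] at h7
  have e6 : (W1 + W2 - W) * (1 - t) = W1 * (1 - t) + W2 * (1 - t) - W * (1 - t) := by ring
  have e7 : c * (E - E1 - E2) = c * E - c * E1 - c * E2 := by ring
  linarith

/-- The potential argument. -/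
theorem tree_main (w : P → ℕ) (ent : P → ℝ) (Inv : P → Prop)
    (cls : P × ℕ × ℕ → Option (Option (P × P))) (root : P) (n J K : ℕ) (L a e Lam0 : ℝ)
    (hn : 0 < n) (hJ : 0 < J) (hK : 0 < K) (hTot : 0 < w root) (hLam0 : 1 ≤ Lam0)
    (ha : 0 ≤ a) (he : 0 ≤ e) (hroot : Inv root) (hent0 : ∀ p, 0 ≤ ent p)
    (hentr : ent root ≤ L * w root)
    (hdrop : ∀ x, cls x = none → J ≤ x.2.2 ∨ n * w x.1 ≤ x.2.1)
    (hsplit : ∀ x p1 p2, Inv x.1 → w root ≤ x.2.1 * K ^ x.2.2 → cls x = some (some (p1, p2)) →
      x.2.2 < J ∧ Inv p1 ∧ Inv p2 ∧ w p1 + w p2 ≤ w x.1 ∧ x.2.1 ≤ K * w p1 ∧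
      ∃ Lam : ℝ, Lam0 ≤ Lam ∧ (w x.1 : ℝ) ≤ w p1 + w p2 + a * Lam * w p1 + e ∧
        ent p1 + ent p2 + Lam * w p1 ≤ ent x.1)
    (N : ℕ) (hN : 2 * L * K ^ J < N) :
    ((stepT w cls)^[N] (initT w root)).1 = [] ∧
    (w root : ℝ) * (1 - (a + 1 / (n * Lam0) + 1 / (J * Lam0)) * L - 1 / n) ≤
      ((((stepT w cls)^[N] (initT w root)).2.map w).sum : ℕ) + e * (L * K ^ J) ∧
    ∀ p ∈ ((stepT w cls)^[N] (initT w root)).2, Inv p ∧
      ∃ wh j, cls (p, wh, j) = some none ∧ w root ≤ wh * K ^ j := by
  classical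
  have hnR : (0 : ℝ) < n := by exact_mod_cast hn
  have hJR : (0 : ℝ) < J := by exact_mod_cast hJ
  have hKR : (0 : ℝ) < K := by exact_mod_cast hK
  have hTR : (0 : ℝ) < w root := by exact_mod_cast hTot
  have hL0 : (0 : ℝ) < Lam0 := by linarith
  have hKJ : (0 : ℝ) < (K : ℝ) ^ J := by positivity
  -- the invariant
  set I : P × ℕ × ℕ → Prop := fun x => Inv x.1 ∧ w root ≤ x.2.1 * K ^ x.2.2 with hI
  have hsplitI : ∀ x p1 p2, I x → cls x = some (some (p1, p2)) →
      I (p1, w p1, x.2.2 + 1) ∧ I (p2, x.2.1, x.2.2) := by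
    intro x p1 p2 hx hc
    obtain ⟨h1, h2, h3, h4, h5, _⟩ := hsplit x p1 p2 hx.1 hx.2 hc
    refine ⟨⟨h2, hx.2.trans ?_⟩, ⟨h3, hx.2⟩⟩
    show x.2.1 * K ^ x.2.2 ≤ w p1 * K ^ (x.2.2 + 1)
    calc x.2.1 * K ^ x.2.2 ≤ K * w p1 * K ^ x.2.2 := Nat.mul_le_mul_right _ h5
      _ = w p1 * K ^ (x.2.2 + 1) := by ring
  have hinit : ∀ x ∈ (initT w root).1, I x := by
    intro x hx
    have : x = (root, w root, 0) := by simpa [initT] using hx
    rw [this]
    exact ⟨hroot, by simp⟩
  have hall := iterate_forall (w := w) (cls := cls) (I := I)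
    (Lf := fun p => Inv p ∧ ∃ wh j, cls (p, wh, j) = some none ∧ w root ≤ wh * K ^ j)
    (fun x hx hc => ⟨hx.1, x.2.1, x.2.2, hc, hx.2⟩) hsplitI hinit (by simp [initT])
  -- a lower bound for the weight split off
  have hw1 : ∀ x p1 p2, I x → cls x = some (some (p1, p2)) → (w root : ℝ) ≤ K ^ J * w p1 := by
    intro x p1 p2 hx hc
    obtain ⟨h1, h2, h3, h4, h5, _⟩ := hsplit x p1 p2 hx.1 hx.2 hc
    have : w root ≤ K ^ J * w p1 := by
      calc w root ≤ x.2.1 * K ^ x.2.2 := hx.2
        _ ≤ K * w p1 * K ^ x.2.2 := Nat.mul_le_mul_right _ h5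
        _ = K ^ (x.2.2 + 1) * w p1 := by ring
        _ ≤ K ^ J * w p1 := Nat.mul_le_mul_right _ (Nat.pow_le_pow_right hK h1)
    exact_mod_cast this
  -- termination
  set ψ : P × ℕ × ℕ → ℝ := fun x => 1 + 2 * K ^ J / w root * ent x.1 with hψ
  have hψ1 : ∀ x, 1 ≤ ψ x := fun x => by
    have : 0 ≤ 2 * (K : ℝ) ^ J / w root * ent x.1 :=
      mul_nonneg (by positivity) (hent0 _)
    simp only [hψ]; linarith
  have hψs : ∀ l : List (P × ℕ × ℕ), 0 ≤ (l.map ψ).sum := by
    intro l
    refine List.sum_nonneg fun y hy => ?_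
    obtain ⟨x, _, rfl⟩ := List.mem_map.1 hy
    linarith [hψ1 x]
  have hterm : ∀ N : ℕ, ((stepT w cls)^[N] (initT w root)).1 ≠ [] →
      (((stepT w cls)^[N] (initT w root)).1.map ψ).sum + N ≤ 1 + 2 * K ^ J * L := by
    intro N
    induction N with
    | zero =>
      intro _
      have : 2 * (K : ℝ) ^ J / w root * ent root ≤ 2 * K ^ J * L := by
        calc 2 * (K : ℝ) ^ J / w root * ent root ≤ 2 * K ^ J / w root * (L * w root) :=
              mul_le_mul_of_nonneg_left hentr (by positivity)
          _ = 2 * K ^ J * L := by field_simp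
      simp only [initT, Function.iterate_zero, id, List.map_cons, List.map_nil, List.sum_cons,
        List.sum_nil, Nat.cast_zero, hψ]
      linarith
    | succ N ih =>
      intro hne
      have hall' := (hall N).1
      rw [Function.iterate_succ_apply'] at hne ⊢
      generalize (stepT w cls)^[N] (initT w root) = s at *
      obtain ⟨act, l⟩ := s
      cases act with
      | nil => exact absurd rfl hne
      | cons x act =>
        have ih' := ih (by simp)
        simp only [List.map_cons, List.sum_cons] at ih'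
        push_cast
        rcases hc : cls x with _ | _ | ⟨p1, p2⟩
        · rw [stepT_none hc]
          have := hψ1 x
          show (act.map ψ).sum + (N + 1) ≤ _
          linarith
        · rw [stepT_leaf hc]
          have := hψ1 x
          show (act.map ψ).sum + (N + 1) ≤ _
          linarith
        · rw [stepT_split hc]
          have hIx := hall' x (by simp)
          have hw := hw1 x p1 p2 hIx hc
          obtain ⟨h1, h2, h3, h4, h5, Lam, h6, h7, h8⟩ := hsplit x p1 p2 hIx.1 hIx.2 hc
          simp only [List.map_cons, List.sum_cons]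
          have hkey : ψ (p2, x.2.1, x.2.2) + ψ (p1, w p1, x.2.2 + 1) + 1 ≤ ψ x := by
            simp only [hψ]
            have e1 : 2 ≤ 2 * (K : ℝ) ^ J / w root * (Lam * w p1) := by
              have : (w root : ℝ) ≤ K ^ J * (Lam * w p1) := by
                refine hw.trans (mul_le_mul_of_nonneg_left ?_ hKJ.le)
                have : (0 : ℝ) ≤ w p1 := Nat.cast_nonneg _
                nlinarith
              rw [div_mul_eq_mul_div, le_div_iff₀ hTR]
              linarith
            have e2 := mul_le_mul_of_nonneg_left h8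
              (by positivity : (0 : ℝ) ≤ 2 * (K : ℝ) ^ J / w root)
            have e3 : 2 * (K : ℝ) ^ J / w root * (ent p1 + ent p2 + Lam * w p1) =
              2 * (K : ℝ) ^ J / w root * ent p1 + 2 * (K : ℝ) ^ J / w root * ent p2 +
              2 * (K : ℝ) ^ J / w root * (Lam * w p1) := by ring
            linarith
          linarith
  have hempty : ((stepT w cls)^[N] (initT w root)).1 = [] := by
    by_contra hne
    have h := hterm N hne
    obtain ⟨x, act, hx⟩ := List.exists_cons_of_ne_nil hne
    rw [hx] at h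
    simp only [List.map_cons, List.sum_cons] at h
    have := hψ1 x
    have := hψs act
    linarith
  refine ⟨hempty, ?_, (hall N).2⟩
  -- the potential
  set c : ℝ := a + 1 / (n * Lam0) + 1 / (J * Lam0) + e * (K ^ J / w root) with hc'
  have hc0 : 0 ≤ c := by positivity
  set φ : P × ℕ × ℕ → ℝ := fun x => w x.1 * (1 - x.2.2 / J) - c * ent x.1 - x.2.1 / n with hφ
  have hpot : ∀ N : ℕ, w root - c * ent root - w root / n ≤
      (((stepT w cls)^[N] (initT w root)).1.map φ).sum +
      ((((stepT w cls)^[N] (initT w root)).2.map w).sum : ℕ) := by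
    intro N
    induction N with
    | zero =>
      simp only [initT, Function.iterate_zero, id, List.map_cons, List.map_nil, List.sum_cons,
        List.sum_nil, Nat.cast_zero, hφ]
      simp
    | succ N ih =>
      refine ih.trans ?_
      have hall' := (hall N).1
      rw [Function.iterate_succ_apply']
      generalize (stepT w cls)^[N] (initT w root) = s at *
      obtain ⟨act, l⟩ := s
      cases act with
      | nil => exact le_rfl
      | cons x act =>
        have hw0 : (0 : ℝ) ≤ w x.1 := Nat.cast_nonneg _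
        have hj0 : (0 : ℝ) ≤ (x.2.2 : ℝ) / J := by positivity
        have hwh0 : (0 : ℝ) ≤ (x.2.1 : ℝ) / n := by positivity
        have hce : 0 ≤ c * ent x.1 := mul_nonneg hc0 (hent0 _)
        rcases hc : cls x with _ | _ | ⟨p1, p2⟩
        · rw [stepT_none hc]
          simp only [List.map_cons, List.sum_cons]
          have : φ x ≤ 0 := by
            simp only [hφ]
            rcases hdrop x hc with h | h
            · have : (1 : ℝ) ≤ x.2.2 / J := by
                rw [one_le_div hJR]; exact_mod_cast h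
              nlinarith
            · have h' : (w x.1 : ℝ) ≤ x.2.1 / n := by
                rw [le_div_iff₀ hnR]
                have : ((n * w x.1 : ℕ) : ℝ) ≤ x.2.1 := by exact_mod_cast h
                push_cast at this
                linarith
              nlinarith
          linarith
        · rw [stepT_leaf hc]
          simp only [List.map_cons, List.sum_cons]
          have : φ x ≤ w x.1 := by
            simp only [hφ]
            nlinarith
          push_cast
          linarith
        · rw [stepT_split hc]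
          have hIx := hall' x (by simp)
          have hw := hw1 x p1 p2 hIx hc
          obtain ⟨h1, h2, h3, h4, h5, Lam, h6, h7, h8⟩ := hsplit x p1 p2 hIx.1 hIx.2 hc
          simp only [List.map_cons, List.sum_cons]
          have hkey : φ x ≤ φ (p2, x.2.1, x.2.2) + φ (p1, w p1, x.2.2 + 1) := by
            simp only [hφ]
            have h4' : (w p1 : ℝ) + w p2 ≤ w x.1 := by exact_mod_cast h4
            have hq : 1 ≤ (K : ℝ) ^ J / w root * w p1 := by
              rw [div_mul_eq_mul_div, one_le_div hTR]; exact hw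
            have e4 : ((x.2.2 + 1 : ℕ) : ℝ) / J = x.2.2 / J + 1 / J := by
              push_cast; ring
            rw [e4]
            exact pot_split (Nat.cast_nonneg _) h4' hj0 hnR hJR hLam0 h6 h7 h8 hc' he hq hc0
          linarith
  have h := hpot N
  rw [hempty] at h
  simp only [List.map_nil, List.sum_nil, zero_add] at h
  have h2 : c * ent root ≤ c * (L * w root) := mul_le_mul_of_nonneg_left hentr hc0
  have h3 : c * (L * w root) = w root * ((a + 1 / (n * Lam0) + 1 / (J * Lam0)) * L) +
      e * (L * K ^ J) := by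
    rw [hc']
    field_simp
  have h4 : (w root : ℝ) * (1 - (a + 1 / (n * Lam0) + 1 / (J * Lam0)) * L - 1 / n) =
      w root - w root * ((a + 1 / (n * Lam0) + 1 / (J * Lam0)) * L) - w root / n := by ring
  rw [h4]
  linarith

end Vale.Agent.P325
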