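import Vale.Agent.P325.Defs

/-!
# Correlated sampling over the pieces

Derandomised by induction over the set of still unlabelled vertices.
-/

namespace Vale.Agent.P325

open Finset

section Core

variable {V I J : Type*} [Fintype V] [DecidableEq V] [Fintype I] [Fintype J] {k : ℕ}

/-- Cost of the constraint `j` when `P` is the set of unlabelled vertices and `a` is the labeling
outside `P`. -/
noncomputable def rphi (u v : J → V) (π : J → Equiv.Perm (Fin k)) (c : J → ℝ) (P : Finset V)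
    (a : V → Fin k) (j : J) : ℝ :=
  if u j ∈ P ∧ v j ∈ P then c j
  else if u j ∈ P ∨ v j ∈ P then 1
  else if a (v j) = π j (a (u j)) then 0 else 1

/-- the unlabelled vertices after the draw `(i, τ)` -/
def restP (T : V → ℕ) (τ : ℕ) (P : Finset V) : Finset V := P.filter fun w => ¬ τ < T w

/-- the labels after the draw `(i, τ)` -/
def newA (T : V → ℕ) (lab : V → Fin k) (τ : ℕ) (P : Finset V) (a : V → Fin k) : V → Fin k :=
  fun w => if w ∈ P ∧ τ < T w then lab w else a w

omit [Fintype V] [Fintype J] in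
theorem rphi_le_one (u v : J → V) (π : J → Equiv.Perm (Fin k)) (c : J → ℝ) (P : Finset V)
    (a : V → Fin k) (j : J) (h : ¬ (u j ∈ P ∧ v j ∈ P)) : rphi u v π c P a j ≤ 1 := by
  unfold rphi
  rw [if_neg h]
  split_ifs <;> norm_num

theorem sum_lt_indicator {B x : ℕ} (hx : x ≤ B) :
    ∑ τ ∈ range B, (if τ < x then (1 : ℝ) else 0) = x := by
  rw [← sum_filter]
  have : (range B).filter (fun τ => τ < x) = range x := by
    ext τ
    simp only [mem_filter, mem_range]
    omega
  rw [this]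
  simp

omit [Fintype V] [Fintype J] in
/-- the change of the cost of one constraint caused by a draw -/
theorem rphi_change (u v : J → V) (π : J → Equiv.Perm (Fin k)) (c : J → ℝ) (P : Finset V)
    (a : V → Fin k) (T : V → ℕ) (lab : V → Fin k) (τ : ℕ) (j : J) :
    rphi u v π c (restP T τ P) (newA T lab τ P a) j - rphi u v π c P a j ≤
      if u j ∈ P ∧ v j ∈ P then
        (if τ < min (T (u j)) (T (v j)) then (1 : ℝ) else 0) *
          ((if lab (v j) = π j (lab (u j)) then 0 else 1) - 1) +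
        (if τ < max (T (u j)) (T (v j)) then (1 : ℝ) else 0) * (1 - c j)
      else 0 := by
  by_cases hP : u j ∈ P ∧ v j ∈ P
  · rw [if_pos hP]
    obtain ⟨hu, hv⟩ := hP
    by_cases h1 : τ < T (u j) <;> by_cases h2 : τ < T (v j)
    · have e1 : τ < min (T (u j)) (T (v j)) := lt_min h1 h2
      have e2 : τ < max (T (u j)) (T (v j)) := lt_max_of_lt_left h1
      have g1 : ¬ T (u j) ≤ τ := not_le.2 h1
      have g2 : ¬ T (v j) ≤ τ := not_le.2 h2
      simp [rphi, restP, newA, hu, hv, h1, h2, g1, g2]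
    · have e1 : ¬ τ < min (T (u j)) (T (v j)) := fun h => h2 (lt_min_iff.1 h).2
      have e2 : τ < max (T (u j)) (T (v j)) := lt_max_of_lt_left h1
      have g1 : ¬ T (u j) ≤ τ := not_le.2 h1
      have g2 : T (v j) ≤ τ := not_lt.1 h2
      simp [rphi, restP, hu, hv, h1, h2, g1, g2]
    · have e1 : ¬ τ < min (T (u j)) (T (v j)) := fun h => h1 (lt_min_iff.1 h).1
      have e2 : τ < max (T (u j)) (T (v j)) := lt_max_of_lt_right h2
      have g1 : T (u j) ≤ τ := not_lt.1 h1
      have g2 : ¬ T (v j) ≤ τ := not_le.2 h2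
      simp [rphi, restP, hu, hv, h1, h2, g1, g2]
    · have e1 : ¬ τ < min (T (u j)) (T (v j)) := fun h => h1 (lt_min_iff.1 h).1
      have e2 : ¬ τ < max (T (u j)) (T (v j)) := fun h => (lt_max_iff.1 h).elim h1 h2
      have g1 : T (u j) ≤ τ := not_lt.1 h1
      have g2 : T (v j) ≤ τ := not_lt.1 h2
      simp [rphi, restP, hu, hv, h1, h2, g1, g2]
  · rw [if_neg hP]
    by_cases h1 : u j ∈ P ∨ v j ∈ P
    · have e1 : rphi u v π c P a j = 1 := by simp only [rphi, if_neg hP, if_pos h1]
      have e2 : ¬ (u j ∈ restP T τ P ∧ v j ∈ restP T τ P) := by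
        intro h
        exact hP ⟨(mem_filter.1 h.1).1, (mem_filter.1 h.2).1⟩
      have := rphi_le_one u v π c (restP T τ P) (newA T lab τ P a) j e2
      linarith
    · push Not at h1
      have e1 : rphi u v π c (restP T τ P) (newA T lab τ P a) j = rphi u v π c P a j := by
        simp [rphi, restP, newA, h1.1, h1.2]
      linarith

omit [Fintype V] in
theorem exists_labeling_aux (u v : J → V) (π : J → Equiv.Perm (Fin k)) (c : J → ℝ)
    (T : I → V → ℕ) (lab : I → V → Fin k) (B : ℕ) (hT : ∀ i w, T i w ≤ B)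
    (hc : ∀ j, ∑ i, ((max (T i (u j)) (T i (v j)) : ℕ) - (min (T i (u j)) (T i (v j)) : ℕ) +
      (if lab i (v j) = π j (lab i (u j)) then 0 else 1) * (min (T i (u j)) (T i (v j)) : ℕ) : ℝ) ≤
      c j * ∑ i, ((max (T i (u j)) (T i (v j)) : ℕ) : ℝ))
    (hc1 : ∀ j, (∀ i, T i (u j) = 0 ∧ T i (v j) = 0) → 1 ≤ c j) (n : ℕ) :
    ∀ (P : Finset V) (a₀ : V → Fin k), P.card = n → ∃ a : V → Fin k,
      ∑ j, (if a (v j) = π j (a (u j)) then (0 : ℝ) else 1) ≤ ∑ j, rphi u v π c P a₀ j := by
  induction n using Nat.strong_induction_on with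
  | _ n ih =>
    intro P a₀ hn
    by_cases hit : ∃ w ∈ P, ∃ i, 0 < T i w
    · -- some draw hits
      have key : ∃ i, ∃ τ ∈ range B, (∃ w ∈ P, τ < T i w) ∧
          ∑ j, rphi u v π c (restP (T i) τ P) (newA (T i) (lab i) τ P a₀) j ≤
            ∑ j, rphi u v π c P a₀ j := by
        by_contra hcon
        push Not at hcon
        obtain ⟨w₀, hw₀, i₀, hi₀⟩ := hit
        have hB0 : 0 < B := lt_of_lt_of_le hi₀ (hT i₀ w₀)
        -- nonnegativity of every change
        have hnn : ∀ i, ∀ τ ∈ range B, 0 ≤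
            ∑ j, rphi u v π c (restP (T i) τ P) (newA (T i) (lab i) τ P a₀) j -
              ∑ j, rphi u v π c P a₀ j := by
          intro i τ hτ
          by_cases hh : ∃ w ∈ P, τ < T i w
          · have := hcon i τ hτ hh
            linarith
          · push Not at hh
            have e1 : restP (T i) τ P = P := by
              unfold restP
              rw [filter_eq_self]
              intro w hw
              exact not_lt.2 (hh w hw)
            have e2 : newA (T i) (lab i) τ P a₀ = a₀ := by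
              funext w
              unfold newA
              rw [if_neg]
              rintro ⟨h1, h2⟩
              exact absurd h2 (not_lt.2 (hh w h1))
            rw [e1, e2, sub_self]
        have hpos : 0 < ∑ i, ∑ τ ∈ range B,
            (∑ j, rphi u v π c (restP (T i) τ P) (newA (T i) (lab i) τ P a₀) j -
              ∑ j, rphi u v π c P a₀ j) := by
          refine sum_pos' (fun i _ => sum_nonneg fun τ hτ => hnn i τ hτ) ⟨i₀, mem_univ _, ?_⟩
          refine sum_pos' (fun τ hτ => hnn i₀ τ hτ) ⟨0, mem_range.2 hB0, ?_⟩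
          have := hcon i₀ 0 (mem_range.2 hB0) ⟨w₀, hw₀, hi₀⟩
          linarith
        have hle : ∑ i, ∑ τ ∈ range B,
            (∑ j, rphi u v π c (restP (T i) τ P) (newA (T i) (lab i) τ P a₀) j -
              ∑ j, rphi u v π c P a₀ j) ≤ 0 := by
          have h1 : ∀ i, ∑ τ ∈ range B,
              (∑ j, rphi u v π c (restP (T i) τ P) (newA (T i) (lab i) τ P a₀) j -
                ∑ j, rphi u v π c P a₀ j) ≤
              ∑ j, (if u j ∈ P ∧ v j ∈ P then
                ((min (T i (u j)) (T i (v j)) : ℕ) : ℝ) *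
                  ((if lab i (v j) = π j (lab i (u j)) then 0 else 1) - 1) +
                ((max (T i (u j)) (T i (v j)) : ℕ) : ℝ) * (1 - c j) else 0) := by
            intro i
            simp_rw [← sum_sub_distrib]
            rw [sum_comm]
            refine sum_le_sum fun j _ => ?_
            refine (sum_le_sum fun τ _ => rphi_change u v π c P a₀ (T i) (lab i) τ j).trans
              (le_of_eq ?_)
            by_cases hP : u j ∈ P ∧ v j ∈ P
            · simp only [if_pos hP]
              rw [sum_add_distrib, ← sum_mul, ← sum_mul,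
                sum_lt_indicator ((min_le_left _ _).trans (hT i _)),
                sum_lt_indicator (max_le (hT i _) (hT i _))]
            · simp only [if_neg hP, sum_const_zero]
          refine (sum_le_sum fun i _ => h1 i).trans ?_
          rw [sum_comm]
          refine sum_nonpos fun j _ => ?_
          by_cases hP : u j ∈ P ∧ v j ∈ P
          · simp only [if_pos hP]
            have := hc j
            rw [mul_sum, ← sub_nonpos, ← sum_sub_distrib] at this
            refine le_trans (le_of_eq ?_) this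
            refine sum_congr rfl fun i _ => ?_
            ring
          · simp only [if_neg hP, sum_const_zero, le_refl]
        linarith
      obtain ⟨i, τ, hτ, ⟨w, hw, hwτ⟩, hle⟩ := key
      have hcard : (restP (T i) τ P).card < n := by
        rw [← hn]
        refine card_lt_card ?_
        refine (filter_ssubset).2 ⟨w, hw, ?_⟩
        exact not_not.2 hwτ
      obtain ⟨a, ha⟩ := ih _ hcard (restP (T i) τ P) (newA (T i) (lab i) τ P a₀) rfl
      exact ⟨a, ha.trans hle⟩
    · push Not at hit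
      refine ⟨a₀, sum_le_sum fun j _ => ?_⟩
      unfold rphi
      by_cases hP : u j ∈ P ∧ v j ∈ P
      · rw [if_pos hP]
        have : 1 ≤ c j := hc1 j fun i =>
          ⟨Nat.le_zero.1 (hit _ hP.1 i), Nat.le_zero.1 (hit _ hP.2 i)⟩
        split_ifs <;> linarith
      · rw [if_neg hP]
        by_cases h1 : u j ∈ P ∨ v j ∈ P
        · rw [if_pos h1]
          split_ifs <;> norm_num
        · rw [if_neg h1]

theorem exists_labeling [NeZero k] (u v : J → V) (π : J → Equiv.Perm (Fin k)) (c : J → ℝ)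
    (T : I → V → ℕ) (lab : I → V → Fin k) (B : ℕ) (hT : ∀ i w, T i w ≤ B)
    (hc : ∀ j, ∑ i, ((max (T i (u j)) (T i (v j)) : ℕ) - (min (T i (u j)) (T i (v j)) : ℕ) +
      (if lab i (v j) = π j (lab i (u j)) then 0 else 1) * (min (T i (u j)) (T i (v j)) : ℕ) : ℝ) ≤
      c j * ∑ i, ((max (T i (u j)) (T i (v j)) : ℕ) : ℝ))
    (hc1 : ∀ j, (∀ i, T i (u j) = 0 ∧ T i (v j) = 0) → 1 ≤ c j) :
    ∃ a : V → Fin k, ∑ j, (if a (v j) = π j (a (u j)) then (0 : ℝ) else 1) ≤ ∑ j, c j := by
  obtain ⟨a, ha⟩ := exists_labeling_aux u v π c T lab B hT hc hc1 _ univ (fun _ => 0) rfl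
  refine ⟨a, ha.trans (le_of_eq ?_)⟩
  refine sum_congr rfl fun j _ => ?_
  simp [rphi]

end Core

/-! ### The bound for one constraint -/

section Edge

variable {I : Type*} [Fintype I]

/-- the total variation type bound for one constraint -/
theorem edge_bound (x y w : I → ℝ) (B : ℝ) (hB : 0 < B) (hx : ∀ i, 0 ≤ x i) (hy : ∀ i, 0 ≤ y i)
    (hw : ∀ i, 0 ≤ w i) (hw1 : ∀ i, w i ≤ 1) (hxB : ∑ i, x i ^ 2 ≤ B) (hyB : ∑ i, y i ^ 2 ≤ B) :
    ∑ i, (max (x i ^ 2) (y i ^ 2) - min (x i ^ 2) (y i ^ 2) + w i * min (x i ^ 2) (y i ^ 2)) ≤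
      (2 * Real.sqrt (1 - ((∑ i, x i * y i) / B) ^ 2) + 2 * ((∑ i, w i * (x i * y i)) / B)) *
        ∑ i, max (x i ^ 2) (y i ^ 2) := by
  set R := ∑ i, x i * y i with hR
  set N := ∑ i, w i * (x i * y i) with hN
  set p := ∑ i, max (x i ^ 2) (y i ^ 2) with hp
  set s := ∑ i, min (x i ^ 2) (y i ^ 2) with hs
  set wm := ∑ i, w i * min (x i ^ 2) (y i ^ 2) with hwm
  have hmin : ∀ i, 0 ≤ min (x i ^ 2) (y i ^ 2) := fun i => le_min (sq_nonneg _) (sq_nonneg _)
  have hmm : ∀ i, min (x i ^ 2) (y i ^ 2) ≤ x i * y i := by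
    intro i
    rcases le_total (x i) (y i) with h | h
    · refine (min_le_left _ _).trans ?_
      nlinarith [hx i, hy i]
    · refine (min_le_right _ _).trans ?_
      nlinarith [hx i, hy i]
  have hMM : ∀ i, x i * y i ≤ max (x i ^ 2) (y i ^ 2) := by
    intro i
    rcases le_total (x i) (y i) with h | h
    · refine le_trans ?_ (le_max_right _ _)
      nlinarith [hx i, hy i]
    · refine le_trans ?_ (le_max_left _ _)
      nlinarith [hx i, hy i]
  have hs0 : 0 ≤ s := sum_nonneg fun i _ => hmin i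
  have hR0 : 0 ≤ R := sum_nonneg fun i _ => mul_nonneg (hx i) (hy i)
  have hN0 : 0 ≤ N := sum_nonneg fun i _ => mul_nonneg (hw i) (mul_nonneg (hx i) (hy i))
  have hwm0 : 0 ≤ wm := sum_nonneg fun i _ => mul_nonneg (hw i) (hmin i)
  have hwms : wm ≤ s := sum_le_sum fun i _ => by nlinarith [hw1 i, hmin i]
  have hwmN : wm ≤ N := sum_le_sum fun i _ => mul_le_mul_of_nonneg_left (hmm i) (hw i)
  have hsp : s ≤ p := sum_le_sum fun i _ => min_le_max
  have hRp : R ≤ p := sum_le_sum fun i _ => hMM i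
  have hpt : p + s = ∑ i, x i ^ 2 + ∑ i, y i ^ 2 := by
    rw [hp, hs, ← sum_add_distrib, ← sum_add_distrib]
    exact sum_congr rfl fun i _ => max_add_min _ _
  have hLHS : ∑ i, (max (x i ^ 2) (y i ^ 2) - min (x i ^ 2) (y i ^ 2) +
      w i * min (x i ^ 2) (y i ^ 2)) = p - s + wm := by
    rw [sum_add_distrib, sum_sub_distrib]
  rw [hLHS]
  have hd : (p - s) ^ 2 ≤ (p + s) ^ 2 - 4 * R ^ 2 := by
    have e1 : p - s = ∑ i, |x i - y i| * (x i + y i) := by
      rw [hp, hs, ← sum_sub_distrib]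
      refine sum_congr rfl fun i _ => ?_
      rw [max_sub_min_eq_abs', show x i ^ 2 - y i ^ 2 = (x i - y i) * (x i + y i) by ring,
        abs_mul, abs_of_nonneg (add_nonneg (hx i) (hy i))]
    have e2 := sum_mul_sq_le_sq_mul_sq univ (fun i => |x i - y i|) (fun i => x i + y i)
    rw [← e1] at e2
    have e3 : ∑ i, |x i - y i| ^ 2 = p + s - 2 * R := by
      rw [hpt, hR, mul_sum, ← sum_add_distrib, ← sum_sub_distrib]
      refine sum_congr rfl fun i _ => ?_
      rw [sq_abs]; ring
    have e4 : ∑ i, (x i + y i) ^ 2 = p + s + 2 * R := by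
      rw [hpt, hR, mul_sum, ← sum_add_distrib, ← sum_add_distrib]
      refine sum_congr rfl fun i _ => ?_
      ring
    rw [e3, e4] at e2
    nlinarith
  have hp0 : 0 ≤ p := hs0.trans hsp
  have hν : 0 ≤ N / B := div_nonneg hN0 hB.le
  have ht : p + s ≤ 2 * B := by rw [hpt]; linarith
  by_cases hρ : R / B < 1 / 2
  · have h1 : 1 / 2 ≤ Real.sqrt (1 - (R / B) ^ 2) := by
      refine Real.le_sqrt_of_sq_le ?_
      have : 0 ≤ R / B := div_nonneg hR0 hB.le
      nlinarith
    have h2 : p ≤ (2 * Real.sqrt (1 - (R / B) ^ 2) + 2 * (N / B)) * p := by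
      nlinarith
    linarith
  · push Not at hρ
    have hRB : B / 2 ≤ R := by
      have := (div_le_div_iff₀ (by norm_num : (0:ℝ) < 2) hB).1 hρ
      linarith
    -- first part
    have h1 : p - s ≤ 2 * Real.sqrt (1 - (R / B) ^ 2) * p := by
      have hρB : (R / B) ^ 2 * (p + s) ^ 2 ≤ 4 * R ^ 2 := by
        rw [div_pow, div_mul_eq_mul_div, div_le_iff₀ (by positivity)]
        have : (p + s) ^ 2 ≤ (2 * B) ^ 2 := pow_le_pow_left₀ (by linarith) ht 2
        nlinarith [sq_nonneg R]
      have hR1 : 0 ≤ 1 - (R / B) ^ 2 := by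
        have : (R / B) ^ 2 * (p + s) ^ 2 ≤ (p + s) ^ 2 := by
          have := sq_nonneg (p - s)
          nlinarith
        have hpos : 0 < (p + s) ^ 2 := by
          have : 0 < p := by linarith
          positivity
        have := (mul_le_iff_le_one_left hpos).1 this
        linarith
      have h3 : (p - s) ^ 2 ≤ (1 - (R / B) ^ 2) * (2 * p) ^ 2 := by
        have : (p + s) ^ 2 ≤ (2 * p) ^ 2 := pow_le_pow_left₀ (by linarith) (by linarith) 2
        have := mul_le_mul_of_nonneg_left this hR1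
        nlinarith
      have h4 : p - s ≤ Real.sqrt ((1 - (R / B) ^ 2) * (2 * p) ^ 2) := Real.le_sqrt_of_sq_le h3
      rw [Real.sqrt_mul hR1, Real.sqrt_sq (by linarith)] at h4
      linarith
    have h2 : wm ≤ 2 * (N / B) * p := by
      have e : N = N / B * B := by field_simp
      have : N / B * B ≤ N / B * (2 * p) := mul_le_mul_of_nonneg_left (by linarith) hν
      linarith
    nlinarith

end Edge

/-! ### Lists of constraints and pieces -/

section Lists

variable {V : Type*} {k : ℕ}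

theorem viol_eq_sum (E : List (Con V k)) (a : V → Fin k) :
    (viol E a : ℝ) = ∑ j : Fin E.length,
      (if a (E[j.1].2.1) = E[j.1].2.2 (a E[j.1].1) then (0 : ℝ) else 1) := by
  rw [Fin.sum_univ_fun_getElem E (fun e => if a e.2.1 = e.2.2 (a e.1) then (0 : ℝ) else 1)]
  unfold viol
  induction E with
  | nil => simp
  | cons e E ih =>
    rw [List.countP_cons, List.map_cons, List.sum_cons, ← ih]
    by_cases h : a e.2.1 = e.2.2 (a e.1)
    · simp [h]
    · simp [h, add_comm]

theorem pieceW_eq_sum (E : List (Con V k)) (F : V → ℕ) :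
    (pieceW (base E) F : ℝ) = ∑ j : Fin E.length,
      ((F E[j.1].1 : ℝ) + F E[j.1].2.1) ^ 2 := by
  rw [Fin.sum_univ_fun_getElem E (fun e => ((F e.1 : ℝ) + F e.2.1) ^ 2)]
  unfold pieceW base
  rw [List.map_map]
  induction E with
  | nil => simp
  | cons e E ih =>
    rw [List.map_cons, List.sum_cons, List.map_cons, List.sum_cons, Nat.cast_add, ih]
    simp

theorem pieceV_eq_sum (E : List (Con V k)) (F : V → ℕ) (a : V → Fin k) :
    (pieceV E F a : ℝ) = ∑ j : Fin E.length,
      (if a (E[j.1].2.1) = E[j.1].2.2 (a E[j.1].1) then (0 : ℝ) else 1) *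
        ((F E[j.1].1 : ℝ) * F E[j.1].2.1) := by
  rw [Fin.sum_univ_fun_getElem E (fun e => (if a e.2.1 = e.2.2 (a e.1) then (0 : ℝ) else 1) *
    ((F e.1 : ℝ) * F e.2.1))]
  unfold pieceV
  induction E with
  | nil => simp
  | cons e E ih =>
    rw [List.map_cons, List.sum_cons, List.map_cons, List.sum_cons, Nat.cast_add, ih]
    congr 1
    split_ifs <;> simp

theorem sum_map_cast {α : Type*} (Z : List α) (f : α → ℕ) :
    ((Z.map f).sum : ℝ) = ∑ i : Fin Z.length, (f Z[i.1] : ℝ) := by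
  rw [Fin.sum_univ_fun_getElem Z (fun z => (f z : ℝ))]
  induction Z with
  | nil => simp
  | cons z Z ih => simp [ih]

/-- Rounding of the pieces: correlated sampling. -/
theorem exists_rounding [Fintype V] [DecidableEq V] [NeZero k] (E : List (Con V k))
    (Z : List ((V → ℕ) × (V → Fin k))) (B k1 k2 : ℕ) (hB0 : 0 < B)
    (hB : ∀ v, (Z.map fun z => z.1 v ^ 2).sum ≤ B) (hk1 : 0 < k1) (hk2 : 0 < k2)
    (h1 : k1 * (B * 4 * E.length) ≤
      B * 4 * E.length + k1 * (Z.map fun z => pieceW (base E) z.1).sum)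
    (h2 : 2 * k2 * (Z.map fun z => pieceV E z.1 z.2).sum ≤ B * 4 * E.length) :
    ∃ a : V → Fin k, (viol E a : ℝ) ≤ (4 / Real.sqrt k1 + 4 / k2) * E.length := by
  set m := E.length with hm
  -- abbreviations
  let u : Fin m → V := fun j => (E[j.1]'j.2).1
  let v : Fin m → V := fun j => (E[j.1]'j.2).2.1
  let π : Fin m → Equiv.Perm (Fin k) := fun j => (E[j.1]'j.2).2.2
  let F : Fin Z.length → V → ℕ := fun i => (Z[i.1]'i.2).1
  let lab : Fin Z.length → V → Fin k := fun i => (Z[i.1]'i.2).2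
  let w : Fin m → Fin Z.length → ℝ := fun j i =>
    if lab i (v j) = π j (lab i (u j)) then 0 else 1
  have hw : ∀ j i, 0 ≤ w j i := by
    intro j i
    simp only [w]
    split_ifs <;> norm_num
  have hw1 : ∀ j i, w j i ≤ 1 := by
    intro j i
    simp only [w]
    split_ifs <;> norm_num
  have hBr : (0 : ℝ) < B := by exact_mod_cast hB0
  have hq : ∀ x, ∑ i, ((F i x : ℝ)) ^ 2 ≤ B := by
    intro x
    have := hB x
    have h' : (((Z.map fun z => z.1 x ^ 2).sum : ℕ) : ℝ) ≤ B := by exact_mod_cast this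
    rw [sum_map_cast] at h'
    simpa [F] using h'
  have hT : ∀ i x, F i x ^ 2 ≤ B := by
    intro i x
    have h1 := hq x
    have h2 : ((F i x : ℝ)) ^ 2 ≤ ∑ i, ((F i x : ℝ)) ^ 2 :=
      single_le_sum (f := fun i => ((F i x : ℝ)) ^ 2) (fun i _ => sq_nonneg _) (mem_univ i)
    have : ((F i x : ℝ)) ^ 2 ≤ B := h2.trans h1
    exact_mod_cast this
  let ρ : Fin m → ℝ := fun j => (∑ i, (F i (u j) : ℝ) * F i (v j)) / B
  let ν : Fin m → ℝ := fun j => (∑ i, w j i * ((F i (u j) : ℝ) * F i (v j))) / B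
  let c : Fin m → ℝ := fun j => 2 * Real.sqrt (1 - ρ j ^ 2) + 2 * ν j
  obtain ⟨a, ha⟩ := exists_labeling u v π c (fun i x => F i x ^ 2) lab B hT (by
    intro j
    have := edge_bound (fun i => (F i (u j) : ℝ)) (fun i => (F i (v j) : ℝ)) (w j) B hBr
      (fun i => Nat.cast_nonneg _) (fun i => Nat.cast_nonneg _) (hw j) (hw1 j) (hq _) (hq _)
    simpa [c, ρ, ν, w] using this) (by
    intro j hj
    have e1 : ρ j = 0 := by
      simp only [ρ]
      rw [sum_eq_zero, zero_div]
      intro i _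
      have := pow_eq_zero_iff (two_ne_zero) |>.1 (hj i).1
      rw [this]; simp
    have e2 : 0 ≤ ν j := div_nonneg (sum_nonneg fun i _ => mul_nonneg (hw j i) (by positivity))
      hBr.le
    simp only [c]
    rw [e1]
    norm_num
    linarith)
  refine ⟨a, ?_⟩
  rw [viol_eq_sum]
  refine ha.trans ?_
  -- bounds on the sums of `1 - ρ` and `ν`
  have hρ1 : ∀ j, 0 ≤ ρ j ∧ ρ j ≤ 1 := by
    intro j
    refine ⟨div_nonneg (sum_nonneg fun i _ => by positivity) hBr.le, ?_⟩
    rw [div_le_one hBr]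
    have := sum_mul_sq_le_sq_mul_sq univ (fun i => (F i (u j) : ℝ)) (fun i => (F i (v j) : ℝ))
    have h3 : (∑ i, (F i (u j) : ℝ) ^ 2) * (∑ i, (F i (v j) : ℝ) ^ 2) ≤ B * B :=
      mul_le_mul (hq _) (hq _) (sum_nonneg fun i _ => sq_nonneg _) hBr.le
    exact abs_le_of_sq_le_sq' (by nlinarith) hBr.le |>.2
  have hsumρ : ∑ j, (1 - ρ j) ≤ 2 * m / k1 := by
    have h3 : (k1 : ℝ) * (B * 4 * m) ≤
        B * 4 * m + k1 * (((Z.map fun z => pieceW (base E) z.1).sum : ℕ) : ℝ) := by
      exact_mod_cast h1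
    rw [sum_map_cast] at h3
    have h4 : ∑ i : Fin Z.length, (pieceW (base E) (Z[i.1]).1 : ℝ) ≤
        ∑ j, (2 * B + 2 * (B * ρ j)) := by
      simp_rw [pieceW_eq_sum]
      rw [sum_comm]
      refine sum_le_sum fun j _ => ?_
      have e : ∑ i : Fin Z.length, ((F i (u j) : ℝ) + F i (v j)) ^ 2 =
          ∑ i, (F i (u j) : ℝ) ^ 2 + ∑ i, (F i (v j) : ℝ) ^ 2 + 2 * (B * ρ j) := by
        simp only [ρ]
        rw [mul_div_cancel₀ _ hBr.ne', mul_sum, ← sum_add_distrib, ← sum_add_distrib]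
        exact sum_congr rfl fun i _ => by ring
      have := hq (u j)
      have := hq (v j)
      show ∑ i : Fin Z.length, ((F i (u j) : ℝ) + F i (v j)) ^ 2 ≤ _
      rw [e]
      linarith
    have hk1r : (0 : ℝ) < k1 := by exact_mod_cast hk1
    rw [le_div_iff₀ hk1r]
    have h5 : ∑ j, (2 * (B : ℝ) + 2 * (B * ρ j)) = 4 * B * m - 2 * B * ∑ j, (1 - ρ j) := by
      rw [sum_add_distrib, sum_sub_distrib, ← mul_sum, ← mul_sum, ← mul_sum]
      simp
      ring
    rw [h5] at h4
    have h6 := mul_le_mul_of_nonneg_left h4 hk1r.le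
    have h7 : 2 * (B : ℝ) * (k1 * ∑ j, (1 - ρ j)) ≤ 2 * B * (2 * m) := by
      nlinarith
    have h8 := le_of_mul_le_mul_left h7 (by positivity)
    linarith
  have hsumν : ∑ j, ν j ≤ 2 * m / k2 := by
    have h3 : 2 * (k2 : ℝ) * (((Z.map fun z => pieceV E z.1 z.2).sum : ℕ) : ℝ) ≤ B * 4 * m := by
      exact_mod_cast h2
    rw [sum_map_cast] at h3
    have h4 : ∑ i : Fin Z.length, (pieceV E (Z[i.1]).1 (Z[i.1]).2 : ℝ) = ∑ j, B * ν j := by
      simp_rw [pieceV_eq_sum]
      rw [sum_comm]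
      refine sum_congr rfl fun j _ => ?_
      simp only [ν]
      rw [mul_div_cancel₀ _ hBr.ne']
    rw [h4, ← mul_sum] at h3
    have hk2r : (0 : ℝ) < k2 := by exact_mod_cast hk2
    rw [le_div_iff₀ hk2r]
    have h7 : 2 * (B : ℝ) * ((∑ j, ν j) * k2) ≤ 2 * B * (2 * m) := by
      nlinarith
    exact le_of_mul_le_mul_left h7 (by positivity)
  -- Cauchy-Schwarz
  have hcs : ∑ j, Real.sqrt (1 - ρ j ^ 2) ≤ 2 * m / Real.sqrt k1 := by
    have hle : ∀ j, Real.sqrt (1 - ρ j ^ 2) ≤ Real.sqrt (2 * (1 - ρ j)) := by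
      intro j
      refine Real.sqrt_le_sqrt ?_
      nlinarith [(hρ1 j).1, (hρ1 j).2]
    have h3 : (∑ j, Real.sqrt (2 * (1 - ρ j))) ^ 2 ≤ (2 * m / Real.sqrt k1) ^ 2 := by
      have := sum_mul_sq_le_sq_mul_sq univ (fun _ : Fin m => (1 : ℝ))
        (fun j => Real.sqrt (2 * (1 - ρ j)))
      simp only [one_mul, one_pow, sum_const, card_univ, Fintype.card_fin, nsmul_eq_mul,
        mul_one] at this
      refine this.trans ?_
      have e1 : ∑ j, Real.sqrt (2 * (1 - ρ j)) ^ 2 = 2 * ∑ j, (1 - ρ j) := by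
        rw [mul_sum]
        refine sum_congr rfl fun j _ => ?_
        rw [Real.sq_sqrt]
        have := (hρ1 j).2
        linarith
      rw [e1, div_pow, Real.sq_sqrt (Nat.cast_nonneg _)]
      have hm0 : (0 : ℝ) ≤ m := Nat.cast_nonneg _
      calc (m : ℝ) * (2 * ∑ j, (1 - ρ j)) ≤ m * (2 * (2 * m / k1)) := by
            refine mul_le_mul_of_nonneg_left ?_ hm0
            linarith
        _ = (2 * m) ^ 2 / k1 := by ring
    have h4 := abs_le_of_sq_le_sq' h3 (by positivity)
    exact (sum_le_sum fun j _ => hle j).trans h4.2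
  calc ∑ j, c j = 2 * ∑ j, Real.sqrt (1 - ρ j ^ 2) + 2 * ∑ j, ν j := by
        simp only [c]
        rw [sum_add_distrib, mul_sum, mul_sum]
    _ ≤ 2 * (2 * m / Real.sqrt k1) + 2 * (2 * m / k2) := by linarith
    _ = (4 / Real.sqrt k1 + 4 / k2) * m := by ring

end Lists

end Vale.Agent.P325
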