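import Vale.Agent.P325.AlgSpec3
import Vale.Agent.P325.Lift
import Vale.Agent.P325.Leaf
import Vale.Agent.P325.ReachFacts
import Vale.Agent.P325.Round

/-!
# Soundness and completeness of the algorithm
-/

namespace Vale.Agent.P325

open Finset Alg

variable {V : Type*} {k N : ℕ} (e : V ≃ Fin N) [Fintype V] [DecidableEq V]

/-- soundness -/
theorem runL_sound (hk : 0 < k) (E : List (Con V k)) (P : Alg.Num) {q k1 k2 : ℕ}
    (hP : Ok (prm P) q k1) (hk2 : 0 < k2) (hE : E ≠ []) (hV : Fintype.card V ≤ P.n)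
    (hB : 2 * P.L * (4 * P.n ^ 5) ^ P.J + 1 < P.B)
    (h : runL k k1 k2 N (conL e E) P = true) :
    ∃ a : V → Fin k, (viol E a : ℝ) ≤ (4 / Real.sqrt k1 + 4 / k2) * E.length := by
  have hbE : base E ≠ [] := by simpa [base] using hE
  have : NeZero k := ⟨hk.ne'⟩
  obtain ⟨j, lv, h1, h2⟩ := runL_eq e E P k1 k2
    fun j s hs => (reach_bound hP hbE hV hs).trans_lt hB
  rw [h] at h2
  unfold acceptL at h2
  have h2' := h2.symm
  rw [Bool.and_eq_true, decide_eq_true_eq, decide_eq_true_eq] at h2'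
  obtain ⟨h3, h4⟩ := h2'
  have h5 : ∀ F : V → ℕ, ∃ a : V → Fin k, leafN e E P F = pieceV E F a := fun F =>
    leafL_val e hk E F P.T P.S' P.S P.B
  choose lab hlab using h5
  refine exists_rounding E (lv.map fun F => (F, lab F)) (4 ^ P.b) k1 k2 (by positivity) ?_
    hP.hk1 hk2 ?_ ?_
  · intro v
    have h6 := reach_sq hP hbE h1 v
    simp only [List.map_nil, List.sum_nil, zero_add] at h6
    rw [List.map_map]
    exact h6
  · rw [List.map_map]
    exact h3
  · rw [List.map_map]
    have h6 : lv.map ((fun z : (V → ℕ) × (V → Fin k) => pieceV E z.1 z.2) ∘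
        fun F => (F, lab F)) = lv.map (leafN e E P) :=
      List.map_congr_left fun F _ => (hlab F).symm
    rw [h6]
    exact h4

omit [Fintype V] [DecidableEq V] in
theorem pieceV_le_pieceW (E : List (Con V k)) (F : V → ℕ) (a : V → Fin k) :
    pieceV E F a ≤ pieceW (base E) F := by
  unfold pieceV pieceW base
  rw [List.map_map]
  refine List.sum_le_sum fun c _ => ?_
  simp only [Function.comp]
  split_ifs
  · exact Nat.zero_le _
  · nlinarith [Nat.zero_le (F c.1 * F c.1), Nat.zero_le (F c.2.1 * F c.2.1),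
      Nat.zero_le (F c.1 * F c.2.1)]

/-- the value found in a leaf -/
theorem leafN_le (hk : 0 < k) (E : List (Con V k)) (P : Alg.Num) {η : ℝ} (F : V → ℕ)
    (hV : Fintype.card V ≤ P.n) (hS : 0 < P.S) (hη : 0 < η) (hη1 : η ≤ 1) (hR : 0 < P.R)
    (hr : 1 ≤ P.r) (hn : P.n ≤ 2 ^ P.L)
    (hlog : 2 * P.L * Real.exp (-(P.T / (4 * P.R))) ≤ Real.log (4 * P.r))
    (hT : 1 / (P.r : ℝ) ≤ (1 - η) ^ P.T) (hcert : (N * k) ^ P.S ≤ P.B)
    (hF : ∀ v t, ¬ Good (prm P) (base E) F v t) (a : V → Fin k) :
    (leafN e E P F : ℝ) ≤ (1 + 12 / η) * pieceV E F a +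
      6 * (16 * P.r * P.S' ^ 2 / P.S + 1 / P.n + Real.exp (-(2 * (P.S' / P.r : ℝ)))) *
        pieceW (base E) F := by
  have hM := GF_isForm (base E) F
  have htot : tot (GF (base E) F) = pieceW (base E) F := by rw [← totN_cast, totN_eq]
  have hnn : (0 : ℝ) ≤ 16 * P.r * P.S' ^ 2 / P.S + 1 / P.n +
      Real.exp (-(2 * (P.S' / P.r : ℝ))) := by positivity
  rcases Nat.eq_zero_or_pos (pieceW (base E) F) with h0 | h0
  · obtain ⟨a', ha'⟩ : ∃ a' : V → Fin k, leafN e E P F = pieceV E F a' :=
      leafL_val e hk E F P.T P.S' P.S P.B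
    have h1 := pieceV_le_pieceW E F a'
    have h2 : leafN e E P F = 0 := by omega
    rw [h2, h0]
    push_cast
    positivity
  · have htot0 : 0 < tot (GF (base E) F) := by
      rw [htot]; exact_mod_cast h0
    obtain ⟨x, hx, hx'⟩ := leaf_decode (M := GF (base E) F) (Mh := GH E F) hM
      (GF_isForm (lift E) (hatN k F)) (GH_proj E F) (n := P.n) (r := P.r) (T := P.T) (S := P.S)
      (S' := P.S') (η := η) hV hS htot0 hη hη1 hT (fun v hv hv' => by
        refine leaf_of_not_good (base E) F (prm P) hR hr hn hlog hF ⟨?_, ?_⟩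
        · rw [← degN_cast] at hv
          exact_mod_cast hv
        · rw [← degN_cast, ← totN_cast] at hv'
          exact_mod_cast hv') a
    obtain ⟨a', h1, h2⟩ := leafL_le e hk E F P.T P.S' P.S P.B hcert x
    have hdeg : ∀ s, deg (GH E F) (x s) = deg (GF (base E) F) (x s).1 := fun s => by
      have := deg_lifted (GH_proj E F) (x s).1 (x s).2
      simpa using this
    have h3 := hx' a' (fun u i _ => by
      have := h2 u i
      exact this)
    have h4 : (leafN e E P F : ℝ) ≤ pieceV E F a' := by exact_mod_cast h1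
    have h5 := pieceV_le E F a a'
    have h6 : ∑ u, (if a' u = a u then 0 else deg (GF (base E) F) u) =
        ∑ u ∈ univ.filter (fun u => a' u ≠ a u), deg (GF (base E) F) u := by
      rw [sum_filter]
      refine sum_congr rfl fun u _ => ?_
      by_cases h : a' u = a u <;> simp [h]
    have h7 : energy (GH E F) (lab1 a) = 2 * pieceV E F a := by
      rw [← energy_ind]
      rfl
    rw [h7] at h3
    rw [h6] at h5
    have h8 : 6 * (16 * P.r * P.S' ^ 2 / P.S + 1 / P.n + Real.exp (-(2 * (P.S' / P.r : ℝ))) +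
          2 * pieceV E F a / (η * tot (GF (base E) F))) * tot (GF (base E) F) =
        6 * (16 * P.r * P.S' ^ 2 / P.S + 1 / P.n + Real.exp (-(2 * (P.S' / P.r : ℝ)))) *
          tot (GF (base E) F) + 12 / η * pieceV E F a := by
      field_simp
      ring
    rw [h8, htot] at h3
    rw [htot] at *
    linarith

section
variable {V : Type*} {k : ℕ}

theorem two_mul_sum_le (lv : List (V → ℕ)) (u v : V) :
    2 * (lv.map fun F => F u * F v).sum ≤
      (lv.map fun F => F u ^ 2).sum + (lv.map fun F => F v ^ 2).sum := by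
  induction lv with
  | nil => simp
  | cons F lv ih =>
    simp only [List.map_cons, List.sum_cons]
    have h : 2 * (F u * F v) ≤ F u ^ 2 + F v ^ 2 := by
      zify
      nlinarith [sq_nonneg ((F u : ℤ) - F v)]
    omega

theorem sum_pieceV_le (E : List (Con V k)) (lv : List (V → ℕ)) {B : ℕ}
    (hB : ∀ v, (lv.map fun F => F v ^ 2).sum ≤ B) (a : V → Fin k) :
    (lv.map fun F => pieceV E F a).sum ≤ B * viol E a := by
  induction E with
  | nil => simp [pieceV, viol]
  | cons c E ih =>
    have h1 : ∀ F, pieceV (c :: E) F a =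
        (if a c.2.1 = c.2.2 (a c.1) then 0 else F c.1 * F c.2.1) + pieceV E F a := fun F => by
      simp [pieceV]
    simp_rw [h1]
    rw [List.sum_map_add]
    have h2 : viol (c :: E) a = viol E a + if a c.2.1 = c.2.2 (a c.1) then 0 else 1 := by
      unfold viol
      rw [List.countP_cons]
      by_cases h : a c.2.1 = c.2.2 (a c.1) <;> simp [h]
    rw [h2, Nat.mul_add, Nat.add_comm]
    refine Nat.add_le_add ih ?_
    by_cases h : a c.2.1 = c.2.2 (a c.1)
    · simp [h]
    · simp only [h, if_false, mul_one]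
      have h3 := two_mul_sum_le lv c.1 c.2.1
      have h4 := hB c.1
      have h5 := hB c.2.1
      omega

theorem sum_pieceW_le (E : List (V × V)) (lv : List (V → ℕ)) {B : ℕ}
    (hB : ∀ v, (lv.map fun F => F v ^ 2).sum ≤ B) :
    (lv.map (pieceW E)).sum ≤ B * 4 * E.length := by
  induction E with
  | nil =>
    have : lv.map (pieceW ([] : List (V × V))) = lv.map fun _ => 0 :=
      List.map_congr_left fun F _ => by simp [pieceW]
    rw [this]; simp
  | cons c E ih =>
    have h1 : lv.map (pieceW (c :: E)) = lv.map fun F => (F c.1 + F c.2) ^ 2 + pieceW E F :=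
      List.map_congr_left fun F _ => by simp [pieceW]
    rw [h1, List.sum_map_add, List.length_cons, Nat.mul_add, Nat.add_comm]
    refine Nat.add_le_add ih ?_
    have h2 : (lv.map fun F => (F c.1 + F c.2) ^ 2).sum =
        (lv.map fun F => F c.1 ^ 2).sum + 2 * (lv.map fun F => F c.1 * F c.2).sum +
          (lv.map fun F => F c.2 ^ 2).sum := by
      rw [← List.sum_map_mul_left, ← List.sum_map_add, ← List.sum_map_add]
      congr 1
      exact List.map_congr_left fun F _ => by ring
    rw [h2]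
    have h3 := two_mul_sum_le lv c.1 c.2
    have h4 := hB c.1
    have h5 := hB c.2
    omega

end

/-- completeness -/
theorem runL_complete (hk : 0 < k) (E : List (Con V k)) (P : Alg.Num) {q k1 k2 : ℕ} {η ε : ℝ}
    (hP : Ok (prm P) q k1) (hE : E ≠ []) (hV : Fintype.card V ≤ P.n)
    (hB : 2 * P.L * (4 * P.n ^ 5) ^ P.J + 1 < P.B) (hS : 0 < P.S) (hη : 0 < η) (hη1 : η ≤ 1)
    (hlog : 2 * P.L * Real.exp (-(P.T / (4 * P.R))) ≤ Real.log (4 * P.r))
    (hT : 1 / (P.r : ℝ) ≤ (1 - η) ^ P.T) (hcert : (N * k) ^ P.S ≤ P.B)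
    (hfin : 2 * k2 * ((1 + 12 / η) * ε / 4 + 6 * (16 * P.r * P.S' ^ 2 / P.S + 1 / P.n +
      Real.exp (-(2 * (P.S' / P.r : ℝ))))) ≤ 1)
    (a : V → Fin k) (ha : (viol E a : ℝ) ≤ ε * E.length) :
    runL k k1 k2 N (conL e E) P = true := by
  have hbE : base E ≠ [] := by simpa [base] using hE
  obtain ⟨j, lv, h1, h2⟩ := runL_eq e E P k1 k2
    fun j s hs => (reach_bound hP hbE hV hs).trans_lt hB
  rw [h2]
  unfold acceptL
  rw [Bool.and_eq_true, decide_eq_true_eq, decide_eq_true_eq]
  have hlen : (base E).length = E.length := by simp [base]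
  refine ⟨?_, ?_⟩
  · have := reach_tot hP hbE hV h1
    rw [hlen] at this
    exact this
  · have hsq : ∀ v, (lv.map fun F => F v ^ 2).sum ≤ 4 ^ P.b := by
      intro v
      have h6 := reach_sq hP hbE h1 v
      simp only [List.map_nil, List.sum_nil, zero_add] at h6
      exact h6
    set δ : ℝ := 16 * P.r * P.S' ^ 2 / P.S + 1 / P.n +
      Real.exp (-(2 * (P.S' / P.r : ℝ))) with hδ
    have hδ0 : 0 ≤ δ := by positivity
    have h3 : ∀ F ∈ lv, (leafN e E P F : ℝ) ≤ (1 + 12 / η) * pieceV E F a +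
        6 * δ * pieceW (base E) F := by
      intro F hF
      refine leafN_le e hk E P F hV hS hη hη1 hP.R_pos hP.r_pos ?_ hlog hT hcert
        (fun v t => reach_leaf h1 F hF v t) a
      exact hP.n_lt.le
    have h4 : (((lv.map (leafN e E P)).sum : ℕ) : ℝ) ≤
        (1 + 12 / η) * ((lv.map fun F => pieceV E F a).sum : ℕ) +
          6 * δ * ((lv.map (pieceW (base E))).sum : ℕ) := by
      clear h1 h2 hsq
      induction lv with
      | nil => simp
      | cons F lv ih =>
        have h5 := ih fun F' hF' => h3 F' (List.mem_cons_of_mem _ hF')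
        have h6 := h3 F List.mem_cons_self
        simp only [List.map_cons, List.sum_cons, Nat.cast_add]
        linarith
    have h5 : (((lv.map fun F => pieceV E F a).sum : ℕ) : ℝ) ≤ 4 ^ P.b * viol E a := by
      exact_mod_cast sum_pieceV_le E lv hsq a
    have h6 : (((lv.map (pieceW (base E))).sum : ℕ) : ℝ) ≤ 4 ^ P.b * 4 * E.length := by
      have := sum_pieceW_le (base E) lv hsq
      rw [hlen] at this
      exact_mod_cast this
    have h7 : (0 : ℝ) ≤ 1 + 12 / η := by positivity
    have h8 : (((lv.map (leafN e E P)).sum : ℕ) : ℝ) ≤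
        (1 + 12 / η) * (4 ^ P.b * (ε * E.length)) + 6 * δ * (4 ^ P.b * 4 * E.length) := by
      refine h4.trans (add_le_add ?_ ?_)
      · exact mul_le_mul_of_nonneg_left
          (h5.trans (mul_le_mul_of_nonneg_left ha (by positivity))) h7
      · exact mul_le_mul_of_nonneg_left h6 (by positivity)
    have h9 : (1 + 12 / η) * (4 ^ P.b * (ε * E.length)) + 6 * δ * (4 ^ P.b * 4 * E.length) =
        ((1 + 12 / η) * ε / 4 + 6 * δ) * (4 ^ P.b * 4 * E.length) := by ring
    rw [h9] at h8
    have h10 : (2 * k2 * ((lv.map (leafN e E P)).sum : ℕ) : ℝ) ≤ 4 ^ P.b * 4 * E.length := by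
      have h11 : (0 : ℝ) ≤ 2 * k2 := by positivity
      have h12 : (0 : ℝ) ≤ 4 ^ P.b * 4 * E.length := by positivity
      calc (2 * k2 * ((lv.map (leafN e E P)).sum : ℕ) : ℝ)
          ≤ 2 * k2 * (((1 + 12 / η) * ε / 4 + 6 * δ) * (4 ^ P.b * 4 * E.length)) :=
            mul_le_mul_of_nonneg_left h8 h11
        _ = (2 * k2 * ((1 + 12 / η) * ε / 4 + 6 * δ)) * (4 ^ P.b * 4 * E.length) := by ring
        _ ≤ 1 * (4 ^ P.b * 4 * E.length) := mul_le_mul_of_nonneg_right hfin h12
        _ = _ := one_mul _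
    exact_mod_cast h10

end Vale.Agent.P325
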