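import Vale.Agent.P325.Form

/-!
# Extraction of a cheap bump

If the random walk started at a heavy vertex does not spread after `T` steps, one of its first `T`
distributions, truncated, has small energy compared with the logarithm of its relative size.
-/

namespace Vale.Agent.P325

open Finset

variable {X : Type*} [Fintype X] [DecidableEq X] {M : X → X → ℝ}

/-- the truncated distribution -/
noncomputable def bump (M : X → X → ℝ) (v : X) (t : ℕ) (u : X) : ℝ :=
  max (heat M v t u - nrm M (heat M v t) / (4 * deg M v)) 0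

/-- the volume of the support -/
noncomputable def svol (M : X → X → ℝ) (s : X → ℝ) : ℝ :=
  ∑ u, if s u = 0 then 0 else deg M u

omit [DecidableEq X] in
theorem energy_trunc_le (hM : IsForm M) (h : X → ℝ) (c : ℝ) :
    energy M (fun u => max (h u - c) 0) ≤ energy M h := by
  unfold energy
  refine div_le_div_of_nonneg_right ?_ (by norm_num)
  refine sum_le_sum fun x _ => sum_le_sum fun y _ => ?_
  refine mul_le_mul_of_nonneg_left ?_ (hM.nonneg x y)
  rw [sq_le_sq]
  have := abs_max_sub_max_le_abs (h x - c) (h y - c) 0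
  simpa using this

theorem bump_nonneg (v : X) (t : ℕ) (u : X) : 0 ≤ bump M v t u := le_max_right _ _

theorem bump_le_one (hM : IsForm M) (v : X) (t : ℕ) (u : X) : bump M v t u ≤ 1 := by
  unfold bump
  refine max_le ?_ zero_le_one
  have h1 := hM.heat_le_one v t u
  have h2 : 0 ≤ nrm M (heat M v t) / (4 * deg M v) :=
    div_nonneg (hM.nrm_nonneg _) (mul_nonneg (by norm_num) (hM.deg_nonneg v))
  linarith

theorem nrm_bump_ge (hM : IsForm M) {v : X} (hv : 0 < deg M v) (t : ℕ) :
    nrm M (heat M v t) / 2 ≤ nrm M (bump M v t) := by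
  set N := nrm M (heat M v t) with hN
  have h1 : nrm M (heat M v t) - 2 * (N / (4 * deg M v)) * ∑ u, deg M u * heat M v t u ≤
      nrm M (bump M v t) := by
    unfold nrm
    rw [mul_sum, ← sum_sub_distrib]
    refine sum_le_sum fun u _ => ?_
    have hd := hM.deg_nonneg u
    have : heat M v t u ^ 2 - 2 * (N / (4 * deg M v)) * heat M v t u ≤ bump M v t u ^ 2 := by
      unfold bump
      rw [← hN]
      set c := N / (4 * deg M v) with hc
      have hc0 : 0 ≤ c := by
        rw [hc]; exact div_nonneg (hM.nrm_nonneg _) (by positivity)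
      have hh := hM.heat_nonneg v t u
      rcases le_total (heat M v t u - c) 0 with h | h
      · rw [max_eq_right h]
        nlinarith
      · rw [max_eq_left h]
        nlinarith
    nlinarith
  rw [hM.sum_deg_heat, ← hN] at h1
  have h2 : 2 * (N / (4 * deg M v)) * deg M v = N / 2 := by
    field_simp
    ring
  linarith

theorem svol_bump_le (hM : IsForm M) {v : X} (hv : 0 < deg M v) (t : ℕ) :
    svol M (bump M v t) * nrm M (heat M v t) ≤ 4 * deg M v ^ 2 := by
  set N := nrm M (heat M v t) with hN
  have hN0 : 0 ≤ N := hM.nrm_nonneg _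
  have h1 : svol M (bump M v t) * (N / (4 * deg M v)) ≤ ∑ u, deg M u * heat M v t u := by
    unfold svol
    rw [sum_mul]
    refine sum_le_sum fun u _ => ?_
    have hd := hM.deg_nonneg u
    have hh := hM.heat_nonneg v t u
    split_ifs with h
    · rw [zero_mul]; positivity
    · refine mul_le_mul_of_nonneg_left ?_ hd
      by_contra hlt
      push Not at hlt
      apply h
      unfold bump
      rw [← hN]
      exact max_eq_right (by linarith)
  rw [hM.sum_deg_heat] at h1
  have h2 : svol M (bump M v t) * N = svol M (bump M v t) * (N / (4 * deg M v)) *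
      (4 * deg M v) := by
    field_simp
  rw [h2]
  nlinarith

omit [DecidableEq X] in
theorem svol_nonneg (hM : IsForm M) (s : X → ℝ) : 0 ≤ svol M s :=
  sum_nonneg fun u _ => by split_ifs; exacts [le_rfl, hM.deg_nonneg u]

omit [DecidableEq X] in
theorem svol_le (hM : IsForm M) (s : X → ℝ) : svol M s ≤ tot M := by
  refine sum_le_sum fun u _ => ?_
  split_ifs
  · exact hM.deg_nonneg u
  · exact le_rfl

omit [DecidableEq X] in
theorem svol_pos (hM : IsForm M) {s : X → ℝ} (hs : 0 < nrm M s) : 0 < svol M s := by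
  rcases (svol_nonneg hM s).lt_or_eq with h | h
  · exact h
  · exfalso
    have h1 := (sum_eq_zero_iff_of_nonneg (fun u _ => by
      split_ifs
      exacts [le_rfl, hM.deg_nonneg u])).1 h.symm
    have : nrm M s = 0 := by
      refine sum_eq_zero fun u hu => ?_
      have := h1 u hu
      by_cases h2 : s u = 0
      · rw [h2]; ring
      · rw [if_neg h2] at this
        rw [this, zero_mul]
    linarith

/-- the logarithmic weight of a bump -/
noncomputable def lam (M : X → X → ℝ) (s : X → ℝ) : ℕ := Nat.log 2 ⌊tot M / svol M s⌋₊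

theorem log_le_natlog {x : ℝ} (hx : 2 ≤ x) : Real.log x ≤ 2 * Nat.log 2 ⌊x⌋₊ := by
  have h1 : x < (2 : ℝ) ^ (Nat.log 2 ⌊x⌋₊ + 1) := by
    have h2 := Nat.lt_pow_succ_log_self (b := 2) (by norm_num) ⌊x⌋₊
    have h3 : ((⌊x⌋₊ + 1 : ℕ) : ℝ) ≤ ((2 ^ (Nat.log 2 ⌊x⌋₊ + 1) : ℕ) : ℝ) := by
      exact_mod_cast h2
    have h4 := Nat.lt_floor_add_one x
    push_cast at h3
    linarith
  have h2 : Real.log x ≤ (Nat.log 2 ⌊x⌋₊ + 1 : ℕ) * Real.log 2 := by
    rw [← Real.log_pow]
    exact Real.log_le_log (by linarith) h1.le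
  have h3 : 1 ≤ Nat.log 2 ⌊x⌋₊ := by
    apply (Nat.le_log_iff_pow_le (by norm_num) _).2
    · rw [pow_one]; exact Nat.le_floor (by exact_mod_cast hx)
    · have : 2 ≤ ⌊x⌋₊ := Nat.le_floor (by exact_mod_cast hx)
      omega
  have h4 : Real.log 2 ≤ 1 := by
    have := Real.log_le_sub_one_of_pos (show (0 : ℝ) < 2 by norm_num)
    linarith
  have h5 : (1 : ℝ) ≤ Nat.log 2 ⌊x⌋₊ := by exact_mod_cast h3
  push_cast at h2
  nlinarith

/-- **extraction** -/
theorem exists_good (hM : IsForm M) {v : X} (hv : 0 < deg M v) {R L T r n : ℕ} (hR : 0 < R)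
    (hr : 1 ≤ r) (hn : (n : ℝ) ≤ 2 ^ L)
    (hheavy : tot M ≤ n ^ 2 * deg M v)
    (hN : 16 * r * deg M v ^ 2 < nrm M (heat M v T) * tot M)
    (hlog : 2 * L * Real.exp (-(T / (4 * R))) ≤ Real.log (4 * r)) :
    ∃ t < T, R * energy M (bump M v t) ≤ (min (lam M (bump M v t)) (2 * L) : ℕ) *
      nrm M (bump M v t) ∧ Nat.log 2 (4 * r) ≤ lam M (bump M v t) := by
  by_contra hcon
  push Not at hcon
  have hw0 := hM.tot_nonneg
  have hr' : (1 : ℝ) ≤ r := by exact_mod_cast hr
  have hD2 : 0 < deg M v ^ 2 := by positivity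
  have hwN : ∀ t ≤ T, 16 * r * deg M v ^ 2 < nrm M (heat M v t) * tot M := fun t ht =>
    hN.trans_le (mul_le_mul_of_nonneg_right (hM.nrm_heat_antitone v ht) hw0)
  have hwpos : 0 < tot M := by
    rcases hw0.lt_or_eq with h | h
    · exact h
    · rw [← h, mul_zero] at hN
      nlinarith
  have hNpos : ∀ t ≤ T, 0 < nrm M (heat M v t) := fun t ht => by
    have := hwN t ht
    by_contra h
    push Not at h
    nlinarith
  let x : ℕ → ℝ := fun t => nrm M (heat M v t) * tot M / (4 * deg M v ^ 2)
  have hx : ∀ t ≤ T, 4 * r < x t := fun t ht => by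
    have := hwN t ht
    rw [lt_div_iff₀ (by positivity)]
    nlinarith
  have hxv : ∀ t ≤ T, x t ≤ tot M / svol M (bump M v t) := fun t ht => by
    have h1 : 0 < nrm M (bump M v t) := by
      have := nrm_bump_ge hM hv t
      have := hNpos t ht
      linarith
    have h2 := svol_pos hM h1
    have h3 := svol_bump_le hM hv t
    rw [le_div_iff₀ h2]
    show nrm M (heat M v t) * tot M / (4 * deg M v ^ 2) * _ ≤ _
    rw [div_mul_eq_mul_div, div_le_iff₀ (by positivity)]
    nlinarith
  have hlam : ∀ t ≤ T, Nat.log 2 (4 * r) ≤ lam M (bump M v t) := fun t ht => by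
    refine Nat.log_mono_right ?_
    refine Nat.le_floor ?_
    push_cast
    exact (hx t ht).le.trans (hxv t ht)
  have hy0 : Real.log (x 0) ≤ 2 * L := by
    have h1 : x 0 ≤ (2 ^ L) ^ 2 := by
      show nrm M (heat M v 0) * tot M / (4 * deg M v ^ 2) ≤ _
      rw [nrm_heat_zero, div_le_iff₀ (by positivity)]
      have h2 : (n : ℝ) ^ 2 ≤ (2 ^ L) ^ 2 := by gcongr
      have h3 : tot M ≤ (2 ^ L) ^ 2 * deg M v :=
        hheavy.trans (mul_le_mul_of_nonneg_right h2 hv.le)
      have h4 : 0 ≤ (2 ^ L : ℝ) ^ 2 := by positivity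
      nlinarith
    have h2 : Real.log (x 0) ≤ Real.log ((2 ^ L) ^ 2) :=
      Real.log_le_log (by have := hx 0 (Nat.zero_le _); linarith) h1
    rw [← pow_mul, Real.log_pow] at h2
    have h4 : Real.log 2 ≤ 1 := by
      have := Real.log_le_sub_one_of_pos (show (0 : ℝ) < 2 by norm_num)
      linarith
    push_cast at h2
    have h5 : (0 : ℝ) ≤ L := by positivity
    nlinarith
  have hanti : ∀ t ≤ T, Real.log (x t) ≤ Real.log (x 0) := fun t ht => by
    refine Real.log_le_log (by have := hx t ht; linarith) ?_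
    have : nrm M (heat M v t) ≤ nrm M (heat M v 0) := hM.nrm_heat_antitone v (Nat.zero_le t)
    show nrm M (heat M v t) * tot M / _ ≤ nrm M (heat M v 0) * tot M / _
    gcongr
  have hR' : (0 : ℝ) < R := by exact_mod_cast hR
  have hstep : ∀ t < T, Real.log (x (t + 1)) ≤ Real.log (x t) * Real.exp (-(1 / (4 * R))) := by
    intro t ht
    have h1 : (min (lam M (bump M v t)) (2 * L) : ℕ) * nrm M (bump M v t) <
        R * energy M (bump M v t) := by
      by_contra h
      push Not at h
      exact absurd (hlam t ht.le) (not_le.2 (hcon t ht h))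
    have h2 : energy M (bump M v t) ≤ energy M (heat M v t) := energy_trunc_le hM _ _
    have h3 := hM.nrm_heat_succ v t
    have h4 := nrm_bump_ge hM hv t
    set Λ : ℝ := ((min (lam M (bump M v t)) (2 * L) : ℕ) : ℝ) with hΛ
    have hΛ0 : 0 ≤ Λ := by positivity
    have h5 : nrm M (heat M v (t + 1)) ≤ nrm M (heat M v t) * (1 - Λ / (2 * R)) := by
      have h6 : Λ * (nrm M (heat M v t) / 2) ≤ R * energy M (bump M v t) :=
        (mul_le_mul_of_nonneg_left h4 hΛ0).trans h1.le
      have h7 : Λ * (nrm M (heat M v t) / 2) / R ≤ energy M (bump M v t) := by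
        rw [div_le_iff₀ hR']
        linarith
      have h8 : nrm M (heat M v t) * (1 - Λ / (2 * R)) =
          nrm M (heat M v t) - Λ * (nrm M (heat M v t) / 2) / R := by
        field_simp
      rw [h8]
      linarith
    have h6 : 1 - Λ / (2 * R) ≤ Real.exp (-(Λ / (2 * R))) := by
      have := Real.add_one_le_exp (-(Λ / (2 * R)))
      linarith
    have h7 : nrm M (heat M v (t + 1)) ≤ nrm M (heat M v t) * Real.exp (-(Λ / (2 * R))) :=
      h5.trans (mul_le_mul_of_nonneg_left h6 (hM.nrm_nonneg _))
    have h8 : x (t + 1) ≤ x t * Real.exp (-(Λ / (2 * R))) := by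
      show nrm M (heat M v (t + 1)) * tot M / _ ≤ nrm M (heat M v t) * tot M / _ * _
      rw [div_mul_eq_mul_div]
      refine div_le_div_of_nonneg_right ?_ (by positivity)
      nlinarith
    have hxt := hx t ht.le
    have h9 : Real.log (x (t + 1)) ≤ Real.log (x t) - Λ / (2 * R) := by
      have h10 := Real.log_le_log (by have := hx (t + 1) ht; linarith) h8
      rw [Real.log_mul (by linarith) (Real.exp_pos _).ne', Real.log_exp] at h10
      linarith
    have h10 : Real.log (x t) / 2 ≤ Λ := by
      rw [hΛ]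
      rcases min_cases (lam M (bump M v t)) (2 * L) with ⟨h, _⟩ | ⟨h, _⟩
      · rw [h]
        have h11 := log_le_natlog (x := x t) (by linarith)
        have h12 : (Nat.log 2 ⌊x t⌋₊ : ℝ) ≤ lam M (bump M v t) := by
          exact_mod_cast Nat.log_mono_right (Nat.floor_le_floor (hxv t ht.le))
        linarith
      · rw [h]
        have := hanti t ht.le
        push_cast
        have h5 : (0 : ℝ) ≤ L := by positivity
        linarith
    have h11 : 1 - 1 / (4 * R) ≤ Real.exp (-(1 / (4 * (R : ℝ)))) := by
      have := Real.add_one_le_exp (-(1 / (4 * (R : ℝ))))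
      linarith
    have h12 : 0 ≤ Real.log (x t) := Real.log_nonneg (by linarith)
    refine h9.trans ?_
    have h13 : Real.log (x t) * (1 - 1 / (4 * R)) ≤
        Real.log (x t) * Real.exp (-(1 / (4 * (R : ℝ)))) := mul_le_mul_of_nonneg_left h11 h12
    have h14 : Real.log (x t) * (1 - 1 / (4 * R)) =
        Real.log (x t) - Real.log (x t) / 2 / (2 * R) := by
      field_simp
      ring
    have h15 : Real.log (x t) / 2 / (2 * R) ≤ Λ / (2 * R) :=
      div_le_div_of_nonneg_right h10 (by positivity)
    linarith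
  have hall : ∀ t ≤ T, Real.log (x t) ≤ Real.log (x 0) * Real.exp (-(t / (4 * R))) := by
    intro t
    induction t with
    | zero => intro _; simp
    | succ t ih =>
      intro ht
      refine (hstep t ht).trans ?_
      refine (mul_le_mul_of_nonneg_right (ih (by omega)) (Real.exp_pos _).le).trans ?_
      rw [mul_assoc, ← Real.exp_add]
      refine le_of_eq ?_
      congr 2
      push_cast
      ring
  have h1 := hall T le_rfl
  have h2 : Real.log (4 * r) < Real.log (x T) := Real.log_lt_log (by positivity) (hx T le_rfl)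
  have h3 : Real.log (x 0) * Real.exp (-(T / (4 * R))) ≤ 2 * L * Real.exp (-(T / (4 * R))) :=
    mul_le_mul_of_nonneg_right hy0 (Real.exp_pos _).le
  linarith

end Vale.Agent.P325
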