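import Vale.Agent.P325.Form

/-!
# The filter `1 - (1 - P^T)^S` as a linear map
-/

namespace Vale.Agent.P325

open Finset

variable {X : Type*} [Fintype X]

/-- the filter `1 - (1 - P^T)^S'` applied to `h`, where `P = walk M` -/
noncomputable def filt (M : X → X → ℝ) (T S' : ℕ) (h : X → ℝ) : X → ℝ := fun x =>
  h x - ((fun g y => g y - (walk M)^[T] g y)^[S'] h) x

/-- the walk as a linear map -/
noncomputable def walkL (M : X → X → ℝ) : Module.End ℝ (X → ℝ) where
  toFun := walk M
  map_add' h g := by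
    funext x
    simp only [walk, Pi.add_apply, mul_add, sum_add_distrib, add_div]
  map_smul' c h := by
    funext x
    simp only [walk, Pi.smul_apply, smul_eq_mul, RingHom.id_apply]
    rw [← mul_div_assoc, mul_sum]
    congr 1
    exact sum_congr rfl fun y _ => by ring

@[simp] theorem walkL_apply (M : X → X → ℝ) (h : X → ℝ) : walkL M h = walk M h := rfl

theorem walkL_pow_apply (M : X → X → ℝ) (T : ℕ) (h : X → ℝ) :
    (walkL M ^ T) h = (walk M)^[T] h := by
  rw [Module.End.pow_apply]
  rfl

/-- the filter as a linear map -/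
noncomputable def filtL (M : X → X → ℝ) (T S' : ℕ) : Module.End ℝ (X → ℝ) :=
  1 - (1 - walkL M ^ T) ^ S'

theorem one_sub_pow_apply (M : X → X → ℝ) (T S' : ℕ) (h : X → ℝ) :
    ((1 - walkL M ^ T) ^ S') h = (fun g y => g y - (walk M)^[T] g y)^[S'] h := by
  rw [Module.End.pow_apply]
  have : ((1 - walkL M ^ T : Module.End ℝ (X → ℝ)) : (X → ℝ) → (X → ℝ)) =
      fun g y => g y - (walk M)^[T] g y := by
    funext g y
    rw [LinearMap.sub_apply, Module.End.one_apply, walkL_pow_apply, Pi.sub_apply]
  rw [this]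

theorem filtL_apply (M : X → X → ℝ) (T S' : ℕ) (h : X → ℝ) : filtL M T S' h = filt M T S' h := by
  unfold filtL
  rw [LinearMap.sub_apply, Module.End.one_apply, one_sub_pow_apply]
  rfl

theorem filt_add (M : X → X → ℝ) (T S' : ℕ) (h g : X → ℝ) :
    filt M T S' (h + g) = filt M T S' h + filt M T S' g := by
  simp only [← filtL_apply, map_add]

theorem filt_sub (M : X → X → ℝ) (T S' : ℕ) (h g : X → ℝ) :
    filt M T S' (h - g) = filt M T S' h - filt M T S' g := by
  simp only [← filtL_apply, map_sub]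

theorem filt_smul (M : X → X → ℝ) (T S' : ℕ) (c : ℝ) (h : X → ℝ) :
    filt M T S' (c • h) = c • filt M T S' h := by
  simp only [← filtL_apply, map_smul]

theorem filt_sum {ι : Type*} (M : X → X → ℝ) (T S' : ℕ) (s : Finset ι) (h : ι → X → ℝ) :
    filt M T S' (∑ i ∈ s, h i) = ∑ i ∈ s, filt M T S' (h i) := by
  simp only [← filtL_apply, map_sum]

end Vale.Agent.P325
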