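import Vale.Agent.P325.Param
import Vale.Agent.P325.AlgSpec3

/-!
# The constants of the algorithm
-/

namespace Vale.Agent.P325

open Finset

/-- the constants -/
def mkCst (k q k1 k2 : ℕ) : Alg.Cst where
  k := k
  q := q
  k1 := k1
  k2 := k2
  n0 := 2 ^ (16 * k1 + 8) + 72 * k2
  cq := Nat.log 2 (8 * q) + 1
  L0 := Nat.size (72 * k2)
  CS := 1152 * k2 * Nat.size (72 * k2) ^ 2
  C := (5 * q + k) * (1152 * k2 * Nat.size (72 * k2) ^ 2) +
    (35 * q * (16 * q * k1) + 5 * q + 4)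

theorem exists_params : ∃ c0 : ℝ, 0 < c0 ∧ ∀ (k q : ℕ) (κ : ℝ), 2 ≤ k → 1 ≤ q → 0 < κ → κ ≤ 1 →
    ∃ (c : Alg.Cst) (η : ℝ), c.k = k ∧ c.q = q ∧ 1 ≤ c.k1 ∧ 1 ≤ c.k2 ∧
      4 / Real.sqrt c.k1 + 4 / c.k2 < κ ∧ 0 < η ∧ η ≤ 1 ∧ 1 ≤ c.n0 ∧
      ∀ n r B : ℕ, c.n0 ≤ n → n ≤ r ^ (4 * q) → r ≤ n → (∀ r' < r, r' ^ (4 * q) < n) →
        c.C * r ^ 4 < Nat.size B →
        Ok (prm (Alg.nums c n r B)) q c.k1 ∧ 0 < (Alg.nums c n r B).S ∧ 1 ≤ r ∧
        2 * ((Alg.nums c n r B).L : ℝ) *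
          Real.exp (-((Alg.nums c n r B).T / (4 * (Alg.nums c n r B).R))) ≤
            Real.log (4 * r) ∧
        1 / (r : ℝ) ≤ (1 - η) ^ (Alg.nums c n r B).T ∧
        2 * (Alg.nums c n r B).L * (4 * n ^ 5) ^ (Alg.nums c n r B).J + 1 < B ∧
        (n * k) ^ (Alg.nums c n r B).S ≤ B ∧ n ≤ B ∧ r < B ∧
        2 * c.k2 * ((1 + 12 / η) * (c0 * κ ^ 3 / (q * (1 + Real.log q))) / 4 +
          6 * (16 * r * (Alg.nums c n r B).S' ^ 2 / (Alg.nums c n r B).S + 1 / n +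
            Real.exp (-(2 * ((Alg.nums c n r B).S' / r : ℝ))))) ≤ 1 := by
  refine ⟨1 / (3 * 10 ^ 8), by norm_num, ?_⟩
  intro k q κ hk hq hκ hκ1
  obtain ⟨k1, k2, hk1, hk2, hk12, hk1', hk2'⟩ := exists_k1_k2 hκ hκ1
  set c := mkCst k q k1 k2 with hc
  set η : ℝ := 1 / (100 * q * (32 * k1) * (Nat.log 2 (8 * q) + 1 : ℕ)) with hη
  have hqR : (1 : ℝ) ≤ q := by exact_mod_cast hq
  have hk1R : (1 : ℝ) ≤ k1 := by exact_mod_cast hk1
  have hk2R : (1 : ℝ) ≤ k2 := by exact_mod_cast hk2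
  have hη0 : 0 < η := by rw [hη]; positivity
  have hη1 : η ≤ 1 := by
    rw [hη]
    rw [div_le_one (by positivity)]
    have h1 : (1 : ℝ) ≤ (Nat.log 2 (8 * q) + 1 : ℕ) := by
      exact_mod_cast Nat.le_add_left 1 _
    have h2 : (1 : ℝ) ≤ q * k1 := by nlinarith
    have h3 : (1 : ℝ) ≤ q * k1 * (Nat.log 2 (8 * q) + 1 : ℕ) := by nlinarith
    linarith
  have hn0 : 1 ≤ c.n0 := by
    show 1 ≤ 2 ^ (16 * k1 + 8) + 72 * k2
    have := Nat.one_le_two_pow (n := 16 * k1 + 8)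
    omega
  refine ⟨c, η, rfl, rfl, hk1, hk2, hk12, hη0, hη1, hn0, ?_⟩
  intro n r B hn hnr hrn hrmin hB
  set P := Alg.nums c n r B with hP
  have hn' : 2 ^ (16 * k1 + 8) + 72 * k2 ≤ n := hn
  have hok : Ok (prm P) q k1 :=
    Ok.mk' rfl rfl hq hk1 hnr hrn rfl rfl (le_trans (Nat.le_add_right _ _) hn')
  have hT : (prm P).T = 4 * (prm P).R * (Nat.log 2 (8 * q) + 1) := rfl
  have h2B : 2 ^ (c.C * r ^ 4) ≤ B := Nat.lt_size.1 hB
  have hlog := hok.hlog rfl hT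
  have heta := hok.eta rfl hT hη
  have hdel := hok.delta (k2 := k2) (S' := P.S') (S := P.S) hk2 rfl rfl rfl rfl
    (le_trans (Nat.le_add_left _ _) hn')
  have hcert : (n * k) ^ P.S ≤ 2 ^ (c.C * r ^ 4) :=
    hok.cert (k := k) (N := n) (CS := 1152 * k2 * Nat.size (72 * k2) ^ 2) (S := P.S)
      (C := c.C) le_rfl rfl (Nat.le_add_right _ _)
  have hsteps : 2 * P.L * (4 * n ^ 5) ^ P.J + 2 ≤ 2 ^ (c.C * r ^ 4) :=
    hok.steps (C := c.C) (Nat.le_add_left _ _)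
  have hnB : n < B := by
    have h1 : n ≤ (4 * n ^ 5) ^ P.J := by
      have h2 : n ≤ 4 * n ^ 5 := by
        calc n ≤ n ^ 5 := Nat.le_self_pow (by norm_num) n
          _ ≤ 4 * n ^ 5 := Nat.le_mul_of_pos_left _ (by norm_num)
      exact h2.trans (Nat.le_self_pow hok.J_pos.ne' _)
    have hL : 1 ≤ P.L := hok.L_pos
    have h3 : (4 * n ^ 5) ^ P.J ≤ 2 * P.L * (4 * n ^ 5) ^ P.J :=
      Nat.le_mul_of_pos_left _ (by omega)
    omega
  refine ⟨hok, hdel.1, hok.r_pos, hlog, heta.2.2, by omega, hcert.trans h2B, hnB.le,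
    by omega, ?_⟩
  -- the final inequality
  have hlogq : 0 ≤ Real.log q := Real.log_nonneg hqR
  have heps : 1 / (3 * 10 ^ 8) * κ ^ 3 / (q * (1 + Real.log q)) ≤ η / (13 * k2) := by
    refine eps_le hκ hq hk1 hk2 hk1' hk2' rfl ?_
    have h16 : Real.log (16 * q) ≤ 3 * (1 + Real.log q) := by
      rw [Real.log_mul (by norm_num) (by linarith)]
      have h1 : Real.log 16 ≤ 3 := by
        rw [show (16 : ℝ) = 2 ^ 4 by norm_num, Real.log_pow]
        have := Real.log_two_lt_d9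
        push_cast
        linarith
      linarith
    have hlogpos : 0 < Real.log (16 * q) := Real.log_pos (by linarith)
    rw [one_div_mul_eq_div, div_div]
    refine div_le_div_of_nonneg_left (by positivity) (by positivity) ?_
    calc (10 : ℝ) ^ 8 * q * Real.log (16 * q) ≤ 10 ^ 8 * q * (3 * (1 + Real.log q)) :=
          mul_le_mul_of_nonneg_left h16 (by positivity)
      _ = _ := by ring
  set ε : ℝ := 1 / (3 * 10 ^ 8) * κ ^ 3 / (q * (1 + Real.log q)) with hε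
  set δ : ℝ := 16 * (r : ℝ) * P.S' ^ 2 / P.S + 1 / n + Real.exp (-(2 * (P.S' / r : ℝ))) with hδ
  have hdel2 : δ ≤ 1 / (24 * k2) := hdel.2
  have h5 : (1 + 12 / η) * ε ≤ 1 / k2 := by
    calc (1 + 12 / η) * ε ≤ (1 + 12 / η) * (η / (13 * k2)) :=
          mul_le_mul_of_nonneg_left heps (by positivity)
      _ = (η + 12) / (13 * k2) := by field_simp
      _ ≤ 13 / (13 * k2) := div_le_div_of_nonneg_right (by linarith) (by positivity)
      _ = 1 / k2 := by field_simp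
  show 2 * (k2 : ℝ) * ((1 + 12 / η) * ε / 4 + 6 * δ) ≤ 1
  calc 2 * (k2 : ℝ) * ((1 + 12 / η) * ε / 4 + 6 * δ) ≤
      2 * k2 * (1 / k2 / 4 + 6 * (1 / (24 * k2))) := by
        refine mul_le_mul_of_nonneg_left ?_ (by positivity)
        have := div_le_div_of_nonneg_right h5 (by norm_num : (0 : ℝ) ≤ 4)
        linarith
    _ = 1 := by field_simp; norm_num

end Vale.Agent.P325
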