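import Vale.Agent.P319.TM.H150.While
import Vale.Agent.Lib.PolyTime.NatArith

/-!
# From a padded algorithm to one Turing machine

An algorithm which is given a padding of length `2 ^ j` and may give up is run with
`j = 0, 1, 2, …` until it gives an answer.
-/

namespace Vale.Agent.P325

open Vale.Agent.Lib.PolyTime Turing Function

/-- the padding of round `j` -/
def pad (j : ℕ) : Word := List.replicate (2 ^ j) true

theorem length_pad (j : ℕ) : (pad j).length = 2 ^ j := by simp [pad]

theorem pad_succ (j : ℕ) : pad j ++ pad j = pad (j + 1) := by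
  unfold pad
  rw [List.replicate_append_replicate]
  congr 1
  rw [pow_succ]
  ring

/-- **One Turing machine for a padded algorithm.** The algorithm `G`, computable in polynomial time
(the padding counted in the input), is run with paddings of lengths `1, 2, 4, …` until it gives an
answer; the running time is polynomial in the length of the input and in `B`, if the padding of
some length at most `B` is sufficient. -/
theorem exists_search_tm {α β : Type} [Enc α] [Enc β] {G : α × Raw → Option β} (hG : PT ∅ G) :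
    ∃ (M : TM2ComputableAux Bool Bool) (c : ℕ), (∀ k, Finite (M.tm.Γ k)) ∧
      ∀ (a : α) (B j₀ : ℕ), 2 ^ j₀ ≤ B → G (a, Raw.mk (pad j₀)) ≠ none →
        ∃ (y : β) (j : ℕ), j ≤ j₀ ∧ G (a, Raw.mk (pad j)) = some y ∧
          (∀ i < j, G (a, Raw.mk (pad i)) = none) ∧
          Nonempty (TM2OutputsInTime M.tm ((enc a).map M.inputAlphabet.invFun)
            (some ((enc y).map M.outputAlphabet.invFun)) (((enc a).length + B + 2) ^ c)) := by
  obtain ⟨g, hg, hg'⟩ := hG
  -- doubling of the padding
  have hd : PT ∅ (fun s : α × Raw => (s.1, Raw.mk (s.2.w ++ s.2.w))) := by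
    refine PT.fst'.pair ?_
    exact ⟨fun x => sndW x ++ sndW x, FP.append FP.snd FP.snd, fun s => by
      rw [enc_pair]
      show sndW (pr _ _) ++ sndW (pr _ _) = _
      rw [sndW_pr]; rfl⟩
  obtain ⟨d, hdF, hd'⟩ := hd
  let h : Word → Word := fun z => case3 (g z.tail) (false :: d z.tail) [] (g z.tail)
  let i : Word → Word := fun x => false :: pr x [true]
  have hgt : FP ∅ (fun z => g z.tail) := hg.comp FP.tail
  have hdt : FP ∅ (fun z => false :: d z.tail) := (FP.cons false).comp (hdF.comp FP.tail)
  have hh : FP ∅ h := hgt.case3 hdt FP.nil hgt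
  have hi : FP ∅ i := (FP.cons false).comp (FP.id.pair (FP.const [true]))
  obtain ⟨P, cP, hP⟩ := P319.TM.exists_search hh hi FP.tail
  obtain ⟨T, hT, hTm, hTl⟩ := hh.length_le
  obtain ⟨C, M, hM, hM'⟩ := P319.TM.exists_tm2_on P
  -- the bound
  have hPB : PB (fun n => C * (n + (n + 2) * pb cP (2 * n + 2 + T (2 * n + 2)) + 1)) :=
    (PB.const C).mul ((PB.id.add ((PB.id.add (PB.const 2)).mul ((PB.pb cP).comp
      ((((PB.const 2).mul PB.id).add (PB.const 2)).add
        (hT.comp (((PB.const 2).mul PB.id).add (PB.const 2))))))).add (PB.const 1))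
  obtain ⟨c, hc⟩ := PB.exists_pb (hPB.comp (((PB.const 2).mul PB.id).add (PB.const 1)))
  refine ⟨M, c, hM, ?_⟩
  intro l B j₀ hjB hj₀
  set x : Word := enc l with hx
  -- the rounds
  have hex : ∃ j, G (l, Raw.mk (pad j)) ≠ none := ⟨j₀, hj₀⟩
  classical
  set N := Nat.find hex with hN
  have hN1 : G (l, Raw.mk (pad N)) ≠ none := Nat.find_spec hex
  have hN2 : ∀ j < N, G (l, Raw.mk (pad j)) = none := fun j hj => by
    have := Nat.find_min hex hj
    push Not at this
    exact this
  have hNj : N ≤ j₀ := Nat.find_min' hex hj₀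
  have hNB : 2 ^ N ≤ B := (Nat.pow_le_pow_right (by norm_num) hNj).trans hjB
  obtain ⟨r, hL3⟩ := Option.ne_none_iff_exists'.1 hN1
  -- iterates
  have hstep : ∀ j, G (l, Raw.mk (pad j)) = none →
      h (false :: enc (l, Raw.mk (pad j))) = false :: enc (l, Raw.mk (pad (j + 1))) := by
    intro j hj
    show case3 (g (enc (l, Raw.mk (pad j)))) (false :: d (enc (l, Raw.mk (pad j)))) [] _ = _
    rw [hg', hj, enc_none, case3_nil, hd']
    dsimp only
    rw [pad_succ]
  have hiter : ∀ j, j ≤ N → h^[j] (i x) = false :: enc (l, Raw.mk (pad j)) := by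
    intro j
    induction j with
    | zero => intro _; rfl
    | succ j ih =>
      intro hj
      rw [iterate_succ_apply', ih (by omega), hstep j (hN2 j (by omega))]
  have hlast : h^[N + 1] (i x) = true :: enc r := by
    rw [iterate_succ_apply', hiter N le_rfl]
    show case3 (g (enc (l, Raw.mk (pad N)))) (false :: d (enc (l, Raw.mk (pad N)))) []
      (g (enc (l, Raw.mk (pad N)))) = _
    rw [hg', hL3, enc_some, case3_true]
  set n := x.length + 2 ^ N with hn
  have hxn : x.length ≤ n := Nat.le_add_right _ _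
  have hlen : ∀ j ≤ N, (h^[j] (i x)).length ≤ 2 * n + 2 := by
    intro j hj
    rw [hiter j hj, enc_pair]
    have h1 : (2 : ℕ) ^ j ≤ 2 ^ N := Nat.pow_le_pow_right (by omega) hj
    have h2 : (enc (Raw.mk (pad j))).length = 2 ^ j := length_pad j
    rw [List.length_cons, length_pr, h2]
    have h3 : (enc l).length = x.length := rfl
    omega
  have hlen' : ∀ j ≤ N + 1, (h^[j] (i x)).length ≤ 2 * n + 2 + T (2 * n + 2) := by
    intro j hj
    rcases Nat.lt_or_ge j (N + 1) with h1 | h1
    · exact (hlen j (by omega)).trans (Nat.le_add_right _ _)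
    · have : j = N + 1 := by omega
      rw [this, iterate_succ_apply']
      exact ((hTl _).trans (hTm (hlen N le_rfl))).trans (Nat.le_add_left _ _)
  obtain ⟨t, s, he, ht, hs⟩ := hP x (N + 1) (2 * n + 2 + T (2 * n + 2)) (by omega)
    (fun j hj1 hj2 => by rw [hiter j (by omega)]; simp)
    (by rw [hlast]; rfl) (by omega) hlen'
  rw [hlast, List.tail_cons] at hs
  refine ⟨r, N, hNj, hL3, hN2, ?_⟩
  have hfin := hM' x (enc r) t ⟨t, s, he, le_rfl, hs⟩
  obtain ⟨⟨ev, hev⟩⟩ := hfin
  refine ⟨⟨ev, hev.trans ?_⟩⟩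
  -- time
  have e1 : N < 2 ^ N := Nat.lt_two_pow_self
  have e2 : C * (x.length + t + 1) ≤
      C * (n + (n + 2) * pb cP (2 * n + 2 + T (2 * n + 2)) + 1) := by
    refine Nat.mul_le_mul_left C ?_
    have : (N + 1 + 1) * pb cP (2 * n + 2 + T (2 * n + 2)) ≤
        (n + 2) * pb cP (2 * n + 2 + T (2 * n + 2)) := Nat.mul_le_mul_right _ (by omega)
    omega
  refine e2.trans ?_
  set H : ℕ → ℕ := fun n => C * (n + (n + 2) * pb cP (2 * n + 2 + T (2 * n + 2)) + 1) with hH
  have hmono : Monotone H := by
    intro a b hab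
    simp only [hH]
    refine Nat.mul_le_mul_left C ?_
    have h1 : T (2 * a + 2) ≤ T (2 * b + 2) := hTm (by omega)
    have h2 : pb cP (2 * a + 2 + T (2 * a + 2)) ≤ pb cP (2 * b + 2 + T (2 * b + 2)) :=
      pb_mono _ (by omega)
    have h3 := Nat.mul_le_mul (show a + 2 ≤ b + 2 by omega) h2
    omega
  have e3 : n ≤ 2 * (x.length + B) + 1 := by omega
  exact (hmono e3).trans (hc (x.length + B))

end Vale.Agent.P325
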