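import Vale.Agent.P325.AlgSpec2

/-!
# Parsing
-/

namespace Vale.Agent.P325

open Alg

/-- the numbers coding an instance with `n` vertices -/
def codeL {n k : ℕ} (E : List (Con (Fin n) k)) : List ℕ :=
  n :: E.flatMap fun c => (c.1 : ℕ) :: (c.2.1 : ℕ) :: List.ofFn fun i => (c.2.2 i : ℕ)

theorem drop_blocks {α : Type*} (w : ℕ) (bs : List (List α)) (h : ∀ b ∈ bs, b.length = w)
    (i : ℕ) : bs.flatten.drop (i * w) = (bs.drop i).flatten := by
  induction i generalizing bs with
  | zero => simp
  | succ i ih =>
    cases bs with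
    | nil => simp
    | cons b bs =>
      rw [List.drop_succ_cons, ← ih bs fun b' hb' => h b' (List.mem_cons_of_mem _ hb'),
        List.flatten_cons, Nat.succ_mul, Nat.add_comm (i * w) w, ← List.drop_drop]
      congr 1
      have := h b List.mem_cons_self
      rw [← this, List.drop_left]

variable {n k : ℕ}

theorem length_codeL (E : List (Con (Fin n) k)) :
    (codeL E).length = E.length * (k + 2) + 1 := by
  unfold codeL
  rw [List.length_cons]
  congr 1
  induction E with
  | nil => simp
  | cons c E ih =>
    rw [List.flatMap_cons, List.length_append, ih]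
    simp
    ring

theorem parseM_eq (E : List (Con (Fin n) k)) : parseM k (codeL E) = E.length := by
  unfold parseM
  rw [length_codeL, Nat.add_sub_cancel]
  exact Nat.mul_div_cancel _ (by omega)

theorem drop_codeL (E : List (Con (Fin n) k)) (i : ℕ) (hi : i < E.length) :
    ∃ rest, (codeL E).drop (1 + i * (k + 2)) =
      ((E[i].1 : ℕ) :: (E[i].2.1 : ℕ) :: (List.ofFn fun j => (E[i].2.2 j : ℕ))) ++ rest := by
  unfold codeL
  rw [Nat.add_comm 1, List.drop_succ_cons, List.flatMap_def, drop_blocks (k + 2)]
  · rw [← List.map_drop, List.drop_eq_getElem_cons hi, List.map_cons, List.flatten_cons]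
    exact ⟨_, rfl⟩
  · intro b hb
    rw [List.mem_map] at hb
    obtain ⟨c, _, rfl⟩ := hb
    simp

theorem parseC_eq (E : List (Con (Fin n) k)) :
    parseC k (codeL E) = conL (Equiv.refl (Fin n)) E := by
  unfold parseC
  rw [parseM_eq]
  refine List.ext_getElem (by simp [conL]) fun i h1 h2 => ?_
  have hi : i < E.length := by simpa using h1
  obtain ⟨rest, hr⟩ := drop_codeL E i hi
  have e1 : gt (codeL E) (1 + i * (k + 2)) = (E[i].1 : ℕ) := by
    unfold gt
    rw [List.getD_eq_getElem?_getD, ← List.head?_drop, hr]
    rfl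
  have e2 : gt (codeL E) (2 + i * (k + 2)) = (E[i].2.1 : ℕ) := by
    unfold gt
    have : 2 + i * (k + 2) = (1 + i * (k + 2)) + 1 := by ring
    rw [List.getD_eq_getElem?_getD, ← List.head?_drop, this, ← List.drop_drop, hr]
    rfl
  have e3 : ((codeL E).drop (3 + i * (k + 2))).take k =
      List.ofFn fun j => (E[i].2.2 j : ℕ) := by
    have : 3 + i * (k + 2) = (1 + i * (k + 2)) + 2 := by ring
    rw [this, ← List.drop_drop, hr, List.cons_append, List.cons_append, List.drop_succ_cons,
      List.drop_succ_cons, List.drop_zero, List.take_append_of_le_length (by simp),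
      List.take_of_length_le (by simp)]
  simp only [List.getElem_map, List.getElem_range, e1, e2, e3, conL]
  rfl

end Vale.Agent.P325
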