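import Mathlib.Analysis.SpecialFunctions.Log.Base
import Vale.Agent.P325.Parse
import Vale.Agent.Lib.PolyTime.Lists

/-!
# The bound for the running time
-/

namespace Vale.Agent.P325

open Vale.Agent.Lib.PolyTime

/-- length of the code of an instance -/
theorem esize_codeL_le {n k : ℕ} (E : List (Con (Fin n) k)) :
    esize (codeL E) ≤ (n + E.length + k + 2) ^ 4 := by
  have h1 : ∀ x ∈ codeL E, esize x ≤ n + k := by
    intro x hx
    refine (esize_nat_le_self x).trans ?_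
    unfold codeL at hx
    rw [List.mem_cons, List.mem_flatMap] at hx
    rcases hx with rfl | ⟨c, _, hc⟩
    · omega
    · rw [List.mem_cons, List.mem_cons, List.mem_ofFn] at hc
      rcases hc with rfl | rfl | ⟨i, rfl⟩
      · exact c.1.2.le.trans (Nat.le_add_right _ _)
      · exact c.2.1.2.le.trans (Nat.le_add_right _ _)
      · exact (c.2.2 i).2.le.trans (Nat.le_add_left _ _)
  refine (esize_list_le h1).trans ?_
  rw [length_codeL]
  set a := n + E.length + k + 2 with ha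
  have h2 : E.length * (k + 2) + 1 ≤ a * a := by
    have : (E.length + 1) * (k + 2) ≤ a * a := Nat.mul_le_mul (by omega) (by omega)
    nlinarith
  have h3 : 2 * (n + k) + 1 ≤ a * a := by
    have : 2 * a ≤ a * a := Nat.mul_le_mul_right a (by omega)
    omega
  calc (E.length * (k + 2) + 1) * (2 * (n + k) + 1) ≤ (a * a) * (a * a) := Nat.mul_le_mul h2 h3
    _ = a ^ 4 := by ring

/-- the least `r` with `n ≤ r ^ (4 q)` has `r ^ 4 = O (n ^ (1/q))` -/
theorem r4_le {n r q : ℕ} (hq : 1 ≤ q) (hn : 1 ≤ n) (hr : ∀ r' < r, r' ^ (4 * q) < n) :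
    (r : ℝ) ^ 4 ≤ 16 * (n : ℝ) ^ (1 / (q : ℝ)) := by
  have hn1 : (1 : ℝ) ≤ (n : ℝ) ^ (1 / (q : ℝ)) :=
    Real.one_le_rpow (by exact_mod_cast hn) (by positivity)
  rcases Nat.lt_or_ge r 2 with h | h
  · have : (r : ℝ) ≤ 1 := by exact_mod_cast Nat.lt_succ_iff.1 h
    have h2 : (r : ℝ) ^ 4 ≤ 1 := pow_le_one₀ (by positivity) this
    linarith
  · obtain ⟨s, rfl⟩ : ∃ s, r = s + 1 := ⟨r - 1, by omega⟩
    have h1 := hr s (by omega)
    have h2 : ((s : ℝ) ^ 4) ^ q ≤ n := by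
      rw [← pow_mul]
      exact_mod_cast h1.le
    have h3 : (s : ℝ) ^ 4 ≤ (n : ℝ) ^ (1 / (q : ℝ)) := by
      have h4 := Real.rpow_le_rpow (by positivity) h2 (by positivity : (0 : ℝ) ≤ 1 / (q : ℝ))
      rwa [← Real.rpow_natCast ((s : ℝ) ^ 4) q, ← Real.rpow_mul (by positivity), mul_one_div,
        div_self (by positivity), Real.rpow_one] at h4
    have h5 : ((s + 1 : ℕ) : ℝ) ≤ 2 * s := by
      have : (1 : ℝ) ≤ s := by exact_mod_cast (show 1 ≤ s by omega)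
      push_cast
      linarith
    calc (((s + 1 : ℕ) : ℝ)) ^ 4 ≤ (2 * s) ^ 4 := pow_le_pow_left₀ (by positivity) h5 4
      _ = 16 * (s : ℝ) ^ 4 := by ring
      _ ≤ _ := by linarith

/-- logarithms are small -/
theorem logb_le_rpow {q s K : ℕ} (hq : 1 ≤ q) (hs : 1 ≤ s) :
    Real.logb 2 (s + K : ℕ) ≤ (2 * q + K) * (s : ℝ) ^ (1 / (q : ℝ)) := by
  have hs0 : (0 : ℝ) < s := by exact_mod_cast hs
  have hn1 : (1 : ℝ) ≤ (s : ℝ) ^ (1 / (q : ℝ)) :=
    Real.one_le_rpow (by exact_mod_cast hs) (by positivity)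
  have hq0 : (0 : ℝ) < q := by exact_mod_cast hq
  have h1 : ((s + K : ℕ) : ℝ) ≤ s * 2 ^ K := by
    have h2 : (K + 1 : ℕ) ≤ 2 ^ K := Nat.lt_two_pow_self
    have h3 : s + K ≤ s * (K + 1) := by nlinarith
    exact_mod_cast h3.trans (Nat.mul_le_mul_left s h2)
  have h2 : Real.logb 2 ((s + K : ℕ) : ℝ) ≤ Real.logb 2 s + K := by
    refine (Real.logb_le_logb_of_le (by norm_num) (by positivity) h1).trans ?_
    rw [Real.logb_mul hs0.ne' (by positivity), Real.logb_pow, Real.logb_self_eq_one (by norm_num)]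
    simp
  have h3 : Real.logb 2 s ≤ 2 * q * (s : ℝ) ^ (1 / (q : ℝ)) := by
    have h4 := Real.log_le_rpow_div hs0.le (by positivity : (0 : ℝ) < 1 / (q : ℝ))
    have h5 : (s : ℝ) ^ (1 / (q : ℝ)) / (1 / (q : ℝ)) = q * (s : ℝ) ^ (1 / (q : ℝ)) := by
      field_simp
    rw [h5] at h4
    have h6 : (1 : ℝ) / 2 ≤ Real.log 2 := by
      have := Real.one_sub_inv_le_log_of_pos (x := 2) (by norm_num)
      norm_num at this ⊢
      linarith
    rw [Real.logb, div_le_iff₀ (by linarith)]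
    nlinarith [mul_nonneg hq0.le (by linarith : (0 : ℝ) ≤ (s : ℝ) ^ (1 / (q : ℝ)))]
  have h7 : (K : ℝ) ≤ K * (s : ℝ) ^ (1 / (q : ℝ)) :=
    le_mul_of_one_le_right (by positivity) hn1
  calc _ ≤ _ := h2
    _ ≤ 2 * q * (s : ℝ) ^ (1 / (q : ℝ)) + K * (s : ℝ) ^ (1 / (q : ℝ)) := add_le_add h3 h7
    _ = _ := by ring

/-- the final time bound -/
theorem time_le (q c d K C n0 : ℕ) (hq : 1 ≤ q) : ∃ C2 : ℕ, ∀ s len r B : ℕ, 1 ≤ s →
    len ≤ (s + K) ^ d → B ≤ 2 ^ (C * r ^ 4 + C) → (∀ r' < r, r' ^ (4 * q) < s + n0) →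
    (((len + B + 2) ^ c : ℕ) : ℝ) ≤ 2 ^ (C2 * (s : ℝ) ^ (1 / (q : ℝ))) := by
  set D : ℕ := d * (2 * q + K) + (16 * C * (n0 + 1) + C) + 1 with hD
  refine ⟨(D + 2) * c, fun s len r B hs hlen hB hr => ?_⟩
  set z : ℝ := (s : ℝ) ^ (1 / (q : ℝ)) with hz
  have hs1 : (1 : ℝ) ≤ s := by exact_mod_cast hs
  have hq0 : (0 : ℝ) < q := by exact_mod_cast hq
  have hz1 : (1 : ℝ) ≤ z := Real.one_le_rpow hs1 (by positivity)
  have h2 : (1 : ℝ) ≤ 2 := by norm_num
  -- the length of the code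
  have e1 : (len : ℝ) ≤ 2 ^ (D * z) := by
    have h3 := logb_le_rpow (K := K) hq hs
    have h4 : ((s + K : ℕ) : ℝ) ≤ 2 ^ ((2 * q + K) * z) := by
      rw [Real.logb_le_iff_le_rpow (by norm_num) (by positivity)] at h3
      exact h3
    have h5 : (len : ℝ) ≤ ((s + K : ℕ) : ℝ) ^ d := by exact_mod_cast hlen
    refine (h5.trans (pow_le_pow_left₀ (by positivity) h4 d)).trans ?_
    rw [← Real.rpow_natCast, ← Real.rpow_mul (by norm_num)]
    refine Real.rpow_le_rpow_of_exponent_le h2 ?_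
    have : ((d * (2 * q + K) : ℕ) : ℝ) ≤ D := by
      rw [hD]; exact_mod_cast (by omega)
    push_cast at this
    nlinarith
  -- the padding
  have e2 : (B : ℝ) ≤ 2 ^ (D * z) := by
    have h3 : (B : ℝ) ≤ 2 ^ (C * r ^ 4 + C) := by exact_mod_cast hB
    refine h3.trans ?_
    rw [← Real.rpow_natCast]
    refine Real.rpow_le_rpow_of_exponent_le h2 ?_
    have h4 := r4_le (n := s + n0) hq (by omega) hr
    have h5 : ((s + n0 : ℕ) : ℝ) ^ (1 / (q : ℝ)) ≤ (n0 + 1) * z := by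
      have h6 : ((s + n0 : ℕ) : ℝ) ≤ (n0 + 1) * s := by
        push_cast
        nlinarith [(Nat.cast_nonneg n0 : (0 : ℝ) ≤ n0)]
      have h7 : ((n0 : ℝ) + 1) ^ (1 / (q : ℝ)) ≤ n0 + 1 := by
        conv_rhs => rw [← Real.rpow_one ((n0 : ℝ) + 1)]
        refine Real.rpow_le_rpow_of_exponent_le ?_ ?_
        · have := (Nat.cast_nonneg n0 : (0 : ℝ) ≤ n0)
          linarith
        · rw [div_le_one hq0]
          exact_mod_cast hq
      calc ((s + n0 : ℕ) : ℝ) ^ (1 / (q : ℝ)) ≤ ((n0 + 1) * s) ^ (1 / (q : ℝ)) :=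
            Real.rpow_le_rpow (by positivity) h6 (by positivity)
        _ = (n0 + 1 : ℝ) ^ (1 / (q : ℝ)) * z := Real.mul_rpow (by positivity) (by positivity)
        _ ≤ _ := mul_le_mul_of_nonneg_right h7 (by positivity)
    have h8 : ((16 * C * (n0 + 1) + C : ℕ) : ℝ) ≤ D := by
      rw [hD]; exact_mod_cast (by omega)
    push_cast at h8 ⊢
    have hC : (0 : ℝ) ≤ C := Nat.cast_nonneg C
    calc (C : ℝ) * (r : ℝ) ^ 4 + C ≤ C * (16 * ((n0 + 1) * z)) + C * z := by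
          refine add_le_add (mul_le_mul_of_nonneg_left (h4.trans ?_) hC)
            (le_mul_of_one_le_right hC hz1)
          exact mul_le_mul_of_nonneg_left h5 (by norm_num)
      _ = (16 * C * (n0 + 1) + C) * z := by ring
      _ ≤ D * z := mul_le_mul_of_nonneg_right h8 (by linarith)
  have e3 : (2 : ℝ) ≤ 2 ^ (D * z) := by
    conv_lhs => rw [← Real.rpow_one (2 : ℝ)]
    refine Real.rpow_le_rpow_of_exponent_le h2 ?_
    have : (1 : ℝ) ≤ D := by
      rw [hD]; exact_mod_cast (by omega)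
    nlinarith
  have e4 : ((len + B + 2 : ℕ) : ℝ) ≤ 2 ^ ((D + 2) * z) := by
    have : (2 : ℝ) ^ ((D + 2) * z) ≥ 4 * 2 ^ (D * z) := by
      rw [show ((D : ℝ) + 2) * z = D * z + 2 * z by ring, Real.rpow_add (by norm_num)]
      have h4 : (4 : ℝ) ≤ 2 ^ (2 * z) := by
        calc (4 : ℝ) = 2 ^ (2 : ℝ) := by norm_num
          _ ≤ _ := Real.rpow_le_rpow_of_exponent_le h2 (by linarith)
      nlinarith [Real.rpow_pos_of_pos (by norm_num : (0 : ℝ) < 2) (D * z)]
    push_cast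
    have h0 := Real.rpow_pos_of_pos (by norm_num : (0 : ℝ) < 2) (D * z)
    linarith
  push_cast at e4 ⊢
  refine (pow_le_pow_left₀ (by positivity) e4 c).trans ?_
  rw [← Real.rpow_natCast, ← Real.rpow_mul (by norm_num)]
  refine Real.rpow_le_rpow_of_exponent_le h2 (le_of_eq ?_)
  ring

end Vale.Agent.P325
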