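import Vale.Agent.P325.Main
import Vale.Agent.P325.Params
import Vale.Agent.P325.TimeBd
import Vale.Agent.P325.AlgPT3
import Vale.Agent.P325.Search
import Vale.Agent.P325.H896.Alpha

/-!
# The algorithm as a Turing machine
-/

namespace Vale.Agent.P325

open Vale.Agent.Lib.PolyTime Vale.Agent.P325.Alg

/-! ### Codes -/

theorem dbl_eq_flatMap (x : List Bool) : dbl x = x.flatMap (fun b => [true, b]) := by
  induction x with
  | nil => rfl
  | cons b x ih => rw [dbl, ih]; rfl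

theorem word_eq_enc (l : List ℕ) : word l = enc l := by
  induction l with
  | nil => rfl
  | cons a l ih =>
    rw [enc_cons, pr_eq, dbl_eq_flatMap, ← ih, enc_nat, word, List.flatMap_cons, ← word]
    simp

theorem code_eq_enc {k : ℕ} (G : Inst k) : G.code = enc (codeL G.cons) :=
  word_eq_enc (codeL G.cons)

/-! ### The machine for given constants -/

theorem exists_machine {c : Alg.Cst} {κ η ε : ℝ} (hc : CFacts c κ η ε) :
    ∃ (M : Turing.TM2ComputableAux Bool Bool) (C : ℕ), (∀ i, Finite (M.tm.Γ i)) ∧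
      ∀ G : Inst c.k, ∃ (ans : Bool) (t : ℕ), (t : ℝ) ≤ 2 ^ (C * (G.size : ℝ) ^ (1 / (c.q : ℝ))) ∧
        Answers M G ans t ∧ (1 - ε ≤ G.val → ans = true) ∧ (G.val ≤ 1 - κ → ans = false) := by
  obtain ⟨M, e, hM, h⟩ := exists_search_tm (AlgPT3.PT_main (A := ∅) c)
  obtain ⟨C2, hC2⟩ := time_le c.q e 4 (c.k + 2) c.C c.n0 hc.hq
  refine ⟨M, C2, hM, fun G => ?_⟩
  obtain ⟨r, h1, h2, h3⟩ := exists_least (n := G.size + c.n0) hc.hq
  have hne : Alg.main c (codeL G.cons) (Raw.mk (pad (c.C * r ^ 4))).w.length ≠ none := by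
    show Alg.main c (codeL G.cons) (pad (c.C * r ^ 4)).length ≠ none
    rw [length_pad]
    exact main_some hc G h1 h2 h3 le_rfl
  obtain ⟨y, j, hj, hy, -, hout⟩ := h (codeL G.cons) (2 ^ (c.C * r ^ 4)) (c.C * r ^ 4) le_rfl hne
  refine ⟨y, ((enc (codeL G.cons)).length + 2 ^ (c.C * r ^ 4) + 2) ^ e, ?_, ?_, ?_⟩
  · refine hC2 G.size _ r _ ?_ ?_ ?_ h2
    · have := List.length_pos_of_ne_nil G.ne
      unfold Inst.size
      omega
    · have := esize_codeL_le G.cons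
      exact this
    · exact Nat.pow_le_pow_right (by norm_num) (Nat.le_add_right _ _)
  · unfold Answers
    rw [code_eq_enc]
    exact hout
  · exact main_spec hc G hy

/-- the theorem for the exponents `1 / q` -/
theorem result_q : ∃ c0 : ℝ, 0 < c0 ∧ ∀ (k q : ℕ) (κ : ℝ), 2 ≤ k → 1 ≤ q → 0 < κ → κ ≤ 1 →
    ∃ (M : Turing.TM2ComputableAux Bool Bool) (C : ℕ), (∀ i, Finite (M.tm.Γ i)) ∧
      ∀ G : Inst k, ∃ (ans : Bool) (t : ℕ), (t : ℝ) ≤ 2 ^ (C * (G.size : ℝ) ^ (1 / (q : ℝ))) ∧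
        Answers M G ans t ∧
        (1 - c0 * κ ^ 3 / (q * (1 + Real.log q)) ≤ G.val → ans = true) ∧
        (G.val ≤ 1 - κ → ans = false) := by
  obtain ⟨c0, hc0, h⟩ := exists_params
  refine ⟨c0, hc0, fun k q κ hk hq hκ hκ1 => ?_⟩
  obtain ⟨c, η, rfl, rfl, hk1, hk2, hk12, hη, hη1, hn0, hf⟩ := h k q κ hk hq hκ hκ1
  refine exists_machine (η := η) ⟨hk, hq, hk1, hk2, hk12, hη, hη1, hn0, ?_⟩
  intro n r B e1 e2 e3 e4 e5
  obtain ⟨f1, f2, f3, f4, f5, f6, f7, f8, f9, f10⟩ := hf n r B e1 e2 e3 e4 e5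
  exact ⟨f1, f2, f4, f5, f6, f7, f8, f9, f10⟩

/-- the theorem for real exponents -/
theorem result_alpha : ∃ c : ℝ, 0 < c ∧ ∀ (k : ℕ) (α κ : ℝ), 2 ≤ k → 0 < α → α ≤ 1 → 0 < κ →
    κ ≤ 1 → ∃ (M : Turing.TM2ComputableAux Bool Bool) (C : ℕ), (∀ i, Finite (M.tm.Γ i)) ∧
      ∀ G : Inst k, ∃ (ans : Bool) (t : ℕ), (t : ℝ) ≤ 2 ^ (C * (G.size : ℝ) ^ α) ∧
        Answers M G ans t ∧
        (1 - c * κ ^ 3 * α / (1 + Real.log (1 / α)) ≤ G.val → ans = true) ∧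
        (G.val ≤ 1 - κ → ans = false) := by
  obtain ⟨c0, hc0, h⟩ := result_q
  refine ⟨c0 / 4, by positivity, fun k α κ hk hα hα1 hκ hκ1 => ?_⟩
  obtain ⟨q, hq, hq1, hq2⟩ := alpha_q hα hα1
  obtain ⟨M, C, hM, hG⟩ := h k q κ hk hq hκ hκ1
  refine ⟨M, C, hM, fun G => ?_⟩
  obtain ⟨ans, t, ht, hA, hyes, hno⟩ := hG G
  refine ⟨ans, t, ht.trans ?_, hA, fun hv => hyes (le_trans ?_ hv), hno⟩
  · have hs : (1 : ℝ) ≤ G.size := by
      have := List.length_pos_of_ne_nil G.ne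
      have h1 : 1 ≤ G.size := by unfold Inst.size; omega
      exact_mod_cast h1
    refine Real.rpow_le_rpow_of_exponent_le (by norm_num) ?_
    exact mul_le_mul_of_nonneg_left (Real.rpow_le_rpow_of_exponent_le hs hq1) (by positivity)
  · have hlog : 0 ≤ Real.log (1 / α) := Real.log_nonneg (by rw [one_le_div hα]; exact hα1)
    have hk3 : 0 ≤ c0 * κ ^ 3 := by positivity
    have h1 := mul_le_mul_of_nonneg_left hq2 hk3
    have e1 : c0 * κ ^ 3 * (α / (4 * (1 + Real.log (1 / α)))) =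
        c0 / 4 * κ ^ 3 * α / (1 + Real.log (1 / α)) := by
      field_simp
    have e2 : c0 * κ ^ 3 * (1 / (q * (1 + Real.log q))) = c0 * κ ^ 3 / (q * (1 + Real.log q)) := by
      rw [mul_one_div]
    rw [e1, e2] at h1
    linarith

end Vale.Agent.P325
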