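import Vale.Agent.Lib.MathlibUsed

/-!
# Weighted graphs as quadratic forms

`M : X → X → ℝ` symmetric with nonnegative entries and positive semidefinite (a lazy weighted
graph). Degrees, total weight, random walk, energy.
-/

namespace Vale.Agent.P325

open Finset

variable {X : Type*} [Fintype X]

/-- degree of a vertex -/
def deg (M : X → X → ℝ) (x : X) : ℝ := ∑ y, M x y

/-- total weight -/
def tot (M : X → X → ℝ) : ℝ := ∑ x, deg M x

/-- one step of the random walk, acting on functions -/
noncomputable def walk (M : X → X → ℝ) (h : X → ℝ) (x : X) : ℝ := (∑ y, M x y * h y) / deg M x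

/-- square norm weighted with the degrees -/
def nrm (M : X → X → ℝ) (h : X → ℝ) : ℝ := ∑ x, deg M x * h x ^ 2

/-- inner product weighted with the degrees -/
def ip (M : X → X → ℝ) (h g : X → ℝ) : ℝ := ∑ x, deg M x * (h x * g x)

/-- the bilinear form -/
def Q (M : X → X → ℝ) (h g : X → ℝ) : ℝ := ∑ x, ∑ y, M x y * (h x * g y)

/-- Dirichlet energy -/
noncomputable def energy (M : X → X → ℝ) (s : X → ℝ) : ℝ := (∑ x, ∑ y, M x y * (s x - s y) ^ 2) / 2

/-- symmetric, nonnegative entries, positive semidefinite -/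
structure IsForm (M : X → X → ℝ) : Prop where
  symm : ∀ x y, M x y = M y x
  nonneg : ∀ x y, 0 ≤ M x y
  psd : ∀ h : X → ℝ, 0 ≤ Q M h h

/-- localisation of the weights by a function `f` -/
def loc (M : X → X → ℝ) (f : X → ℝ) (x y : X) : ℝ := f x * f y * M x y

variable {M : X → X → ℝ} {h g s f : X → ℝ}

theorem Q_loc : Q (loc M f) h g = Q M (fun x => f x * h x) (fun x => f x * g x) := by
  unfold Q loc
  refine sum_congr rfl fun x _ => sum_congr rfl fun y _ => by ring

theorem IsForm.loc (hM : IsForm M) (hf : ∀ x, 0 ≤ f x) : IsForm (loc M f) where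
  symm x y := by unfold P325.loc; rw [hM.symm x y]; ring
  nonneg x y := mul_nonneg (mul_nonneg (hf x) (hf y)) (hM.nonneg x y)
  psd h := by rw [Q_loc]; exact hM.psd _

theorem IsForm.deg_nonneg (hM : IsForm M) (x : X) : 0 ≤ deg M x :=
  sum_nonneg fun y _ => hM.nonneg x y

theorem IsForm.tot_nonneg (hM : IsForm M) : 0 ≤ tot M := sum_nonneg fun x _ => hM.deg_nonneg x

theorem IsForm.eq_zero_of_deg (hM : IsForm M) {x : X} (hx : deg M x = 0) (y : X) : M x y = 0 := by
  have := (sum_eq_zero_iff_of_nonneg fun y _ => hM.nonneg x y).1 hx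
  exact this y (mem_univ y)

theorem IsForm.deg_mul_walk (hM : IsForm M) (h : X → ℝ) (x : X) :
    deg M x * walk M h x = ∑ y, M x y * h y := by
  unfold walk
  by_cases hx : deg M x = 0
  · rw [hx, zero_mul]
    refine (sum_eq_zero fun y _ => ?_).symm
    rw [hM.eq_zero_of_deg hx y, zero_mul]
  · field_simp

theorem IsForm.Q_comm (hM : IsForm M) : Q M h g = Q M g h := by
  unfold Q
  rw [sum_comm]
  refine sum_congr rfl fun x _ => sum_congr rfl fun y _ => ?_
  rw [hM.symm y x]; ring

theorem IsForm.Q_eq_ip (hM : IsForm M) : Q M h g = ip M (walk M g) h := by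
  unfold Q ip
  refine sum_congr rfl fun x _ => ?_
  rw [← mul_assoc, hM.deg_mul_walk, sum_mul]
  exact sum_congr rfl fun y _ => by ring

theorem ip_comm : ip M h g = ip M g h := by
  unfold ip
  exact sum_congr rfl fun x _ => by ring

theorem IsForm.nrm_nonneg (hM : IsForm M) (h : X → ℝ) : 0 ≤ nrm M h :=
  sum_nonneg fun x _ => mul_nonneg (hM.deg_nonneg x) (sq_nonneg _)

theorem ip_self : ip M h h = nrm M h := by
  unfold ip nrm
  exact sum_congr rfl fun x _ => by ring

theorem IsForm.energy_nonneg (hM : IsForm M) (s : X → ℝ) : 0 ≤ energy M s :=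
  div_nonneg (sum_nonneg fun x _ => sum_nonneg fun y _ => mul_nonneg (hM.nonneg x y) (sq_nonneg _))
    (by norm_num)

theorem IsForm.energy_eq (hM : IsForm M) (s : X → ℝ) : energy M s = nrm M s - Q M s s := by
  have h1 : ∑ x, ∑ y, M x y * s x ^ 2 = nrm M s := by
    unfold nrm deg
    exact sum_congr rfl fun x _ => by rw [sum_mul]
  have h2 : ∑ x, ∑ y, M x y * s y ^ 2 = nrm M s := by
    rw [sum_comm, ← h1]
    exact sum_congr rfl fun x _ => sum_congr rfl fun y _ => by rw [hM.symm]
  have h3 : ∑ x, ∑ y, M x y * (s x - s y) ^ 2 =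
      (∑ x, ∑ y, M x y * s x ^ 2) + (∑ x, ∑ y, M x y * s y ^ 2) - 2 * Q M s s := by
    unfold Q
    rw [mul_sum, ← sum_add_distrib, ← sum_sub_distrib]
    refine sum_congr rfl fun x _ => ?_
    rw [mul_sum, ← sum_add_distrib, ← sum_sub_distrib]
    exact sum_congr rfl fun y _ => by ring
  unfold energy
  rw [h3, h1, h2]
  ring

theorem IsForm.Q_le_nrm (hM : IsForm M) (h : X → ℝ) : Q M h h ≤ nrm M h := by
  have := hM.energy_nonneg h
  rw [hM.energy_eq] at this
  linarith

theorem Q_add_smul (t : ℝ) : Q M (fun x => h x + t * g x) (fun x => h x + t * g x) =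
    Q M h h + t * (Q M h g + Q M g h) + t ^ 2 * Q M g g := by
  unfold Q
  rw [mul_add, mul_sum, mul_sum, mul_sum, ← sum_add_distrib, ← sum_add_distrib,
    ← sum_add_distrib]
  refine sum_congr rfl fun x _ => ?_
  rw [mul_sum, mul_sum, mul_sum, ← sum_add_distrib, ← sum_add_distrib, ← sum_add_distrib]
  exact sum_congr rfl fun y _ => by ring

/-- the walk is a positive semidefinite contraction -/
theorem IsForm.nrm_walk_le (hM : IsForm M) (h : X → ℝ) : nrm M (walk M h) ≤ Q M h h := by
  have h1 : Q M h (walk M h) = nrm M (walk M h) := by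
    rw [hM.Q_comm, hM.Q_eq_ip, ip_self]
  have h1' : Q M (walk M h) h = nrm M (walk M h) := by rw [hM.Q_comm, h1]
  have h2 := hM.psd (fun x => h x + (-1) * walk M h x)
  rw [Q_add_smul, h1, h1'] at h2
  have h3 := hM.Q_le_nrm (walk M h)
  linarith

theorem IsForm.nrm_walk_le_nrm (hM : IsForm M) (h : X → ℝ) : nrm M (walk M h) ≤ nrm M h :=
  (hM.nrm_walk_le h).trans (hM.Q_le_nrm h)

theorem IsForm.sum_deg_walk (hM : IsForm M) (h : X → ℝ) :
    ∑ x, deg M x * walk M h x = ∑ x, deg M x * h x := by
  simp_rw [hM.deg_mul_walk]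
  rw [sum_comm]
  refine sum_congr rfl fun x _ => ?_
  unfold deg
  rw [sum_mul]
  exact sum_congr rfl fun y _ => by rw [hM.symm]

theorem IsForm.walk_nonneg (hM : IsForm M) (hh : ∀ x, 0 ≤ h x) (x : X) : 0 ≤ walk M h x :=
  div_nonneg (sum_nonneg fun y _ => mul_nonneg (hM.nonneg x y) (hh y)) (hM.deg_nonneg x)

theorem IsForm.walk_le_one (hM : IsForm M) (hh : ∀ x, h x ≤ 1) (x : X) : walk M h x ≤ 1 := by
  unfold walk
  refine div_le_one_of_le₀ ?_ (hM.deg_nonneg x)
  refine sum_le_sum fun y _ => ?_
  have := mul_le_mul_of_nonneg_left (hh y) (hM.nonneg x y)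
  simpa using this

/-! ### The walk started at a vertex -/

/-- indicator of a vertex after `t` steps of the walk: `P^t (u, v)` as a function of `u`. -/
noncomputable def heat [DecidableEq X] (M : X → X → ℝ) (v : X) (t : ℕ) : X → ℝ :=
  (walk M)^[t] (fun u => if u = v then 1 else 0)

variable [DecidableEq X]

@[simp] theorem heat_zero (v : X) : heat M v 0 = fun u => if u = v then 1 else 0 := rfl

theorem heat_succ (v : X) (t : ℕ) : heat M v (t + 1) = walk M (heat M v t) := by
  unfold heat
  rw [Function.iterate_succ_apply']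

theorem IsForm.heat_nonneg (hM : IsForm M) (v : X) (t : ℕ) (u : X) : 0 ≤ heat M v t u := by
  induction t generalizing u with
  | zero => simp only [heat_zero]; split_ifs <;> norm_num
  | succ t ih => rw [heat_succ]; exact hM.walk_nonneg ih u

theorem IsForm.heat_le_one (hM : IsForm M) (v : X) (t : ℕ) (u : X) : heat M v t u ≤ 1 := by
  induction t generalizing u with
  | zero => simp only [heat_zero]; split_ifs <;> norm_num
  | succ t ih => rw [heat_succ]; exact hM.walk_le_one ih u

theorem IsForm.sum_deg_heat (hM : IsForm M) (v : X) (t : ℕ) :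
    ∑ u, deg M u * heat M v t u = deg M v := by
  induction t with
  | zero => simp
  | succ t ih => rw [heat_succ, hM.sum_deg_walk, ih]

/-- the square norms decrease, the loss is at least the energy -/
theorem IsForm.nrm_heat_succ (hM : IsForm M) (v : X) (t : ℕ) :
    nrm M (heat M v (t + 1)) + energy M (heat M v t) ≤ nrm M (heat M v t) := by
  rw [heat_succ, hM.energy_eq]
  have := hM.nrm_walk_le (heat M v t)
  linarith

theorem IsForm.nrm_heat_antitone (hM : IsForm M) (v : X) :
    Antitone fun t => nrm M (heat M v t) := by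
  refine antitone_nat_of_succ_le fun t => ?_
  have := hM.nrm_heat_succ v t
  have h2 := hM.energy_nonneg (heat M v t)
  linarith

theorem nrm_heat_zero (v : X) : nrm M (heat M v 0) = deg M v := by
  simp [nrm]

/-- Cauchy-Schwarz lower bound -/
theorem IsForm.nrm_heat_lower (hM : IsForm M) (v : X) (t : ℕ) :
    deg M v ^ 2 ≤ tot M * nrm M (heat M v t) := by
  have h1 := hM.sum_deg_heat v t
  have h2 : (∑ u, deg M u * heat M v t u) ^ 2 ≤ (∑ u, deg M u) *
      ∑ u, deg M u * heat M v t u ^ 2 := by
    refine Finset.sum_sq_le_sum_mul_sum_of_sq_le_mul _ (fun u _ => hM.deg_nonneg u)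
      (fun u _ => mul_nonneg (hM.deg_nonneg u) (sq_nonneg _)) (fun u _ => le_of_eq (by ring))
  rw [h1] at h2
  exact h2

end Vale.Agent.P325
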