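import Vale.Agent.Lib.MathlibUsed

/-!
# Unique Games instances: the definitions used in the statement of the result
-/

namespace Vale.Agent.P325

/-- A Unique Games instance over the alphabet `Fin k`: a number `n` of vertices and a nonempty list
of constraints `(u, v, π)`, where `π` is a permutation of the alphabet. -/
structure Inst (k : ℕ) where
  n : ℕ
  cons : List (Fin n × Fin n × Equiv.Perm (Fin k))
  ne : cons ≠ []

/-- Binary code of a list of natural numbers: each binary digit (least significant first) is
preceded by `true`, and each number is followed by `false`. -/
def word (l : List ℕ) : List Bool :=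
  l.flatMap fun m => m.bits.flatMap (fun b => [true, b]) ++ [false]

namespace Inst

variable {k : ℕ} (G : Inst k)

/-- number of vertices plus number of constraints -/
def size : ℕ := G.n + G.cons.length

/-- number of constraints `(u, v, π)` satisfied by the labeling `a`, i.e. `a v = π (a u)` -/
def sat (a : Fin G.n → Fin k) : ℕ := G.cons.countP fun c => decide (a c.2.1 = c.2.2 (a c.1))

/-- the value: the largest fraction of constraints satisfied by a labeling -/
noncomputable def val : ℝ := ⨆ a : Fin G.n → Fin k, (G.sat a : ℝ) / G.cons.length

/-- the input word: the number of vertices, then for each constraint `(u, v, π)` the numbers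
`u, v, π 0, …, π (k - 1)` -/
def code : List Bool :=
  word (G.n :: G.cons.flatMap fun c =>
    (c.1 : ℕ) :: (c.2.1 : ℕ) :: List.ofFn fun i => (c.2.2 i : ℕ))

end Inst

/-- The Turing machine `M`, started on the code of `G`, halts within `t` steps, and its output is
the single bit `ans`. -/
def Answers {k : ℕ} (M : Turing.TM2ComputableAux Bool Bool) (G : Inst k) (ans : Bool) (t : ℕ) :
    Prop :=
  Nonempty (Turing.TM2OutputsInTime M.tm (G.code.map M.inputAlphabet.invFun)
    (some ([ans].map M.outputAlphabet.invFun)) t)

end Vale.Agent.P325
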