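import Vale.Agent.P325.Core
import Vale.Agent.P325.Parse
import Vale.Agent.P325.Stmt

/-!
# Correctness of the algorithm with padding
-/

namespace Vale.Agent.P325

open Alg

variable {k : ℕ}

/-- what is needed of the numbers of a run -/
structure PFacts (c : Alg.Cst) (η ε : ℝ) (n r B : ℕ) : Prop where
  ok : Ok (prm (Alg.nums c n r B)) c.q c.k1
  hS : 0 < (Alg.nums c n r B).S
  hlog : 2 * (Alg.nums c n r B).L * Real.exp (-((Alg.nums c n r B).T /
    (4 * (Alg.nums c n r B).R))) ≤ Real.log (4 * r)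
  hT : 1 / (r : ℝ) ≤ (1 - η) ^ (Alg.nums c n r B).T
  hB : 2 * (Alg.nums c n r B).L * (4 * n ^ 5) ^ (Alg.nums c n r B).J + 1 < B
  hcert : (n * c.k) ^ (Alg.nums c n r B).S ≤ B
  hnB : n ≤ B
  hrB : r < B
  hfin : 2 * c.k2 * ((1 + 12 / η) * ε / 4 + 6 * (16 * r * (Alg.nums c n r B).S' ^ 2 /
    (Alg.nums c n r B).S + 1 / n + Real.exp (-(2 * ((Alg.nums c n r B).S' / r : ℝ))))) ≤ 1

/-- what is needed of the constants -/
structure CFacts (c : Alg.Cst) (κ η ε : ℝ) : Prop where
  hk : 2 ≤ c.k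
  hq : 1 ≤ c.q
  hk1 : 1 ≤ c.k1
  hk2 : 1 ≤ c.k2
  hκ : 4 / Real.sqrt c.k1 + 4 / c.k2 < κ
  hη : 0 < η
  hη1 : η ≤ 1
  hn0 : 1 ≤ c.n0
  facts : ∀ n r B, c.n0 ≤ n → n ≤ r ^ (4 * c.q) → r ≤ n → (∀ r' < r, r' ^ (4 * c.q) < n) →
    c.C * r ^ 4 < Nat.size B → PFacts c η ε n r B

theorem sat_add_viol (G : Inst k) (a : Fin G.n → Fin k) :
    G.sat a + viol G.cons a = G.cons.length := by
  unfold Inst.sat viol
  rw [List.length_eq_countP_add_countP (fun c : Fin G.n × Fin G.n × Equiv.Perm (Fin k) =>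
    decide (a c.2.1 = c.2.2 (a c.1)))]
  congr 1
  refine List.countP_congr fun c _ => ?_
  simp

theorem length_pos (G : Inst k) : (0 : ℝ) < G.cons.length := by
  exact_mod_cast List.length_pos_of_ne_nil G.ne

theorem exists_of_val (hk : 0 < k) (G : Inst k) {ε : ℝ} (h : 1 - ε ≤ G.val) :
    ∃ a : Fin G.n → Fin k, (viol G.cons a : ℝ) ≤ ε * G.cons.length := by
  have : Nonempty (Fin k) := ⟨⟨0, hk⟩⟩
  obtain ⟨a, ha⟩ := exists_eq_ciSup_of_finite (f := fun a : Fin G.n → Fin k =>
    (G.sat a : ℝ) / G.cons.length)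
  refine ⟨a, ?_⟩
  have h1 : 1 - ε ≤ (G.sat a : ℝ) / G.cons.length := h.trans (le_of_eq ha.symm)
  rw [le_div_iff₀ (length_pos G)] at h1
  have h2 : (G.sat a : ℝ) + viol G.cons a = G.cons.length := by
    exact_mod_cast sat_add_viol G a
  linarith

theorem le_of_val (G : Inst k) {κ : ℝ} (h : G.val ≤ 1 - κ) (a : Fin G.n → Fin k) :
    κ * G.cons.length ≤ viol G.cons a := by
  have h1 : (G.sat a : ℝ) / G.cons.length ≤ 1 - κ :=
    (le_ciSup (f := fun a : Fin G.n → Fin k => (G.sat a : ℝ) / G.cons.length)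
      (Set.finite_range _).bddAbove a).trans h
  rw [div_le_iff₀ (length_pos G)] at h1
  have h2 : (G.sat a : ℝ) + viol G.cons a = G.cons.length := by
    exact_mod_cast sat_add_viol G a
  linarith

theorem sizeL_eq (c : Alg.Cst) (G : Inst c.k) : sizeL c (codeL G.cons) = G.size + c.n0 := by
  unfold sizeL
  rw [parseM_eq]
  rfl

/-- the least `r` with `n ≤ r ^ (4 q)` -/
theorem exists_least {n q : ℕ} (hq : 1 ≤ q) :
    ∃ r, n ≤ r ^ (4 * q) ∧ (∀ r' < r, r' ^ (4 * q) < n) ∧ r ≤ n := by
  classical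
  have h1 : ∃ r, n ≤ r ^ (4 * q) := ⟨n, Nat.le_self_pow (by omega) n⟩
  refine ⟨Nat.find h1, Nat.find_spec h1, fun r' hr' => ?_, ?_⟩
  · have := Nat.find_min h1 hr'
    omega
  · exact Nat.find_min' h1 (Nat.le_self_pow (by omega) n)

theorem find_range {n q B r : ℕ} (h1 : n ≤ r ^ (4 * q)) (h2 : ∀ r' < r, r' ^ (4 * q) < n)
    (h : r < B) : (List.range B).find? (fun r => decide (n ≤ r ^ (4 * q))) = some r := by
  rw [List.find?_eq_some_iff_append]
  refine ⟨by simpa using h1, List.range r, (List.range (B - r - 1)).map fun i => r + 1 + i, ?_, ?_⟩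
  · have e1 : B = (r + 1) + (B - r - 1) := by omega
    conv_lhs => rw [e1, List.range_add, List.range_succ]
    simp
  · intro a ha
    rw [List.mem_range] at ha
    have := h2 a ha
    simpa using this

/-- if the padding is long enough, there is an answer -/
theorem main_some {c : Alg.Cst} {κ η ε : ℝ} (hc : CFacts c κ η ε) (G : Inst c.k) {r j : ℕ}
    (h1 : G.size + c.n0 ≤ r ^ (4 * c.q)) (h2 : ∀ r' < r, r' ^ (4 * c.q) < G.size + c.n0)
    (h3 : r ≤ G.size + c.n0) (hj : c.C * r ^ 4 ≤ j) :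
    Alg.main c (codeL G.cons) (2 ^ j) ≠ none := by
  have hB : c.C * r ^ 4 < Nat.size (2 ^ j) := by
    rw [Nat.size_pow]
    omega
  have hf := hc.facts _ r (2 ^ j) (Nat.le_add_left _ _) h1 h3 h2 hB
  unfold Alg.main
  rw [sizeL_eq, find_range h1 h2 hf.hrB]
  simp only
  rw [if_pos hB]
  simp

/-- correctness -/
theorem main_spec {c : Alg.Cst} {κ η ε : ℝ} (hc : CFacts c κ η ε) (G : Inst c.k) {B : ℕ}
    {ans : Bool} (h : Alg.main c (codeL G.cons) B = some ans) :
    (1 - ε ≤ G.val → ans = true) ∧ (G.val ≤ 1 - κ → ans = false) := by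
  have hn : 1 ≤ G.size + c.n0 := by have := hc.hn0; omega
  unfold Alg.main at h
  rw [sizeL_eq] at h
  rcases hf : (List.range B).find? (fun r => decide (G.size + c.n0 ≤ r ^ (4 * c.q))) with _ | r
  · rw [hf] at h; simp at h
  rw [hf] at h
  simp only at h
  split_ifs at h with hB
  rw [List.find?_eq_some_iff_append] at hf
  obtain ⟨hf1, as, bs, hf2, hf3⟩ := hf
  rw [decide_eq_true_eq] at hf1
  have hr : r < B := by
    have : r ∈ List.range B := by rw [hf2]; simp
    exact List.mem_range.1 this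
  have has : as = List.range r := by
    have h4 : as = (List.range B).take as.length := by rw [hf2]; simp
    have h5 : (List.range B)[as.length]? = some r := by rw [hf2]; simp
    have h6 : as.length = r := by
      rw [List.getElem?_range] at h5
      · simpa using h5
      · have : as.length < (List.range B).length := by rw [hf2]; simp
        simpa using this
    rw [h4, List.take_range, h6, min_eq_left hr.le]
  have hmin : ∀ r' < r, r' ^ (4 * c.q) < G.size + c.n0 := by
    intro r' hr'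
    have h7 := hf3 r' (by rw [has]; exact List.mem_range.2 hr')
    simpa using h7
  have hrn : r ≤ G.size + c.n0 := by
    by_contra hcon
    push Not at hcon
    have := hmin _ hcon
    have h8 : G.size + c.n0 ≤ (G.size + c.n0) ^ (4 * c.q) :=
      Nat.le_self_pow (by have := hc.hq; omega) _
    omega
  have hF := hc.facts _ r B (Nat.le_add_left _ _) hf1 hrn hmin hB
  have hkpos : 0 < c.k := by have := hc.hk; omega
  have hN : min ((codeL G.cons).headD 0) B = G.n := by
    have h9 : (codeL G.cons).headD 0 = G.n := rfl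
    rw [h9]
    refine min_eq_left (le_trans ?_ hF.hnB)
    unfold Inst.size
    omega
  rw [hN, parseC_eq, min_eq_left hr.le, Option.some.injEq] at h
  have hV : Fintype.card (Fin G.n) ≤ (nums c (G.size + c.n0) r B).n := by
    rw [Fintype.card_fin]
    show G.n ≤ G.size + c.n0
    unfold Inst.size
    omega
  refine ⟨fun hv => ?_, fun hv => ?_⟩
  · obtain ⟨a, ha⟩ := exists_of_val hkpos G hv
    rw [← h]
    refine runL_complete (Equiv.refl (Fin G.n)) hkpos G.cons (nums c (G.size + c.n0) r B)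
      hF.ok G.ne hV hF.hB hF.hS hc.hη hc.hη1 hF.hlog hF.hT ?_ hF.hfin a ha
    refine le_trans (Nat.pow_le_pow_left (Nat.mul_le_mul_right _ ?_) _) hF.hcert
    unfold Inst.size
    omega
  · by_contra hne
    have htrue : runL c.k c.k1 c.k2 G.n (conL (Equiv.refl (Fin G.n)) G.cons)
        (nums c (G.size + c.n0) r B) = true := by
      rw [h]
      cases ans
      · exact absurd rfl hne
      · rfl
    obtain ⟨a, ha⟩ := runL_sound (Equiv.refl (Fin G.n)) hkpos G.cons
      (nums c (G.size + c.n0) r B) hF.ok hc.hk2 G.ne hV hF.hB htrue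
    have h10 := le_of_val G hv a
    have h11 := mul_lt_mul_of_pos_right hc.hκ (length_pos G)
    linarith

end Vale.Agent.P325
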