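import Vale.Agent.P325.Defs
import Vale.Agent.P325.Extract
import Mathlib.Algebra.Order.Floor.Semifield

/-!
# Graph forms with integer weights

Integer valued versions of the degrees, the walk, the bumps, and of the test for a cheap bump.
-/

namespace Vale.Agent.P325

open Finset

section General

variable {X : Type*} [Fintype X] [DecidableEq X]

/-- natural valued functions as real valued functions -/
abbrev toR (F : X → ℕ) : X → ℝ := fun x => (F x : ℝ)

/-- the localised graph form -/
abbrev GF (E : List (X × X)) (F : X → ℕ) : X → X → ℝ := loc (gform E) (toR F)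

/-- matrix times vector -/
def mvN (E : List (X × X)) (F h : X → ℕ) (x : X) : ℕ :=
  F x * (E.map fun e => ((if x = e.1 then 1 else 0) + (if x = e.2 then 1 else 0)) *
    (F e.1 * h e.1 + F e.2 * h e.2)).sum

theorem sum_gform (E : List (X × X)) (x : X) (h : X → ℝ) : ∑ y, gform E x y * h y =
    (E.map fun e => (((if x = e.1 then 1 else 0) + (if x = e.2 then 1 else 0)) *
      (h e.1 + h e.2) : ℝ)).sum := by
  induction E with
  | nil => simp [gform]
  | cons e E ih =>
    simp only [gform, List.map_cons, List.sum_cons] at ih ⊢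
    rw [← ih]
    simp_rw [add_mul, sum_add_distrib]
    congr 1
    simp_rw [mul_assoc, ← mul_sum]
    simp [add_mul, sum_add_distrib]

theorem mvN_cast (E : List (X × X)) (F h : X → ℕ) (x : X) :
    (mvN E F h x : ℝ) = ∑ y, GF E F x y * h y := by
  have h1 : ∀ y, GF E F x y * (h y : ℝ) = F x * (gform E x y * (F y * h y)) := fun y => by
    simp only [GF, loc, toR]; ring
  simp_rw [h1]
  rw [← mul_sum, sum_gform E x (fun y => (F y * h y : ℝ))]
  unfold mvN
  rw [Nat.cast_mul, Nat.cast_list_sum, List.map_map]
  congr 2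
  refine List.map_congr_left fun e _ => ?_
  simp only [Function.comp]
  push_cast
  rfl

theorem gform_isForm (E : List (X × X)) : IsForm (gform E) where
  symm x y := by
    unfold gform
    congr 1
    exact List.map_congr_left fun e _ => mul_comm _ _
  nonneg x y := by
    unfold gform
    refine List.sum_nonneg fun z hz => ?_
    rw [List.mem_map] at hz
    obtain ⟨e, _, rfl⟩ := hz
    positivity
  psd h := by
    have h1 : Q (gform E) h h = (E.map fun e => (h e.1 + h e.2) ^ 2).sum := by
      have h2 : ∀ x, ∑ y, gform E x y * (h x * h y) = h x * ∑ y, gform E x y * h y := fun x => by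
        rw [mul_sum]
        exact sum_congr rfl fun y _ => by ring
      unfold Q
      simp_rw [h2, sum_gform]
      induction E with
      | nil => simp
      | cons e E ih =>
        simp only [List.map_cons, List.sum_cons, mul_add, sum_add_distrib] at ih ⊢
        have h3 : ∀ x, ∑ y, gform E x y * (h x * h y) = h x * ∑ y, gform E x y * h y :=
          fun x => by
          rw [mul_sum]
          exact sum_congr rfl fun y _ => by ring
        rw [ih h3]
        congr 1
        simp only [add_mul, mul_add, sum_add_distrib, ite_mul, one_mul, zero_mul, mul_ite,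
          mul_zero, mul_one, sum_ite_eq', mem_univ, if_true]
        ring
    rw [h1]
    refine List.sum_nonneg fun z hz => ?_
    rw [List.mem_map] at hz
    obtain ⟨e, _, rfl⟩ := hz
    positivity

theorem GF_isForm (E : List (X × X)) (F : X → ℕ) : IsForm (GF E F) :=
  (gform_isForm E).loc fun x => Nat.cast_nonneg _

/-- degrees -/
def degN (E : List (X × X)) (F : X → ℕ) : X → ℕ := mvN E F fun _ => 1

theorem degN_cast (E : List (X × X)) (F : X → ℕ) (x : X) :
    (degN E F x : ℝ) = deg (GF E F) x := by
  unfold degN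
  rw [mvN_cast]
  simp [deg]

/-- total weight -/
def totN (E : List (X × X)) (F : X → ℕ) : ℕ := ∑ x, degN E F x

theorem totN_cast (E : List (X × X)) (F : X → ℕ) : (totN E F : ℝ) = tot (GF E F) := by
  unfold totN tot
  push_cast
  exact sum_congr rfl fun x _ => degN_cast E F x

theorem sum_gform_gform (E : List (X × X)) (f g : X → ℝ) : Q (gform E) f g =
    (E.map fun e => (f e.1 + f e.2) * (g e.1 + g e.2)).sum := by
  have h2 : ∀ x, ∑ y, gform E x y * (f x * g y) = f x * ∑ y, gform E x y * g y := fun x => by
    rw [mul_sum]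
    exact sum_congr rfl fun y _ => by ring
  unfold Q
  simp_rw [h2, sum_gform]
  clear h2
  induction E with
  | nil => simp
  | cons e E ih =>
    simp only [List.map_cons, List.sum_cons, mul_add, sum_add_distrib] at ih ⊢
    rw [ih]
    congr 1
    simp only [add_mul, mul_add, sum_add_distrib, ite_mul, one_mul, zero_mul, mul_ite,
      mul_zero, mul_one, sum_ite_eq', mem_univ, if_true]

theorem totN_eq (E : List (X × X)) (F : X → ℕ) : totN E F = pieceW E F := by
  have h1 : (totN E F : ℝ) = pieceW E F := by
    rw [totN_cast]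
    have h2 : tot (GF E F) = Q (gform E) (toR F) (toR F) := by
      unfold tot deg Q
      refine sum_congr rfl fun x _ => sum_congr rfl fun y _ => ?_
      simp only [loc]; ring
    rw [h2, sum_gform_gform]
    unfold pieceW
    push_cast
    simp [List.map_map, Function.comp_def, sq]
  exact_mod_cast h1

/-- common multiple of the degrees -/
def QpN (E : List (X × X)) (F : X → ℕ) : ℕ := ∏ x, max (degN E F x) 1

theorem QpN_pos (E : List (X × X)) (F : X → ℕ) : 0 < QpN E F :=
  prod_pos fun x _ => lt_max_of_lt_right one_pos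

theorem deg_dvd_QpN (E : List (X × X)) (F : X → ℕ) {x : X} (hx : 0 < degN E F x) :
    degN E F x ∣ QpN E F := by
  have h1 := dvd_prod_of_mem (fun x => max (degN E F x) 1) (mem_univ x)
  have h2 : max (degN E F x) 1 = degN E F x := max_eq_left hx
  rwa [h2] at h1

/-- scaled walk -/
def stepN (E : List (X × X)) (F h : X → ℕ) (x : X) : ℕ :=
  (QpN E F / degN E F x) * mvN E F h x

theorem stepN_cast (E : List (X × X)) (F h : X → ℕ) (x : X) :
    (stepN E F h x : ℝ) = QpN E F * walk (GF E F) (toR h) x := by
  unfold stepN walk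
  rw [← degN_cast]
  rcases Nat.eq_zero_or_pos (degN E F x) with h0 | h0
  · rw [h0]; simp
  · rw [Nat.cast_mul, Nat.cast_div (deg_dvd_QpN E F h0) (by positivity), mvN_cast]
    ring

/-- scaled distribution of the walk -/
def heatN (E : List (X × X)) (F : X → ℕ) (v : X) (t : ℕ) : X → ℕ :=
  (stepN E F)^[t] fun x => if x = v then 1 else 0

omit [Fintype X] [DecidableEq X] in
theorem walk_smul [Fintype X] (M : X → X → ℝ) (c : ℝ) (h : X → ℝ) :
    walk M (fun x => c * h x) = fun x => c * walk M h x := by
  funext x
  unfold walk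
  rw [← mul_div_assoc, mul_sum]
  congr 1
  exact sum_congr rfl fun y _ => by ring

theorem heatN_cast (E : List (X × X)) (F : X → ℕ) (v : X) (t : ℕ) (x : X) :
    (heatN E F v t x : ℝ) = (QpN E F : ℝ) ^ t * heat (GF E F) v t x := by
  induction t generalizing x with
  | zero =>
    simp [heatN]
  | succ t ih =>
    have h1 : heatN E F v (t + 1) = stepN E F (heatN E F v t) := by
      unfold heatN
      rw [Function.iterate_succ_apply']
    rw [h1, stepN_cast, heat_succ]
    have h2 : toR (heatN E F v t) = fun x => (QpN E F : ℝ) ^ t * heat (GF E F) v t x :=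
      funext ih
    rw [h2, walk_smul, pow_succ]
    ring

/-- square norm -/
def nrmN (E : List (X × X)) (F h : X → ℕ) : ℕ := ∑ x, degN E F x * h x ^ 2

theorem nrmN_cast (E : List (X × X)) (F h : X → ℕ) :
    (nrmN E F h : ℝ) = nrm (GF E F) (toR h) := by
  unfold nrmN nrm
  push_cast
  exact sum_congr rfl fun x _ => by rw [degN_cast]

/-- energy -/
def energyN (E : List (X × X)) (F h : X → ℕ) : ℕ :=
  (E.map fun e => F e.1 * F e.2 * ((h e.1 - h e.2) + (h e.2 - h e.1)) ^ 2).sum

theorem energy_gform (E : List (X × X)) (f s : X → ℝ) : energy (loc (gform E) f) s =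
    (E.map fun e => f e.1 * f e.2 * (s e.1 - s e.2) ^ 2).sum := by
  unfold energy loc gform
  rw [div_eq_iff (by norm_num)]
  induction E with
  | nil => simp
  | cons e E ih =>
    simp only [List.map_cons, List.sum_cons, mul_add, add_mul, sum_add_distrib] at ih ⊢
    rw [ih]
    congr 1
    simp only [mul_ite, mul_one, mul_zero, ite_mul, zero_mul, sum_ite_eq', mem_univ,
      if_true]
    ring

omit [Fintype X] [DecidableEq X] in
theorem absdiff_sq (a b : ℕ) : ((((a - b) + (b - a)) ^ 2 : ℕ) : ℝ) = ((a : ℝ) - b) ^ 2 := by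
  rcases le_total a b with h | h
  · rw [Nat.sub_eq_zero_of_le h, zero_add, Nat.cast_pow, Nat.cast_sub h]
    ring
  · rw [Nat.sub_eq_zero_of_le h, add_zero, Nat.cast_pow, Nat.cast_sub h]

theorem energyN_cast (E : List (X × X)) (F h : X → ℕ) :
    (energyN E F h : ℝ) = energy (GF E F) (toR h) := by
  rw [energy_gform]
  unfold energyN
  rw [Nat.cast_list_sum, List.map_map]
  congr 1
  refine List.map_congr_left fun e _ => ?_
  show ((F e.1 * F e.2 * ((h e.1 - h e.2) + (h e.2 - h e.1)) ^ 2 : ℕ) : ℝ) = _
  rw [Nat.cast_mul, absdiff_sq]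
  push_cast
  rfl

/-- volume of the support -/
def svolN (E : List (X × X)) (F h : X → ℕ) : ℕ := ∑ x, if h x = 0 then 0 else degN E F x

theorem svolN_cast (E : List (X × X)) (F h : X → ℕ) :
    (svolN E F h : ℝ) = svol (GF E F) (toR h) := by
  unfold svolN svol
  rw [Nat.cast_sum]
  refine sum_congr rfl fun x _ => ?_
  by_cases hx : h x = 0
  · simp [hx]
  · have : toR h x ≠ 0 := by simpa [toR] using hx
    rw [if_neg hx, if_neg this, degN_cast]

/-- logarithmic weight -/
def lamN (E : List (X × X)) (F h : X → ℕ) : ℕ := Nat.log 2 (totN E F / svolN E F h)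

theorem lamN_eq (E : List (X × X)) (F h : X → ℕ) : lamN E F h = lam (GF E F) (toR h) := by
  unfold lamN lam
  rw [← totN_cast, ← svolN_cast, Nat.floor_div_eq_div]

/-- scaled bump -/
def bumpN (E : List (X × X)) (F : X → ℕ) (v : X) (t : ℕ) (x : X) : ℕ :=
  4 * degN E F v * QpN E F ^ t * heatN E F v t x - nrmN E F (heatN E F v t)

theorem bumpN_cast (E : List (X × X)) (F : X → ℕ) {v : X} (hv : 0 < degN E F v) (t : ℕ) (x : X) :
    (bumpN E F v t x : ℝ) = (4 * degN E F v * (QpN E F : ℝ) ^ (2 * t)) *
      bump (GF E F) v t x := by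
  have hv' : (0 : ℝ) < degN E F v := by exact_mod_cast hv
  have hQ : (0 : ℝ) < QpN E F := by exact_mod_cast QpN_pos E F
  have h1 : (nrmN E F (heatN E F v t) : ℝ) =
      (QpN E F : ℝ) ^ (2 * t) * nrm (GF E F) (heat (GF E F) v t) := by
    rw [nrmN_cast]
    unfold nrm
    rw [mul_sum]
    refine sum_congr rfl fun y _ => ?_
    show _ * (heatN E F v t y : ℝ) ^ 2 = _
    rw [heatN_cast]
    ring
  have h2 : ((4 * degN E F v * QpN E F ^ t * heatN E F v t x : ℕ) : ℝ) =
      4 * degN E F v * (QpN E F : ℝ) ^ (2 * t) * heat (GF E F) v t x := by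
    push_cast
    rw [heatN_cast]
    ring
  unfold bumpN bump
  rw [← degN_cast]
  set c : ℝ := 4 * degN E F v * (QpN E F : ℝ) ^ (2 * t) with hc
  have hc0 : 0 < c := by positivity
  rw [mul_max_of_nonneg _ _ hc0.le, mul_zero, mul_sub]
  have h3 : c * (nrm (GF E F) (heat (GF E F) v t) / (4 * (degN E F v : ℝ))) =
      (nrmN E F (heatN E F v t) : ℝ) := by
    rw [h1, hc]
    field_simp
  rw [h3, ← h2]
  rcases le_total (nrmN E F (heatN E F v t)) (4 * degN E F v * QpN E F ^ t * heatN E F v t x)
    with h | h
  · rw [Nat.cast_sub h, max_eq_left]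
    rw [sub_nonneg]
    exact_mod_cast h
  · rw [Nat.sub_eq_zero_of_le h, max_eq_right]
    · simp
    · rw [sub_nonpos]
      exact_mod_cast h

end General

end Vale.Agent.P325
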