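import Vale.Agent.P325.ReachFacts
import Mathlib.Analysis.Complex.ExponentialBounds

/-!
# Parameter arithmetic
-/

namespace Vale.Agent.P325

open Finset

/-! ### Conditions on `n` and `r` -/

theorem sq_le_two_pow {L : ℕ} (h : 9 ≤ L) : (L + 1) ^ 2 ≤ 2 ^ (L - 1) := by
  obtain ⟨m, rfl⟩ : ∃ m, L = 9 + m := ⟨L - 9, by omega⟩
  have h1 : 9 + m - 1 = 8 + m := by omega
  rw [h1]
  clear h h1
  induction m with
  | zero => norm_num
  | succ m ih =>
    have : 2 ^ (8 + (m + 1)) = 2 * 2 ^ (8 + m) := by rw [← pow_succ']; congr 1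
    rw [this]
    have h2 : (9 + (m + 1) + 1) ^ 2 + (m ^ 2 + 18 * m + 79) = 2 * (9 + m + 1) ^ 2 := by ring
    have h3 : 0 ≤ m ^ 2 + 18 * m + 79 := Nat.zero_le _
    linarith

/-- `n` is large compared with its logarithm -/
theorem size_small {n k1 : ℕ} (hn : 2 ^ (16 * k1 + 8) ≤ n) :
    16 * k1 * (Nat.size n + 1) ≤ n := by
  have h1 : 16 * k1 + 8 < Nat.size n := Nat.lt_size.2 hn
  have h2 : 2 ^ (Nat.size n - 1) ≤ n := Nat.lt_size.1 (by omega)
  calc 16 * k1 * (Nat.size n + 1) ≤ (Nat.size n + 1) * (Nat.size n + 1) :=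
        Nat.mul_le_mul_right _ (by omega)
    _ = (Nat.size n + 1) ^ 2 := by ring
    _ ≤ 2 ^ (Nat.size n - 1) := sq_le_two_pow (by omega)
    _ ≤ n := h2

/-- the least `r` with `n ≤ r ^ (4 q)` -/
theorem exists_r {q n : ℕ} (hq : 1 ≤ q) : ∃ r, n ≤ r ^ (4 * q) ∧ (∀ r' < r, r' ^ (4 * q) < n) ∧
    r ≤ n := by
  classical
  have hex : ∃ r, n ≤ r ^ (4 * q) := ⟨n, Nat.le_self_pow (by omega) n⟩
  refine ⟨Nat.find hex, Nat.find_spec hex, fun r' hr' => ?_, ?_⟩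
  · have := Nat.find_min hex hr'
    omega
  · exact Nat.find_le (Nat.le_self_pow (by omega) n)

/-- `r ^ 4 ≤ 16 n ^ (1/q)` -/
theorem r_pow_le {q n r : ℕ} (hq : 1 ≤ q) (hn : 1 ≤ n) (hr : ∀ r' < r, r' ^ (4 * q) < n) :
    (r : ℝ) ^ 4 ≤ 16 * (n : ℝ) ^ (1 / (q : ℝ)) := by
  have hq' : (0 : ℝ) < q := by exact_mod_cast hq
  have hn' : (1 : ℝ) ≤ n := by exact_mod_cast hn
  have hx : (1 : ℝ) ≤ (n : ℝ) ^ (1 / (4 * q : ℝ)) := Real.one_le_rpow hn' (by positivity)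
  have h1 : (r : ℝ) ≤ 2 * (n : ℝ) ^ (1 / (4 * q : ℝ)) := by
    rcases Nat.eq_zero_or_pos r with h0 | h0
    · rw [h0, Nat.cast_zero]; linarith
    · have h2 := hr (r - 1) (by omega)
      have h3 : ((r - 1 : ℕ) : ℝ) ^ (4 * q) ≤ n := by exact_mod_cast h2.le
      have h4 : ((r - 1 : ℕ) : ℝ) ≤ (n : ℝ) ^ (1 / (4 * q : ℝ)) := by
        have h5 : (((r - 1 : ℕ) : ℝ) ^ (4 * q)) ^ (1 / (4 * q : ℝ)) = ((r - 1 : ℕ) : ℝ) := by
          rw [← Real.rpow_natCast, ← Real.rpow_mul (Nat.cast_nonneg _)]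
          push_cast
          rw [mul_one_div_cancel (by positivity), Real.rpow_one]
        rw [← h5]
        exact Real.rpow_le_rpow (by positivity) h3 (by positivity)
      have h6 : (r : ℝ) = ((r - 1 : ℕ) : ℝ) + 1 := by
        rw [Nat.cast_sub h0]; simp
      rw [h6]
      linarith
  calc (r : ℝ) ^ 4 ≤ (2 * (n : ℝ) ^ (1 / (4 * q : ℝ))) ^ 4 :=
        pow_le_pow_left₀ (Nat.cast_nonneg _) h1 4
    _ = 16 * ((n : ℝ) ^ (1 / (4 * q : ℝ))) ^ 4 := by ring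
    _ = 16 * (n : ℝ) ^ (1 / (q : ℝ)) := by
      rw [← Real.rpow_natCast, ← Real.rpow_mul (by linarith)]
      congr 2
      push_cast
      field_simp

namespace Ok

variable {P : Prm} {q k1 : ℕ}

theorem mk' {P : Prm} {q k1 : ℕ} (hL : P.L = Nat.size P.n) (hR : P.R = 32 * k1 * P.L)
    (hq : 1 ≤ q) (hk1 : 1 ≤ k1) (hnr : P.n ≤ P.r ^ (4 * q)) (hrn : P.r ≤ P.n)
    (hJ : P.J = 16 * q * k1) (hb : P.b = (8 * P.J + 32) * P.L)
    (hn : 2 ^ (16 * k1 + 8) ≤ P.n) : Ok P q k1 :=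
  ⟨hL, hR, hq, hk1, hnr, hrn, hJ, hb, by rw [hL]; exact size_small hn⟩

theorem r_ge (h : Ok P q k1) : 2 ≤ P.r := by
  by_contra hc
  have h1 : P.r ≤ 1 := by omega
  have h2 := h.hnr
  have h3 : P.r ^ (4 * q) ≤ 1 := Nat.pow_le_one_iff (by have := h.hq; omega) |>.2 h1
  have := h.n_ge
  omega

/-- `L ≤ 5 q log₂ r` -/
theorem L_le_log (h : Ok P q k1) : (P.L : ℝ) * Real.log 2 ≤ 5 * q * Real.log P.r := by
  have hr : (2 : ℝ) ≤ P.r := by exact_mod_cast h.r_ge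
  have hq : (1 : ℝ) ≤ q := by exact_mod_cast h.hq
  have hn := h.n_ge
  have hLp := h.L_pos
  -- 2^(L-1) ≤ n
  have h1 : 2 ^ (P.L - 1) ≤ P.n := by
    have : P.L - 1 < Nat.size P.n := by rw [← h.hL]; omega
    exact Nat.lt_size.1 this
  have h2 : ((2 : ℝ) ^ (P.L - 1)) ≤ (P.r : ℝ) ^ (4 * q) := by
    exact_mod_cast h1.trans h.hnr
  have h3 := Real.log_le_log (by positivity) h2
  rw [Real.log_pow, Real.log_pow, Nat.cast_sub hLp] at h3
  push_cast at h3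
  have h4 : Real.log 2 ≤ Real.log P.r := Real.log_le_log (by norm_num) hr
  have h5 : 0 ≤ Real.log P.r := Real.log_nonneg (by linarith)
  nlinarith

/-- `L ≤ 5 q r` -/
theorem L_le_r (h : Ok P q k1) : P.L ≤ 5 * q * P.r := by
  have h1 : P.n < 2 ^ (4 * q * P.r) := by
    calc P.n ≤ P.r ^ (4 * q) := h.hnr
      _ < (2 ^ P.r) ^ (4 * q) :=
        Nat.pow_lt_pow_left (Nat.lt_two_pow_self) (by have := h.hq; omega)
      _ = 2 ^ (4 * q * P.r) := by rw [← pow_mul]; congr 1; ring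
  have h2 : P.L ≤ 4 * q * P.r := by rw [h.hL]; exact Nat.size_le.2 h1
  nlinarith

theorem two_pow_cq {cq : ℕ} (hcq : cq = Nat.log 2 (8 * q) + 1) : 8 * q < 2 ^ cq := by
  rw [hcq]; exact Nat.lt_pow_succ_log_self (by norm_num) _

/-- the condition on the number `T = 4 R cq` of steps -/
theorem hlog (h : Ok P q k1) {cq : ℕ} (hcq : cq = Nat.log 2 (8 * q) + 1)
    (hT : P.T = 4 * P.R * cq) :
    2 * P.L * Real.exp (-(P.T / (4 * P.R))) ≤ Real.log (4 * P.r) := by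
  have hR : (0 : ℝ) < P.R := by exact_mod_cast h.R_pos
  have hq : (1 : ℝ) ≤ q := by exact_mod_cast h.hq
  have hr : (2 : ℝ) ≤ P.r := by exact_mod_cast h.r_ge
  have e1 : (P.T : ℝ) / (4 * P.R) = cq := by
    rw [hT]; push_cast; field_simp
  rw [e1]
  have h1 : (8 * q : ℝ) ≤ 2 ^ cq := by exact_mod_cast (two_pow_cq (q := q) hcq).le
  have hcq2 : 2 ≤ cq := by
    rw [hcq]
    have : 1 ≤ Nat.log 2 (8 * q) := by
      refine Nat.le_log_of_pow_le (by norm_num) ?_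
      have := h.hq
      omega
    omega
  have hcq4 : 4 ≤ cq := by
    rw [hcq]
    have : 3 ≤ Nat.log 2 (8 * q) := by
      refine Nat.le_log_of_pow_le (by norm_num) ?_
      have := h.hq
      omega
    omega
  have h2 : Real.exp (-(cq : ℝ)) ≤ 1 / (16 * q) := by
    rw [Real.exp_neg, one_div]
    refine inv_anti₀ (by positivity) ?_
    have h3 : (5 / 2 : ℝ) ≤ Real.exp 1 := by
      have := Real.exp_one_gt_d9; linarith
    calc (16 * q : ℝ) = 2 * (8 * q) := by ring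
      _ ≤ (5 / 4 : ℝ) ^ 4 * (2 : ℝ) ^ cq := by
        refine mul_le_mul (by norm_num) h1 (by positivity) (by positivity)
      _ ≤ (5 / 4 : ℝ) ^ cq * (2 : ℝ) ^ cq :=
        mul_le_mul_of_nonneg_right (pow_le_pow_right₀ (by norm_num) hcq4) (by positivity)
      _ = (5 / 2 : ℝ) ^ cq := by rw [← mul_pow]; norm_num
      _ ≤ (Real.exp 1) ^ cq := pow_le_pow_left₀ (by norm_num) h3 cq
      _ = Real.exp cq := by rw [← Real.exp_nat_mul]; simp
  have hLlR : (P.L : ℝ) ≤ 4 * q * (Nat.log 2 (4 * P.r) : ℕ) := by exact_mod_cast h.L_le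
  have hlog2 : (1 / 2 : ℝ) ≤ Real.log 2 := by
    have := Real.log_two_gt_d9; linarith
  have h6 : 2 * P.L * Real.exp (-(cq : ℝ)) ≤ P.L / (8 * q) := by
    calc 2 * P.L * Real.exp (-(cq : ℝ)) ≤ 2 * P.L * (1 / (16 * q)) :=
          mul_le_mul_of_nonneg_left h2 (by positivity)
      _ = P.L / (8 * q) := by field_simp; ring
  refine h6.trans ?_
  have h7 : (P.L : ℝ) / (8 * q) ≤ (Nat.log 2 (4 * P.r) : ℕ) / 2 := by
    rw [div_le_div_iff₀ (by positivity) (by norm_num)]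
    linarith
  have h8 : ((Nat.log 2 (4 * P.r) : ℕ) : ℝ) * Real.log 2 ≤ Real.log (4 * P.r) := by
    have h9 : 2 ^ Nat.log 2 (4 * P.r) ≤ 4 * P.r :=
      Nat.pow_log_le_self 2 (by have := h.r_ge; omega)
    have h10 : (2 : ℝ) ^ Nat.log 2 (4 * P.r) ≤ 4 * P.r := by exact_mod_cast h9
    have h11 := Real.log_le_log (by positivity) h10
    rwa [Real.log_pow] at h11
  have h12 : (0 : ℝ) ≤ (Nat.log 2 (4 * P.r) : ℕ) := Nat.cast_nonneg _
  nlinarith

/-- the choice of `η` -/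
theorem eta (h : Ok P q k1) {cq : ℕ} (hcq : cq = Nat.log 2 (8 * q) + 1)
    (hT : P.T = 4 * P.R * cq) {η : ℝ} (hη : η = 1 / (100 * q * (32 * k1) * cq)) :
    0 < η ∧ η ≤ 1 ∧ 1 / (P.r : ℝ) ≤ (1 - η) ^ P.T := by
  have hq : (1 : ℝ) ≤ q := by exact_mod_cast h.hq
  have hk1 : (1 : ℝ) ≤ k1 := by exact_mod_cast h.hk1
  have hr : (2 : ℝ) ≤ P.r := by exact_mod_cast h.r_ge
  have hL : (1 : ℝ) ≤ P.L := by exact_mod_cast h.L_pos
  have hcq1 : (1 : ℝ) ≤ cq := by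
    have : 1 ≤ cq := by omega
    exact_mod_cast this
  have hpos : (0 : ℝ) < 100 * q * (32 * k1) * cq := by positivity
  have hbig : (100 : ℝ) ≤ 100 * q * (32 * k1) * cq := by
    have h1 : (1 : ℝ) ≤ q * (32 * k1) * cq := by
      have : (1 : ℝ) ≤ q * (32 * k1) := by nlinarith
      nlinarith
    linarith
  have hη0 : 0 < η := by rw [hη]; positivity
  have hη1 : η ≤ 1 / 100 := by
    rw [hη]
    exact one_div_le_one_div_of_le (by norm_num) hbig
  refine ⟨hη0, by linarith, ?_⟩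
  have h1 : 0 < 1 - η := by linarith
  have hTR : (P.T : ℝ) = 4 * (32 * k1 * P.L) * cq := by
    rw [hT, h.hR]; push_cast; ring
  -- log (1-η) ≥ -2η
  have h2 : -(2 * η) ≤ Real.log (1 - η) := by
    have h3 := Real.one_sub_inv_le_log_of_pos h1
    refine le_trans ?_ h3
    have h4 : (1 - η)⁻¹ ≤ 1 + 2 * η := by
      rw [inv_le_comm₀ h1 (by linarith)]
      rw [inv_le_iff_one_le_mul₀ (by linarith)]
      nlinarith
    linarith
  have h3 : -(Real.log P.r) ≤ P.T * Real.log (1 - η) := by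
    have h4 : (P.T : ℝ) * (-(2 * η)) ≤ P.T * Real.log (1 - η) :=
      mul_le_mul_of_nonneg_left h2 (Nat.cast_nonneg _)
    refine le_trans ?_ h4
    have h5 : (P.T : ℝ) * (2 * η) = 8 * P.L / (100 * q) := by
      rw [hTR, hη]; field_simp; norm_num
    have h6 := h.L_le_log
    have hlog2 : (1 / 2 : ℝ) ≤ Real.log 2 := by
      have := Real.log_two_gt_d9; linarith
    have h7 : 8 * P.L / (100 * q) ≤ Real.log P.r := by
      rw [div_le_iff₀ (by positivity)]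
      have h8 : (P.L : ℝ) * (1 / 2) ≤ P.L * Real.log 2 :=
        mul_le_mul_of_nonneg_left hlog2 (by linarith)
      have h9 : 0 ≤ q * Real.log P.r := mul_nonneg (by linarith) (Real.log_nonneg (by linarith))
      linarith
    linarith
  rw [one_div, ← Real.exp_log (by positivity : (0 : ℝ) < P.r), ← Real.exp_neg,
    ← Real.exp_log (pow_pos h1 P.T), Real.log_pow]
  refine Real.exp_le_exp.2 h3

/-- the three error terms of a leaf -/
theorem delta (h : Ok P q k1) {k2 L0 CS S' S : ℕ} (hk2 : 1 ≤ k2) (hL0 : L0 = Nat.size (72 * k2))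
    (hCS : CS = 1152 * k2 * L0 ^ 2) (hS' : S' = L0 * P.r) (hS : S = CS * P.r ^ 3)
    (hn : 72 * k2 ≤ P.n) :
    0 < S ∧ 16 * (P.r : ℝ) * S' ^ 2 / S + 1 / P.n + Real.exp (-(2 * (S' / P.r : ℝ))) ≤
      1 / (24 * k2) := by
  have hr : (2 : ℝ) ≤ P.r := by exact_mod_cast h.r_ge
  have hr2 := h.r_ge
  have hk2R : (1 : ℝ) ≤ k2 := by exact_mod_cast hk2
  have hL0pos : 0 < L0 := by rw [hL0]; exact Nat.size_pos.2 (by omega)
  have hL0R : (0 : ℝ) < L0 := by exact_mod_cast hL0pos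
  have hSpos : 0 < S := by rw [hS, hCS]; positivity
  refine ⟨hSpos, ?_⟩
  have e1 : 16 * (P.r : ℝ) * S' ^ 2 / S = 1 / (72 * k2) := by
    rw [hS', hS, hCS]
    push_cast
    field_simp
    norm_num
  have e2 : (1 : ℝ) / P.n ≤ 1 / (72 * k2) := by
    refine one_div_le_one_div_of_le (by positivity) ?_
    exact_mod_cast hn
  have e3 : Real.exp (-(2 * (S' / P.r : ℝ))) ≤ 1 / (72 * k2) := by
    have h1 : (S' : ℝ) / P.r = L0 := by
      rw [hS']; push_cast; field_simp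
    rw [h1, Real.exp_neg, one_div]
    refine inv_anti₀ (by positivity) ?_
    have h2 : (72 * k2 : ℝ) ≤ 2 ^ L0 := by
      have : 72 * k2 < 2 ^ L0 := by rw [hL0]; exact Nat.lt_size_self _
      exact_mod_cast this.le
    have h3 : (2 : ℝ) ≤ Real.exp 2 := by
      have := Real.add_one_le_exp (2 : ℝ); linarith
    calc (72 * k2 : ℝ) ≤ 2 ^ L0 := h2
      _ ≤ (Real.exp 2) ^ L0 := pow_le_pow_left₀ (by norm_num) h3 L0
      _ = Real.exp (2 * L0) := by rw [← Real.exp_nat_mul]; congr 1; ring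
  have e4 : (1 : ℝ) / (24 * k2) = 1 / (72 * k2) + 1 / (72 * k2) + 1 / (72 * k2) := by
    field_simp; norm_num
  rw [e4]
  linarith

/-- number of certificates -/
theorem cert (h : Ok P q k1) {k N CS S C : ℕ} (hN : N ≤ P.n) (hS : S = CS * P.r ^ 3)
    (hC : (5 * q + k) * CS ≤ C) : (N * k) ^ S ≤ 2 ^ (C * P.r ^ 4) := by
  have h1 : N * k ≤ 2 ^ (P.L + k) := by
    rw [pow_add]
    exact Nat.mul_le_mul (hN.trans h.n_lt.le) Nat.lt_two_pow_self.le
  calc (N * k) ^ S ≤ (2 ^ (P.L + k)) ^ S := Nat.pow_le_pow_left h1 S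
    _ = 2 ^ ((P.L + k) * S) := by rw [← pow_mul]
    _ ≤ 2 ^ (C * P.r ^ 4) := by
      refine Nat.pow_le_pow_right (by norm_num) ?_
      have h2 : P.L + k ≤ (5 * q + k) * P.r := by
        have := h.L_le_r
        have h3 : k ≤ k * P.r := Nat.le_mul_of_pos_right _ h.r_pos
        calc P.L + k ≤ 5 * q * P.r + k * P.r := by omega
          _ = _ := by ring
      calc (P.L + k) * S ≤ (5 * q + k) * P.r * (CS * P.r ^ 3) := by
            rw [hS]; exact Nat.mul_le_mul_right _ h2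
        _ = (5 * q + k) * CS * P.r ^ 4 := by ring
        _ ≤ C * P.r ^ 4 := Nat.mul_le_mul_right _ hC

/-- number of steps of the process -/
theorem steps (h : Ok P q k1) {C : ℕ} (hC : 35 * q * P.J + 5 * q + 4 ≤ C) :
    2 * P.L * (4 * P.n ^ 5) ^ P.J + 2 ≤ 2 ^ (C * P.r ^ 4) := by
  have h1 : 2 * P.L ≤ 2 ^ (P.L + 1) := by
    rw [pow_succ]
    have : P.L < 2 ^ P.L := Nat.lt_two_pow_self
    omega
  have h3 : 2 ≤ 2 ^ (P.L + 1 + 7 * P.L * P.J) := by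
    calc 2 = 2 ^ 1 := rfl
      _ ≤ _ := Nat.pow_le_pow_right (by norm_num) (by omega)
  have h4 : P.L + 1 + 7 * P.L * P.J + 1 ≤ C * P.r ^ 4 := by
    have h5 := h.L_le_r
    have hr := h.r_pos
    have h6 : P.r ≤ P.r ^ 4 := Nat.le_self_pow (by norm_num) _
    calc P.L + 1 + 7 * P.L * P.J + 1 ≤
        5 * q * P.r + 7 * (5 * q * P.r) * P.J + 2 * P.r := by
          have : 7 * P.L * P.J ≤ 7 * (5 * q * P.r) * P.J :=
            Nat.mul_le_mul_right _ (Nat.mul_le_mul_left _ h5)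
          omega
      _ = (35 * q * P.J + 5 * q + 2) * P.r := by ring
      _ ≤ C * P.r ^ 4 := Nat.mul_le_mul (by omega) h6
  calc 2 * P.L * (4 * P.n ^ 5) ^ P.J + 2 ≤
      2 ^ (P.L + 1) * 2 ^ (7 * P.L * P.J) + 2 ^ (P.L + 1 + 7 * P.L * P.J) :=
        Nat.add_le_add (Nat.mul_le_mul h1 h.K_pow_le) h3
    _ = 2 ^ (P.L + 1 + 7 * P.L * P.J + 1) := by rw [pow_succ, pow_add]; ring
    _ ≤ _ := Nat.pow_le_pow_right (by norm_num) h4

end Ok

/-! ### The constants -/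

/-- `k1` and `k2` for a given `κ` -/
theorem exists_k1_k2 {κ : ℝ} (h0 : 0 < κ) (h1 : κ ≤ 1) : ∃ k1 k2 : ℕ, 1 ≤ k1 ∧ 1 ≤ k2 ∧
    4 / Real.sqrt k1 + 4 / k2 < κ ∧ (k1 : ℝ) ≤ 101 / κ ^ 2 ∧ (k2 : ℝ) ≤ 9 / κ := by
  have hp1 : (0 : ℝ) < 100 / κ ^ 2 := by positivity
  have hp2 : (0 : ℝ) < 8 / κ := by positivity
  refine ⟨⌈100 / κ ^ 2⌉₊, ⌈8 / κ⌉₊, Nat.ceil_pos.2 hp1, Nat.ceil_pos.2 hp2, ?_, ?_, ?_⟩
  · have a1 : 100 / κ ^ 2 ≤ (⌈100 / κ ^ 2⌉₊ : ℝ) := Nat.le_ceil _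
    have a2 : 8 / κ ≤ (⌈8 / κ⌉₊ : ℝ) := Nat.le_ceil _
    have a3 : 10 / κ ≤ Real.sqrt (⌈100 / κ ^ 2⌉₊ : ℝ) := by
      rw [Real.le_sqrt (by positivity) (by positivity)]
      refine le_trans (le_of_eq ?_) a1
      rw [div_pow]; norm_num
    have a4 : 4 / Real.sqrt (⌈100 / κ ^ 2⌉₊ : ℝ) ≤ 4 / (10 / κ) :=
      div_le_div_of_nonneg_left (by norm_num) (by positivity) a3
    have a5 : 4 / (⌈8 / κ⌉₊ : ℝ) ≤ 4 / (8 / κ) :=
      div_le_div_of_nonneg_left (by norm_num) (by positivity) a2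
    have a6 : 4 / (10 / κ) = 4 / 10 * κ := by field_simp
    have a7 : 4 / (8 / κ) = 4 / 8 * κ := by field_simp
    rw [a6] at a4
    rw [a7] at a5
    linarith
  · have := (Nat.ceil_lt_add_one hp1.le).le
    have h3 : 1 ≤ 1 / κ ^ 2 := by
      rw [one_le_div (by positivity)]
      exact pow_le_one₀ h0.le h1
    have h4 : 101 / κ ^ 2 = 100 / κ ^ 2 + 1 / κ ^ 2 := by ring
    linarith
  · have := (Nat.ceil_lt_add_one hp2.le).le
    have h3 : 1 ≤ 1 / κ := by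
      rw [one_le_div (by positivity)]
      exact h1
    have h4 : 9 / κ = 8 / κ + 1 / κ := by ring
    linarith

/-- the value of `ε` obtained -/
theorem eps_le {κ ε : ℝ} (h0 : 0 < κ) {q k1 k2 cq : ℕ} (hq : 1 ≤ q)
    (hk1 : 1 ≤ k1) (hk2 : 1 ≤ k2) (hk1' : (k1 : ℝ) ≤ 101 / κ ^ 2) (hk2' : (k2 : ℝ) ≤ 9 / κ)
    (hcq : cq = Nat.log 2 (8 * q) + 1)
    (hε : ε ≤ κ ^ 3 / (10 ^ 8 * q * Real.log (16 * q))) :
    ε ≤ 1 / (100 * q * (32 * k1) * cq) / (13 * k2) := by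
  have hqR : (1 : ℝ) ≤ q := by exact_mod_cast hq
  have hk1R : (1 : ℝ) ≤ k1 := by exact_mod_cast hk1
  have hk2R : (1 : ℝ) ≤ k2 := by exact_mod_cast hk2
  have hlog2 : (0.69 : ℝ) ≤ Real.log 2 := by
    have := Real.log_two_gt_d9; linarith
  have hlogpos : 0 < Real.log (16 * q) := Real.log_pos (by linarith)
  have hcqR : (cq : ℝ) ≤ 1.45 * Real.log (16 * q) := by
    have h1 : 2 ^ cq ≤ 16 * q := by
      rw [hcq, pow_succ]
      have := Nat.pow_log_le_self 2 (x := 8 * q) (by omega)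
      omega
    have h2 : (2 : ℝ) ^ cq ≤ 16 * q := by exact_mod_cast h1
    have h3 := Real.log_le_log (by positivity) h2
    rw [Real.log_pow] at h3
    have h4 : (0 : ℝ) ≤ cq := Nat.cast_nonneg _
    nlinarith
  have hcqpos : (0 : ℝ) < cq := by
    have : 0 < cq := by omega
    exact_mod_cast this
  refine hε.trans ?_
  rw [div_div, div_le_div_iff₀ (by positivity) (by positivity), one_mul]
  -- κ^3 * (100 q 32 k1 cq 13 k2) ≤ 10^8 q log
  have a1 : (k1 : ℝ) * κ ^ 2 ≤ 101 := by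
    rwa [le_div_iff₀ (by positivity)] at hk1'
  have a2 : (k2 : ℝ) * κ ≤ 9 := by
    rwa [le_div_iff₀ h0] at hk2'
  have a3 : ((k1 : ℝ) * κ ^ 2) * (k2 * κ) ≤ 101 * 9 :=
    mul_le_mul a1 a2 (by positivity) (by norm_num)
  calc κ ^ 3 * (100 * q * (32 * k1) * cq * (13 * k2))
      = (41600 * (q : ℝ) * (cq : ℝ)) * (((k1 : ℝ) * κ ^ 2) * (k2 * κ)) := by ring
    _ ≤ (41600 * (q : ℝ) * (cq : ℝ)) * (101 * 9) := mul_le_mul_of_nonneg_left a3 (by positivity)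
    _ = (37814400 * (q : ℝ)) * (cq : ℝ) := by ring
    _ ≤ (37814400 * (q : ℝ)) * (1.45 * Real.log (16 * q)) :=
      mul_le_mul_of_nonneg_left hcqR (by positivity)
    _ ≤ 10 ^ 8 * q * Real.log (16 * q) := by
      have : 0 ≤ q * Real.log (16 * q) := by positivity
      nlinarith

/-- the final count: sum of the costs of the leaves -/
theorem costs_le {ι : Type*} (Z : List ι) (cost V w : ι → ℝ) {Tot η δ ε : ℝ} {k2 : ℕ}
    (hk2 : 1 ≤ k2) (hη : 0 < η) (hη1 : η ≤ 1) (hTot : 0 ≤ Tot)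
    (hδ : δ ≤ 1 / (24 * k2)) (hε : ε ≤ η / (13 * k2))
    (hcost : ∀ z ∈ Z, cost z ≤ V z * (1 + 12 / η) + 6 * δ * w z)
    (hw0 : ∀ z ∈ Z, 0 ≤ w z)
    (hV : (Z.map V).sum ≤ ε / 4 * Tot) (hw : (Z.map w).sum ≤ Tot) :
    2 * k2 * (Z.map cost).sum ≤ Tot := by
  have hk2R : (1 : ℝ) ≤ k2 := by exact_mod_cast hk2
  have h1 : (Z.map cost).sum ≤ (Z.map V).sum * (1 + 12 / η) + 6 * δ * (Z.map w).sum := by
    clear hV hw
    induction Z with
    | nil => simp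
    | cons z Z ih =>
      have h2 := hcost z (List.mem_cons_self ..)
      have h3 := ih (fun z hz => hcost z (List.mem_cons_of_mem _ hz))
        (fun z hz => hw0 z (List.mem_cons_of_mem _ hz))
      simp only [List.map_cons, List.sum_cons]
      linarith
  have hw' : 0 ≤ (Z.map w).sum := by
    refine List.sum_nonneg fun y hy => ?_
    obtain ⟨x, hx, rfl⟩ := List.mem_map.1 hy
    exact hw0 x hx
  have h2 : (Z.map V).sum * (1 + 12 / η) ≤ ε / 4 * Tot * (1 + 12 / η) :=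
    mul_le_mul_of_nonneg_right hV (by positivity)
  have h3 : 6 * δ * (Z.map w).sum ≤ 1 / (4 * k2) * Tot := by
    have h4 : 6 * δ ≤ 1 / (4 * k2) := by
      have : (1 : ℝ) / (4 * k2) = 6 * (1 / (24 * k2)) := by field_simp; norm_num
      rw [this]; linarith
    calc 6 * δ * (Z.map w).sum ≤ 1 / (4 * k2) * (Z.map w).sum :=
          mul_le_mul_of_nonneg_right h4 hw'
      _ ≤ 1 / (4 * k2) * Tot := mul_le_mul_of_nonneg_left hw (by positivity)
  have h4 : ε / 4 * Tot * (1 + 12 / η) ≤ 1 / (4 * k2) * Tot := by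
    have h5 : ε * (1 + 12 / η) ≤ 1 / k2 := by
      calc ε * (1 + 12 / η) ≤ η / (13 * k2) * (1 + 12 / η) :=
            mul_le_mul_of_nonneg_right hε (by positivity)
        _ = (η + 12) / (13 * k2) := by field_simp
        _ ≤ 13 / (13 * k2) := div_le_div_of_nonneg_right (by linarith) (by positivity)
        _ = 1 / k2 := by field_simp
    calc ε / 4 * Tot * (1 + 12 / η) = ε * (1 + 12 / η) * (Tot / 4) := by ring
      _ ≤ 1 / k2 * (Tot / 4) := mul_le_mul_of_nonneg_right h5 (by positivity)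
      _ = _ := by field_simp
  calc 2 * k2 * (Z.map cost).sum ≤ 2 * k2 * (1 / (4 * k2) * Tot + 1 / (4 * k2) * Tot) :=
        mul_le_mul_of_nonneg_left (by linarith) (by positivity)
    _ = Tot := by field_simp; ring

end Vale.Agent.P325
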