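import Vale.Agent.P325.Params
import Vale.Agent.P325.Main

/-!
# The constants of the algorithm, in the form needed
-/

namespace Vale.Agent.P325

theorem exists_cfacts : ∃ c0 : ℝ, 0 < c0 ∧ ∀ (k q : ℕ) (κ : ℝ), 2 ≤ k → 1 ≤ q → 0 < κ → κ ≤ 1 →
    ∃ (c : Alg.Cst) (η : ℝ), c.k = k ∧ c.q = q ∧
      CFacts c κ η (c0 * κ ^ 3 / (q * (1 + Real.log q))) := by
  obtain ⟨c0, hc0, h⟩ := exists_params
  refine ⟨c0, hc0, fun k q κ hk hq hκ hκ1 => ?_⟩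
  obtain ⟨c, η, h1, h2, h3, h4, h5, h6, h7, h8, h9⟩ := h k q κ hk hq hκ hκ1
  subst h1 h2
  refine ⟨c, η, rfl, rfl, ⟨hk, hq, h3, h4, h5, h6, h7, h8, fun n r B hn hnr hrn hmin hB => ?_⟩⟩
  obtain ⟨a1, a2, _, a4, a5, a6, a7, a8, a9, a10⟩ := h9 n r B hn hnr hrn hmin hB
  exact ⟨a1, a2, a4, a5, a6, a7, a8, a9, a10⟩

end Vale.Agent.P325
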