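import Vale.Agent.P325.Stmt

/-!
# Promise problems solved by Turing machines in time `2 ^ (C * len ^ a)`
-/

namespace Vale.Agent.P325

/-- The Turing machine `M`, started on the word `x`, halts within `t` steps, and its output is the
single bit `ans`. -/
def Outputs (M : Turing.TM2ComputableAux Bool Bool) (x : List Bool) (ans : Bool) (t : ℕ) : Prop :=
  Nonempty (Turing.TM2OutputsInTime M.tm (x.map M.inputAlphabet.invFun)
    (some ([ans].map M.outputAlphabet.invFun)) t)

/-- The promise problem with instances `x : ι`, given by the words `code x`, is solved by one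
deterministic Turing machine (finitely many states and stacks, finite stack alphabets) in time
`2 ^ (C * (len x) ^ a)`, `C` a constant: the machine halts on all instances with one output bit,
which is `true` if `yes x` and `false` if `no x`. -/
def SolvedIn {ι : Type} (code : ι → List Bool) (len : ι → ℝ) (yes no : ι → Prop) (a : ℝ) : Prop :=
  ∃ (M : Turing.TM2ComputableAux Bool Bool) (C : ℕ), (∀ i, Finite (M.tm.Γ i)) ∧
    ∀ x : ι, ∃ (ans : Bool) (t : ℕ), (t : ℝ) ≤ 2 ^ (C * len x ^ a) ∧
      Outputs M (code x) ans t ∧ (yes x → ans = true) ∧ (no x → ans = false)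

end Vale.Agent.P325
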