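import Vale.Agent.P325.Final896
import Vale.Agent.P325.ParamsC
import Vale.Agent.P325.StmtR
import Vale.Agent.Lib.PolyTime.OfTM2

/-!
# Consequence for reductions to the gap problem
-/

namespace Vale.Agent.P325

open Vale.Agent.Lib.PolyTime Vale.Agent.P325.Alg

/-- A polynomial time reduction gives the numbers of the instance in polynomial time. -/
theorem pt_of_tm2 {k : ℕ} {f : List Bool → Inst k}
    (hf : Nonempty (Turing.TM2ComputableInPolyTime (fun w : List Bool => w)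
      (Inst.code : Inst k → List Bool) f)) :
    PT ∅ (fun x : Raw => codeL (f x.w).cons) := by
  obtain ⟨M⟩ := hf
  have M' : Turing.TM2ComputableInPolyTime (fun w : Word => w) (fun w : Word => w)
      (fun x => (f x).code) :=
    { M.toTM2ComputableAux with
      time := M.time
      outputsFun := M.outputsFun }
  exact ⟨_, OfTM2.FP_of_tm2 M', fun a => code_eq_enc (f a.w)⟩

theorem two_mul_le_rpow {δ x : ℝ} (hδ : 0 < δ) (hx : 1 ≤ x) :
    Real.logb 2 (x + 1) ≤ (1 + 1 / (δ * Real.log 2)) * x ^ δ := by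
  have h2 : 0 < Real.log 2 := Real.log_pos (by norm_num)
  have hxd : 1 ≤ x ^ δ := Real.one_le_rpow hx hδ.le
  have h1 : Real.logb 2 (x + 1) ≤ 1 + Real.logb 2 x := by
    have : Real.logb 2 (2 * x) = 1 + Real.logb 2 x := by
      rw [Real.logb_mul (by norm_num) (by linarith), Real.logb_self_eq_one (by norm_num)]
    rw [← this]
    exact Real.logb_le_logb_of_le (by norm_num) (by linarith) (by linarith)
  have h3 : Real.logb 2 x ≤ 1 / (δ * Real.log 2) * x ^ δ := by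
    unfold Real.logb
    have h4 := Real.log_le_rpow_div (by linarith : (0 : ℝ) ≤ x) hδ
    rw [div_le_iff₀ h2]
    calc Real.log x ≤ x ^ δ / δ := h4
      _ = 1 / (δ * Real.log 2) * x ^ δ * Real.log 2 := by field_simp
  calc Real.logb 2 (x + 1) ≤ 1 + Real.logb 2 x := h1
    _ ≤ 1 * x ^ δ + 1 / (δ * Real.log 2) * x ^ δ := by linarith
    _ = _ := by ring

/-- the time bound -/
theorem time_le_real {q : ℕ} (hq : 1 ≤ q) (e C n0 : ℕ) (hn0 : 1 ≤ n0) (A : ℝ) {b : ℝ}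
    (hb : 0 < b) : ∃ C2 : ℕ, ∀ len n r : ℕ, (n : ℝ) ≤ A * ((len : ℝ) + 1) ^ b →
      (∀ r' < r, r' ^ (4 * q) < n + n0) →
      (((len + 2 ^ (C * r ^ 4) + 2) ^ e : ℕ) : ℝ) ≤
        2 ^ (C2 * ((len : ℝ) + 1) ^ (b * (1 / q))) := by
  have hq' : (0 : ℝ) < q := by exact_mod_cast hq
  set δ : ℝ := b * (1 / q) with hδ
  have hδ0 : 0 < δ := by positivity
  have h2 : 0 < Real.log 2 := Real.log_pos (by norm_num)
  set A' : ℝ := |A| + n0 with hA'
  have hA'0 : 0 ≤ A' := by positivity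
  set K : ℝ := e * (2 + 1 / (δ * Real.log 2) + C * (16 * A' ^ (1 / (q : ℝ)))) with hK
  refine ⟨⌈K⌉₊, fun len n r hn hr => ?_⟩
  set X : ℝ := ((len : ℝ) + 1) ^ δ with hX
  have hx1 : (1 : ℝ) ≤ (len : ℝ) + 1 := by have : (0 : ℝ) ≤ len := Nat.cast_nonneg _; linarith
  have hX1 : 1 ≤ X := Real.one_le_rpow hx1 hδ0.le
  -- bound for r
  have hr4 : (r : ℝ) ^ 4 ≤ 16 * A' ^ (1 / (q : ℝ)) * X := by
    have h3 := r_pow_le hq (by omega : 1 ≤ n + n0) hr
    have h4 : ((n + n0 : ℕ) : ℝ) ≤ A' * ((len : ℝ) + 1) ^ b := by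
      push_cast
      have h5 : (1 : ℝ) ≤ ((len : ℝ) + 1) ^ b := Real.one_le_rpow hx1 hb.le
      have h6 : A * ((len : ℝ) + 1) ^ b ≤ |A| * ((len : ℝ) + 1) ^ b :=
        mul_le_mul_of_nonneg_right (le_abs_self A) (by positivity)
      have h7 : (n0 : ℝ) ≤ n0 * ((len : ℝ) + 1) ^ b :=
        le_mul_of_one_le_right (Nat.cast_nonneg _) h5
      rw [hA', add_mul]
      linarith
    have h8 : ((n + n0 : ℕ) : ℝ) ^ (1 / (q : ℝ)) ≤ A' ^ (1 / (q : ℝ)) * X := by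
      calc ((n + n0 : ℕ) : ℝ) ^ (1 / (q : ℝ)) ≤ (A' * ((len : ℝ) + 1) ^ b) ^ (1 / (q : ℝ)) :=
            Real.rpow_le_rpow (Nat.cast_nonneg _) h4 (by positivity)
        _ = A' ^ (1 / (q : ℝ)) * (((len : ℝ) + 1) ^ b) ^ (1 / (q : ℝ)) :=
            Real.mul_rpow hA'0 (by positivity)
        _ = A' ^ (1 / (q : ℝ)) * X := by
            rw [← Real.rpow_mul (by linarith)]
    calc (r : ℝ) ^ 4 ≤ 16 * ((n + n0 : ℕ) : ℝ) ^ (1 / (q : ℝ)) := h3
      _ ≤ 16 * (A' ^ (1 / (q : ℝ)) * X) := mul_le_mul_of_nonneg_left h8 (by norm_num)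
      _ = _ := by ring
  -- the sum as a power of two
  have hlen : ((len + 2 : ℕ) : ℝ) = 2 ^ Real.logb 2 (len + 1 + 1) := by
    rw [Real.rpow_logb (by norm_num) (by norm_num) (by positivity)]
    push_cast; ring
  have hlog := two_mul_le_rpow hδ0 hx1
  have hsum : ((len + 2 ^ (C * r ^ 4) + 2 : ℕ) : ℝ) ≤
      2 ^ ((2 + 1 / (δ * Real.log 2) + C * (16 * A' ^ (1 / (q : ℝ)))) * X) := by
    have h3 : ((len + 2 ^ (C * r ^ 4) + 2 : ℕ) : ℝ) ≤ 2 * ((len + 2 : ℕ) : ℝ) *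
        2 ^ (C * r ^ 4) := by
      have h4 : (1 : ℝ) ≤ 2 ^ (C * r ^ 4) := one_le_pow₀ (by norm_num)
      have h5 : (1 : ℝ) ≤ ((len + 2 : ℕ) : ℝ) := by push_cast; linarith
      push_cast at h5 ⊢
      nlinarith
    refine h3.trans ?_
    rw [hlen]
    have h4 : ((2 : ℝ) ^ (C * r ^ 4) : ℝ) = 2 ^ ((C * r ^ 4 : ℕ) : ℝ) := by
      rw [Real.rpow_natCast]
    rw [h4]
    have h5 : (2 : ℝ) * 2 ^ Real.logb 2 (len + 1 + 1) * 2 ^ ((C * r ^ 4 : ℕ) : ℝ) =
        2 ^ (1 + Real.logb 2 (len + 1 + 1) + ((C * r ^ 4 : ℕ) : ℝ)) := by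
      rw [Real.rpow_add (by norm_num), Real.rpow_add (by norm_num), Real.rpow_one]
    rw [h5]
    refine Real.rpow_le_rpow_of_exponent_le (by norm_num) ?_
    have h6 : ((C * r ^ 4 : ℕ) : ℝ) ≤ C * (16 * A' ^ (1 / (q : ℝ))) * X := by
      push_cast
      calc (C : ℝ) * (r : ℝ) ^ 4 ≤ C * (16 * A' ^ (1 / (q : ℝ)) * X) :=
            mul_le_mul_of_nonneg_left hr4 (Nat.cast_nonneg _)
        _ = _ := by ring
    calc 1 + Real.logb 2 (len + 1 + 1) + ((C * r ^ 4 : ℕ) : ℝ) ≤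
        1 * X + (1 + 1 / (δ * Real.log 2)) * X + C * (16 * A' ^ (1 / (q : ℝ))) * X := by
          linarith
      _ = _ := by ring
  calc (((len + 2 ^ (C * r ^ 4) + 2) ^ e : ℕ) : ℝ) = ((len + 2 ^ (C * r ^ 4) + 2 : ℕ) : ℝ) ^ e := by
        push_cast; ring
    _ ≤ (2 ^ ((2 + 1 / (δ * Real.log 2) + C * (16 * A' ^ (1 / (q : ℝ)))) * X)) ^ e :=
        pow_le_pow_left₀ (Nat.cast_nonneg _) hsum e
    _ = 2 ^ (K * X) := by
        rw [← Real.rpow_natCast, ← Real.rpow_mul (by norm_num), hK]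
        congr 1
        ring
    _ ≤ 2 ^ ((⌈K⌉₊ : ℝ) * X) := by
        refine Real.rpow_le_rpow_of_exponent_le (by norm_num) ?_
        exact mul_le_mul_of_nonneg_right (Nat.le_ceil _) (by positivity)

/-- Languages which reduce to the gap problem. -/
theorem reduction_q {c : Alg.Cst} {κ η ε : ℝ} (hc : CFacts c κ η ε) (L : Set (List Bool))
    (f : List Bool → Inst c.k) {A b : ℝ} (hb : 0 < b)
    (hf : Nonempty (Turing.TM2ComputableInPolyTime (fun w : List Bool => w)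
      (Inst.code : Inst c.k → List Bool) f))
    (hsize : ∀ x, ((f x).size : ℝ) ≤ A * ((x.length : ℝ) + 1) ^ b)
    (hyes : ∀ x ∈ L, 1 - ε ≤ (f x).val) (hno : ∀ x ∉ L, (f x).val ≤ 1 - κ) :
    ∃ (M : Turing.TM2ComputableAux Bool Bool) (C : ℕ), (∀ i, Finite (M.tm.Γ i)) ∧
      ∀ x : List Bool, ∃ (ans : Bool) (t : ℕ),
        (t : ℝ) ≤ 2 ^ (C * ((x.length : ℝ) + 1) ^ (b * (1 / c.q))) ∧
        Outputs M x ans t ∧ (ans = true ↔ x ∈ L) := by
  have hG : PT ∅ (fun s : Raw × Raw =>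
      Alg.main c (codeL (f s.1.w).cons) s.2.w.length) :=
    (AlgPT3.PT_main (A := ∅) c).comp
      (((pt_of_tm2 hf).comp (PT.fst' (α := Raw) (β := Raw))).pair PT.snd')
  obtain ⟨M, e, hM, h⟩ := exists_search_tm hG
  obtain ⟨C2, hC2⟩ := time_le_real hc.hq e c.C c.n0 hc.hn0 A hb
  refine ⟨M, C2, hM, fun x => ?_⟩
  obtain ⟨r, h1, h2, h3⟩ := exists_least (n := (f x).size + c.n0) hc.hq
  have hne : Alg.main c (codeL (f x).cons) (Raw.mk (pad (c.C * r ^ 4))).w.length ≠ none := by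
    show Alg.main c (codeL (f x).cons) (pad (c.C * r ^ 4)).length ≠ none
    rw [length_pad]
    exact main_some hc (f x) h1 h2 h3 le_rfl
  obtain ⟨y, j, hj, hy, -, hout⟩ := h (Raw.mk x) (2 ^ (c.C * r ^ 4)) (c.C * r ^ 4) le_rfl hne
  refine ⟨y, (x.length + 2 ^ (c.C * r ^ 4) + 2) ^ e, hC2 x.length (f x).size r (hsize x) h2,
    hout, ?_⟩
  have hspec := main_spec hc (f x) hy
  constructor
  · intro hy1
    by_contra hx
    have := hspec.2 (hno x hx)
    rw [hy1] at this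
    exact absurd this (by decide)
  · intro hx
    exact hspec.1 (hyes x hx)

end Vale.Agent.P325
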