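import Vale.Agent.P325.Filt
import Mathlib.Analysis.Matrix.Spectrum

/-!
# Spectral estimates for the filter
-/

namespace Vale.Agent.P325

open Finset Matrix

variable {X : Type*} [Fintype X] {M : X → X → ℝ}

/-- the symmetric normalisation of the walk -/
noncomputable def symM (M : X → X → ℝ) : Matrix X X ℝ := fun x y =>
  M x y / (Real.sqrt (deg M x) * Real.sqrt (deg M y))

theorem IsForm.symM_herm (hM : IsForm M) : (symM M).IsHermitian := by
  ext x y
  simp only [Matrix.conjTranspose_apply, symM, star_trivial]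
  rw [hM.symm y x, mul_comm]

/-- the isometry: multiplication with the square roots of the degrees -/
noncomputable def sq' (M : X → X → ℝ) (h : X → ℝ) : EuclideanSpace ℝ X :=
  WithLp.toLp 2 fun x => Real.sqrt (deg M x) * h x

theorem IsForm.inner_sq (hM : IsForm M) (h g : X → ℝ) :
    inner ℝ (sq' M h) (sq' M g) = ip M h g := by
  rw [PiLp.inner_apply]
  unfold ip
  refine sum_congr rfl fun x _ => ?_
  simp only [sq', RCLike.inner_apply, conj_trivial]
  have := Real.mul_self_sqrt (hM.deg_nonneg x)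
  calc Real.sqrt (deg M x) * g x * (Real.sqrt (deg M x) * h x)
      = (Real.sqrt (deg M x) * Real.sqrt (deg M x)) * (h x * g x) := by ring
    _ = _ := by rw [this]

theorem IsForm.sq_walk (hM : IsForm M) (h : X → ℝ) :
    (sq' M (walk M h)).ofLp = symM M *ᵥ (sq' M h).ofLp := by
  funext x
  simp only [sq', Matrix.mulVec, dotProduct, symM]
  by_cases hx : deg M x = 0
  · rw [hx, Real.sqrt_zero, zero_mul]
    refine (sum_eq_zero fun y _ => ?_).symm
    rw [zero_mul, div_zero, zero_mul]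
  · have hx' : 0 < deg M x := lt_of_le_of_ne (hM.deg_nonneg x) (Ne.symm hx)
    have hsx : 0 < Real.sqrt (deg M x) := Real.sqrt_pos.2 hx'
    have e1 : Real.sqrt (deg M x) * walk M h x = (∑ y, M x y * h y) / Real.sqrt (deg M x) := by
      unfold walk
      rw [eq_div_iff hsx.ne']
      calc Real.sqrt (deg M x) * ((∑ y, M x y * h y) / deg M x) * Real.sqrt (deg M x)
          = (Real.sqrt (deg M x) * Real.sqrt (deg M x)) * (∑ y, M x y * h y) / deg M x := by ring
        _ = _ := by
          rw [Real.mul_self_sqrt hx'.le]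
          field_simp
    rw [e1, sum_div]
    refine sum_congr rfl fun y _ => ?_
    by_cases hy : deg M y = 0
    · have : M x y = 0 := by rw [hM.symm]; exact hM.eq_zero_of_deg hy x
      rw [this]; simp
    · have hy' : 0 < deg M y := lt_of_le_of_ne (hM.deg_nonneg y) (Ne.symm hy)
      have hsy : 0 < Real.sqrt (deg M y) := Real.sqrt_pos.2 hy'
      field_simp

variable [DecidableEq X]

/-- coefficients with respect to the eigenbasis -/
noncomputable def IsForm.coef (hM : IsForm M) (j : X) (h : X → ℝ) : ℝ :=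
  inner ℝ (hM.symM_herm.eigenvectorBasis j) (sq' M h)

/-- eigenvalues -/
noncomputable def IsForm.ev (hM : IsForm M) (j : X) : ℝ := hM.symM_herm.eigenvalues j

theorem IsForm.sum_coef_mul (hM : IsForm M) (h g : X → ℝ) :
    ∑ j, hM.coef j h * hM.coef j g = ip M h g := by
  rw [← hM.inner_sq, ← hM.symM_herm.eigenvectorBasis.sum_inner_mul_inner]
  refine sum_congr rfl fun j _ => ?_
  unfold IsForm.coef
  rw [real_inner_comm (sq' M h)]

theorem IsForm.sum_coef_sq (hM : IsForm M) (h : X → ℝ) : ∑ j, hM.coef j h ^ 2 = nrm M h := by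
  rw [← ip_self, ← hM.sum_coef_mul]
  exact sum_congr rfl fun j _ => sq _

theorem IsForm.coef_walk (hM : IsForm M) (j : X) (h : X → ℝ) :
    hM.coef j (walk M h) = hM.ev j * hM.coef j h := by
  unfold IsForm.coef IsForm.ev
  set e := hM.symM_herm.eigenvectorBasis j with he
  have h1 : inner ℝ e (sq' M (walk M h)) = (sq' M (walk M h)).ofLp ⬝ᵥ e.ofLp := by
    rw [EuclideanSpace.inner_eq_star_dotProduct]
    simp
  have h2 : inner ℝ e (sq' M h) = (sq' M h).ofLp ⬝ᵥ e.ofLp := by
    rw [EuclideanSpace.inner_eq_star_dotProduct]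
    simp
  rw [h1, h2, hM.sq_walk, dotProduct_comm, Matrix.dotProduct_mulVec, ← Matrix.mulVec_transpose]
  have h3 : (symM M)ᵀ = symM M := by
    have := hM.symM_herm
    rwa [Matrix.IsHermitian, Matrix.conjTranspose_eq_transpose_of_trivial] at this
  rw [h3, he, hM.symM_herm.mulVec_eigenvectorBasis j, smul_dotProduct, smul_eq_mul,
    dotProduct_comm]

theorem IsForm.coef_walk_iter (hM : IsForm M) (j : X) (t : ℕ) (h : X → ℝ) :
    hM.coef j ((walk M)^[t] h) = hM.ev j ^ t * hM.coef j h := by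
  induction t with
  | zero => simp
  | succ t ih =>
    rw [Function.iterate_succ_apply', hM.coef_walk, ih, pow_succ]
    ring

theorem IsForm.coef_sub (hM : IsForm M) (j : X) (h g : X → ℝ) :
    hM.coef j (fun x => h x - g x) = hM.coef j h - hM.coef j g := by
  unfold IsForm.coef
  rw [← inner_sub_right]
  congr 1
  ext x
  simp only [sq', PiLp.sub_apply]
  ring

theorem IsForm.coef_iter (hM : IsForm M) (j : X) (T S : ℕ) (h : X → ℝ) :
    hM.coef j ((fun g y => g y - (walk M)^[T] g y)^[S] h) =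
      (1 - hM.ev j ^ T) ^ S * hM.coef j h := by
  induction S with
  | zero => simp
  | succ S ih =>
    rw [Function.iterate_succ_apply']
    rw [hM.coef_sub, hM.coef_walk_iter, ih, pow_succ]
    ring

theorem IsForm.coef_filt (hM : IsForm M) (j : X) (T S : ℕ) (h : X → ℝ) :
    hM.coef j (filt M T S h) = (1 - (1 - hM.ev j ^ T) ^ S) * hM.coef j h := by
  unfold filt
  rw [hM.coef_sub, hM.coef_iter]
  ring

theorem IsForm.Q_eq_sum (hM : IsForm M) (h : X → ℝ) :
    Q M h h = ∑ j, hM.ev j * hM.coef j h ^ 2 := by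
  rw [hM.Q_eq_ip, ← hM.sum_coef_mul]
  refine sum_congr rfl fun j _ => ?_
  rw [hM.coef_walk]
  ring

theorem IsForm.ev_eq (hM : IsForm M) (j : X) : ∃ h : X → ℝ, Q M h h = hM.ev j ∧ nrm M h ≤ 1 := by
  set e := hM.symM_herm.eigenvectorBasis j with he
  have he1 : ∑ x, e x ^ 2 = 1 := by
    have := hM.symM_herm.eigenvectorBasis.orthonormal.1 j
    rw [← he, EuclideanSpace.norm_eq, Real.sqrt_eq_one] at this
    simpa using this
  refine ⟨fun x => e x / Real.sqrt (deg M x), ?_, ?_⟩
  · have h1 : Q M (fun x => e x / Real.sqrt (deg M x)) (fun x => e x / Real.sqrt (deg M x)) =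
        e.ofLp ⬝ᵥ (symM M *ᵥ e.ofLp) := by
      unfold Q
      simp only [dotProduct, Matrix.mulVec, symM]
      refine sum_congr rfl fun x _ => ?_
      rw [mul_sum]
      refine sum_congr rfl fun y _ => ?_
      ring
    rw [h1, he, hM.symM_herm.mulVec_eigenvectorBasis j, dotProduct_smul, smul_eq_mul]
    have h2 : e.ofLp ⬝ᵥ e.ofLp = 1 := by
      rw [← he1]
      simp only [dotProduct]
      exact sum_congr rfl fun x _ => by ring
    rw [← he, h2, mul_one]
    rfl
  · rw [← he1]
    unfold nrm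
    refine sum_le_sum fun x _ => ?_
    rw [div_pow, Real.sq_sqrt (hM.deg_nonneg x)]
    rcases (hM.deg_nonneg x).eq_or_lt with h | h
    · rw [← h]; simp [sq_nonneg]
    · rw [mul_div_cancel₀ _ h.ne']

theorem IsForm.ev_nonneg (hM : IsForm M) (j : X) : 0 ≤ hM.ev j := by
  obtain ⟨h, h1, _⟩ := hM.ev_eq j
  rw [← h1]; exact hM.psd h

theorem IsForm.ev_le_one (hM : IsForm M) (j : X) : hM.ev j ≤ 1 := by
  obtain ⟨h, h1, h2⟩ := hM.ev_eq j
  rw [← h1]; exact (hM.Q_le_nrm h).trans h2

/-- the filter is a contraction -/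
theorem IsForm.nrm_filt_le (hM : IsForm M) (T S : ℕ) (h : X → ℝ) :
    nrm M (filt M T S h) ≤ nrm M h := by
  rw [← hM.sum_coef_sq, ← hM.sum_coef_sq]
  refine sum_le_sum fun j _ => ?_
  rw [hM.coef_filt, mul_pow]
  have h0 := hM.ev_nonneg j
  have h1 := hM.ev_le_one j
  have h2 : 0 ≤ 1 - hM.ev j ^ T := by
    have := pow_le_one₀ (n := T) h0 h1
    linarith
  have h3 : 1 - hM.ev j ^ T ≤ 1 := by
    have := pow_nonneg h0 T
    linarith
  have h4 := pow_nonneg h2 S
  have h5 := pow_le_one₀ (n := S) h2 h3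
  have h6 : (1 - (1 - hM.ev j ^ T) ^ S) ^ 2 ≤ 1 := by
    nlinarith
  nlinarith [sq_nonneg (hM.coef j h)]

/-- the filter is dominated by `S P^T` -/
theorem IsForm.nrm_filt_le_walk (hM : IsForm M) (T S : ℕ) (h : X → ℝ) :
    nrm M (filt M T S h) ≤ (S : ℝ) ^ 2 * nrm M ((walk M)^[T] h) := by
  rw [← hM.sum_coef_sq, ← hM.sum_coef_sq, mul_sum]
  refine sum_le_sum fun j _ => ?_
  rw [hM.coef_filt, hM.coef_walk_iter, mul_pow, mul_pow, ← mul_assoc]
  refine mul_le_mul_of_nonneg_right ?_ (sq_nonneg _)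
  rw [← mul_pow]
  have h0 := hM.ev_nonneg j
  have h1 := hM.ev_le_one j
  have h2 := pow_le_one₀ (n := T) h0 h1
  have h2' := pow_nonneg h0 T
  have h3 : 1 - (S : ℝ) * hM.ev j ^ T ≤ (1 - hM.ev j ^ T) ^ S := by
    have := one_add_mul_le_pow (a := -(hM.ev j ^ T)) (by linarith) S
    simpa [sub_eq_add_neg] using this
  have h4 : (1 - hM.ev j ^ T) ^ S ≤ 1 := pow_le_one₀ (by linarith) (by linarith)
  exact pow_le_pow_left₀ (by linarith) (by linarith) 2

/-- the filter is close to the identity on functions of small energy -/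
theorem IsForm.nrm_sub_filt_le (hM : IsForm M) (T S r : ℕ) {η : ℝ} (hη : 0 < η)
    (hη1 : η ≤ 1) (hT : 1 / (r : ℝ) ≤ (1 - η) ^ T) (h : X → ℝ) :
    nrm M (h - filt M T S h) ≤ Real.exp (-(2 * (S / r : ℝ))) * nrm M h + energy M h / η := by
  have hcoef : ∀ j, hM.coef j (h - filt M T S h) = (1 - hM.ev j ^ T) ^ S * hM.coef j h := by
    intro j
    have := hM.coef_sub j h (filt M T S h)
    rw [show (h - filt M T S h) = fun x => h x - filt M T S h x from rfl, this, hM.coef_filt]
    ring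
  rw [hM.energy_eq, hM.Q_eq_sum, ← hM.sum_coef_sq, ← hM.sum_coef_sq, ← sum_sub_distrib, sum_div,
    mul_sum, ← sum_add_distrib]
  refine sum_le_sum fun j _ => ?_
  rw [hcoef, mul_pow]
  have h0 := hM.ev_nonneg j
  have h1 := hM.ev_le_one j
  have hTp := pow_nonneg h0 T
  have hT1 := pow_le_one₀ (n := T) h0 h1
  have e : (hM.coef j h ^ 2 - hM.ev j * hM.coef j h ^ 2) / η =
      (1 - hM.ev j) / η * hM.coef j h ^ 2 := by ring
  rw [e, ← add_mul]
  refine mul_le_mul_of_nonneg_right ?_ (sq_nonneg _)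
  have hexp := (Real.exp_pos (-(2 * (S / r : ℝ)))).le
  rcases le_or_gt (1 - η) (hM.ev j) with hc | hc
  · -- large eigenvalue
    have h2 : 1 / (r : ℝ) ≤ hM.ev j ^ T :=
      hT.trans (pow_le_pow_left₀ (by linarith) hc T)
    have h3 : (1 - hM.ev j ^ T) ^ S ≤ Real.exp (-(S / r : ℝ)) := by
      have h4 : 1 - hM.ev j ^ T ≤ Real.exp (-(1 / r : ℝ)) := by
        have := Real.add_one_le_exp (-(1 / r : ℝ))
        linarith
      refine (pow_le_pow_left₀ (by linarith) h4 S).trans (le_of_eq ?_)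
      rw [← Real.exp_nat_mul]
      congr 1
      ring
    have h5 : ((1 - hM.ev j ^ T) ^ S) ^ 2 ≤ Real.exp (-(2 * (S / r : ℝ))) := by
      refine (pow_le_pow_left₀ (pow_nonneg (by linarith) S) h3 2).trans (le_of_eq ?_)
      rw [← Real.exp_nat_mul]
      congr 1
      push_cast
      ring
    have h6 : 0 ≤ (1 - hM.ev j) / η := div_nonneg (by linarith) hη.le
    linarith
  · have h2 : ((1 - hM.ev j ^ T) ^ S) ^ 2 ≤ 1 := by
      have h3 := pow_nonneg (show 0 ≤ 1 - hM.ev j ^ T by linarith) S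
      have h4 := pow_le_one₀ (n := S) (show 0 ≤ 1 - hM.ev j ^ T by linarith) (by linarith)
      nlinarith
    have h3 : 1 ≤ (1 - hM.ev j) / η := by
      rw [le_div_iff₀ hη]
      linarith
    linarith

end Vale.Agent.P325
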